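import Vale.Agent.P106.U.H357.HV
import Vale.Agent.P106.U.H785.MtrFz

/-!
# P106 / U / H357 : hypothesis `hV` of RISE over a run, all kinds of levels (helper357)

* `eL` : the error of one time step in the letters of `S3.F2`.
* `HvN` : the numbers; `lev_of`.
* `hv_O`, `hv_K`, `hv_P` : old level, young level in the kappa regime, young level in the deep phi regime.
* **`hV_run`** : all time steps of a compressed path `f`, any letters `Y`, error `eH`; `hV_u` : with the function `uV` of the levels.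
-/

set_option autoImplicit false

namespace Vale.Agent.P106.U.H357

open Finset Vale.Agent.P127 Vale.Agent.P127.Stk Vale.Agent.P127.U.Mic
open Vale.Agent.P127.U.CellD
open Vale.Agent.P106.U.Cell
open Vale.Agent.P106.U.H101 (lc)
open Vale.Agent.P106.U.S3

/-! ### the error of a time step -/

section eL

variable {Ω : Type} [Fintype Ω] {τ τ₀ ε₀ υ : Type}

/-- first information -/
noncomputable def I1L (P : Law Ω) (C : Pth Ω τ) (b pv J i' : ℕ) (E : Ω → ε₀) : ℝ :=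
  mi P (fun ω => fl1 (b + pv) (C.l ω).v) E (fun ω => (LDk C b J ω, LTh C b i' ω))

/-- second information -/
noncomputable def I2L (P : Law Ω) (C : Pth Ω τ) (b b' J i' : ℕ) : ℝ :=
  mi P (LTh C b i') (C.cell J b') (LDk C b J)

/-- error without the price of `Y` -/
noncomputable def eM (P : Law Ω) (C : Pth Ω τ) (m g b b' pv J i' : ℕ) (E : Ω → ε₀) : ℝ :=
  15 + 13 * m * (cTL P C b J g + cYL P C b J g) +
    2 ^ (22 * g) * (Real.sqrt (I1L P C b pv J i' E) + Real.sqrt (I2L P C b b' J i'))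

lemma eM_nonneg (P : Law Ω) (C : Pth Ω τ) (m g b b' pv J i' : ℕ) (E : Ω → ε₀) : 0 ≤ eM P C m g b b' pv J i' E := by
  unfold eM
  have h1 : 0 ≤ cTL P C b J g := cTL_nonneg P C b J g
  have h2 : 0 ≤ cYL P C b J g := cYL_nonneg P C b J g
  have h3 := Real.sqrt_nonneg (I1L P C b pv J i' E)
  have h4 := Real.sqrt_nonneg (I2L P C b b' J i')
  positivity

/-- the numbers -/
structure HvN (K : ℝ) (m g μ pv b b' : ℕ) : Prop where
  K1 : 1 ≤ K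
  m1 : 1 ≤ m
  mg : m ≤ g
  gμ : g ≤ μ
  μp : μ ≤ pv
  b8 : 8 * μ ≤ b
  bb : b + 8 * μ ≤ b'
  bp : b + pv ≤ b'
  big : 10 * 2 ^ (m + 5 * g + 4) * (70 * K ^ 4 * q2 μ) ≤ 1

omit [Fintype Ω] in
lemma lev_of {C : Pth Ω τ} {J b : ℕ} (h1 : 8 * C.μ ≤ b) (h2 : 8 * C.μ ≤ C.rk J) : C.Lev J b :=
  ⟨h1, h2.trans (Nat.le_add_right _ _)⟩

/-- `hV_L` with the informations themselves -/
theorem hV_M {P : Law Ω} {C : Pth Ω τ} {C₀ : Pth Ω τ₀} {K : ℝ} {m g pv b b' J i' k k' : ℕ} {E : Ω → ε₀}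
    (N : HvN K m g C.μ pv b b') (hS : SameL C C₀) (hK : ∀ ω, 0 < P.w ω → C.Ok K ω) (hr : 8 * C.μ ≤ C.rk J)
    (ha : C.a J + 4 * C.μ ≤ C.a i') (hj : J ≤ i') (hk' : C.a J = C₀.a k') (hkj : C₀.a k' = C₀.a k + m)
    (hE : EOk P C J b i' E) (Y : Ω → υ) :
    2 * (m * Real.log 2) - (eM P C m g b b' pv J i' E + hc P Y (C.cell J b)) ≤
      hc P (C₀.VZ k' b) (fun ω => (fl1 (C₀.a k') (C₀.t ω), (Y ω, C₀.VZ k b ω))) :=
  hV_L hS N.K1 hK (lev_of N.b8 hr) (lev_of (N.b8.trans (by have := N.bb; omega)) hr) N.bb N.bp N.μp ha hj hk' hkj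
    N.m1 N.mg N.gμ N.big hE le_rfl le_rfl Y

end eL

section run

variable {Ω : Type} [Fintype Ω] {τ υ π : Type} {R : Run Ω τ υ} {p : Run.Num} {F : Pf R π} {B bS bV : ℕ} {Vs Xs : Finset ℕ}
  {μ : ℕ} {o : Fin 7 → ℝ} {o' : ℕ → ℝ} {K : ℝ}

omit [Fintype Ω] in
lemma same_refl {τ : Type} (C : Pth Ω τ) : SameL C C := ⟨rfl, rfl, rfl, rfl⟩

lemma same_fz (R : Run Ω τ υ) (F : Pf R π) (μ : ℕ) (o : Fin 7 → ℝ) (o' : ℕ → ℝ) (J : ℕ) :
    SameL ((mt R F μ o o').fz J J) (lc R.C μ o) := ⟨rfl, rfl, rfl, rfl⟩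

lemma same_fz0 (R : Run Ω τ υ) (F : Pf R π) (μ : ℕ) (o : Fin 7 → ℝ) (o' : ℕ → ℝ) (J : ℕ) :
    SameL ((mt0 R F μ o o').fz J J) (lc R.C μ o) := ⟨rfl, rfl, rfl, rfl⟩

/-- the cell of the later letter as the later letter of the frozen path -/
theorem EOk_mtr (P : Law Ω) (D : H785.Mtr.Mtd Ω π) {J i' b : ℕ} (hJi : J ≤ i') (hl : (D.fz J J).Lev J b)
    (ha : D.a J + 4 * D.μ ≤ D.a i') : EOk P (D.fz J J) J b i' (D.mtr i' b) := by
  have hS : SameL (D.fz J J) (D.fz i' i') := ⟨rfl, rfl, rfl, rfl⟩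
  have e1 : (D.fz J J).a i' = D.a i' := D.fz_a' hJi
  have e2 : (D.fz i' i').a i' = D.a i' := D.fz_a' le_rfl
  have e3 : (D.fz J J).a J = D.a J := D.fz_a' le_rfl
  refine (EOk.same (P := P) (i₀ := i') hS (e1.trans e2.symm) hl ?_).fn ?_
  · rw [e1, e3]; exact ha
  · intro ω ω' _ _ e
    exact (D.fz_cell_iff le_rfl b ω ω').2 e

omit [Fintype Ω] in
/-- a larger class -/
theorem ok_up {τ : Type} {C : Pth Ω τ} {K K' : ℝ} {ω : Ω} (h0 : 0 < K) (h : K ≤ K') (hK : C.Ok K ω) : C.Ok K' ω := by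
  refine ⟨hK.v1, hK.w1, hK.p1, fun i => ?_, fun i => (hK.n2 i).trans h, fun i => (hK.k1 i).trans h,
    fun i => (hK.a1 i).trans h, fun i j hij => ?_⟩
  · have h1 := hK.n1 i
    have h2 : 0 < (C.F i ω).cN (C.l ω) (C.s i ω) := by
      by_contra hc
      push Not at hc
      nlinarith
    have h3 := mul_le_mul_of_nonneg_right h h2.le
    linarith
  · obtain ⟨a1, a2, a3⟩ := hK.ag i j hij
    have hq := mul_le_mul_of_nonneg_right h (q2_pos (C.rk i)).le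
    exact ⟨a1.trans hq, a2.trans hq, a3.trans hq⟩

/-- **old level** -/
theorem hv_O {σ : Type} {g pv b' k J i' : ℕ} (N : HvN K R.m g μ pv (R.m * R.b1) b')
    (hK : ∀ ω, 0 < R.Q.w ω → (lc R.C μ o).Ok K ω) (hr : 8 * μ ≤ R.C.rk J) (ha : R.C.a J + 4 * μ ≤ R.C.a i')
    (hj : J ≤ i') (hkJ : R.C.a J = R.C.a k + R.m) (Y : Ω → σ) :
    2 * (R.m * Real.log 2) - (eM R.Q (lc R.C μ o) R.m g (R.m * R.b1) b' pv J i' ((lc R.C μ o).cell i' (R.m * R.b1)) +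
        hc R.Q Y ((lc R.C μ o).cell J (R.m * R.b1))) ≤
      hc R.Q ((lc R.C μ o).VZ J (R.m * R.b1))
        (fun ω => (fl1 (R.C.a J) (R.C.t ω), (Y ω, (lc R.C μ o).VZ k (R.m * R.b1) ω))) :=
  hV_M (C := lc R.C μ o) (C₀ := lc R.C μ o) N (same_refl _) hK hr ha hj rfl hkJ
    (EOk.cell (lev_of N.b8 hr) ha) Y

/-- **young level** over the data `D` -/
theorem hv_Y {σ : Type} (D : H785.Mtr.Mtd Ω π) {C₀ : Pth Ω τ} {m g pv b b' k J i' : ℕ} (N : HvN K m g D.μ pv b b')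
    (hS : SameL (D.fz J J) C₀) (hK : ∀ ω, 0 < R.Q.w ω → (D.fz J J).Ok K ω) (hr : 8 * D.μ ≤ D.rr J)
    (ha : D.a J + 4 * D.μ ≤ D.a i') (hj : J ≤ i') (hJ : D.a J = C₀.a J) (hkJ : C₀.a J = C₀.a k + m) (Y : Ω → σ) :
    2 * (m * Real.log 2) - (eM R.Q (D.fz J J) m g b b' pv J i' ((D.fz J J).cell i' b) +
        hc R.Q Y ((D.fz J J).cell J b)) ≤
      hc R.Q (C₀.VZ J b) (fun ω => (fl1 (C₀.a J) (C₀.t ω), (Y ω, C₀.VZ k b ω))) := by
  have hr' : 8 * (D.fz J J).μ ≤ (D.fz J J).rk J := by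
    rw [D.fz_rk le_rfl le_rfl]
    exact hr
  have e1 : (D.fz J J).a i' = D.a i' := D.fz_a' hj
  have e3 : (D.fz J J).a J = D.a J := D.fz_a' le_rfl
  exact hV_M (C := D.fz J J) (C₀ := C₀) N hS hK hr' (by rw [e1, e3]; exact ha) hj (by rw [e3]; exact hJ) hkJ
    (EOk.cell (lev_of N.b8 hr') (by rw [e1, e3]; exact ha)) Y

/-! ### all time steps -/

open Classical in
/-- error of the time step from the index `k` to the index `J`, reading index `i'`, letter `Y` -/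
noncomputable def eJ {σ : Type} (R : Run Ω τ υ) (F : Pf R π) (B bS bV : ℕ) (Vs Xs : Finset ℕ) (μ : ℕ) (o : Fin 7 → ℝ)
    (o' : ℕ → ℝ) (g pv J i' : ℕ) (Y : Ω → σ) : ℝ :=
  if J ∈ IdO R Vs Xs then
    eM R.Q (lc R.C μ o) R.m g (R.m * R.b1) bS pv J i' ((lc R.C μ o).cell i' (R.m * R.b1)) +
      hc R.Q Y ((lc R.C μ o).cell J (R.m * R.b1))
  else if J ∈ IdK R Vs Xs then
    eM R.Q ((mt R F μ o o').fz J J) R.m g (R.m * R.b1) bV pv J i' (((mt R F μ o o').fz J J).cell i' (R.m * R.b1)) +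
      hc R.Q Y (((mt R F μ o o').fz J J).cell J (R.m * R.b1))
  else if J ∈ IdP R F B Vs Xs then
    eM R.Q ((mt0 R F μ o o').fz J J) R.m g (R.m * R.b1) bV pv J i' (((mt0 R F μ o o').fz J J).cell i' (R.m * R.b1)) +
      hc R.Q Y (((mt0 R F μ o o').fz J J).cell J (R.m * R.b1))
  else 2 * (R.m * Real.log 2)

/-- **one time step, all kinds of levels** -/
theorem hv_J {σ : Type} {g pv k J i' : ℕ} (h1 : 1 ≤ K) (N : HvN (8 * K) R.m g μ pv (R.m * R.b1) bS)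
    (hSV : bS ≤ bV) (hO : ∀ ω, 0 < R.Q.w ω → (lc R.C μ o).Ok K ω)
    (hKf : J ∈ IdK R Vs Xs → ∀ ω, 0 < R.Q.w ω → ((mt R F μ o o').fz J J).Ok (8 * K) ω)
    (hPf : J ∈ IdP R F B Vs Xs → ∀ ω, 0 < R.Q.w ω → ((mt0 R F μ o o').fz J J).Ok (8 * K) ω)
    (hr : 9 * μ ≤ R.C.rk J) (hr0 : 9 * μ ≤ F.rk0 J) (ha : R.C.a J + 4 * μ ≤ R.C.a i')
    (hj : J ≤ i') (hkJ : R.C.a J = R.C.a k + R.m) (Y : Ω → σ) :
    2 * (R.m * Real.log 2) - eJ R F B bS bV Vs Xs μ o o' g pv J i' Y ≤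
      hc R.Q ((lc R.C μ o).VZ J (R.m * R.b1))
        (fun ω => (fl1 (R.C.a J) (R.C.t ω), (Y ω, (lc R.C μ o).VZ k (R.m * R.b1) ω))) := by
  have NV : HvN (8 * K) R.m g μ pv (R.m * R.b1) bV :=
    ⟨N.K1, N.m1, N.mg, N.gμ, N.μp, N.b8, N.bb.trans hSV, N.bp.trans hSV, N.big⟩
  unfold eJ
  split_ifs with h2 h3 h4
  · refine hv_O N (fun ω hω => ?_) (by omega) ha hj hkJ Y
    exact ok_up (by linarith) (by linarith) (hO ω hω)
  · exact hv_Y (R := R) (mt R F μ o o') NV (same_fz R F μ o o' J) (hKf h3)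
      (by show 8 * μ ≤ R.C.rk J - μ / 2; omega) ha hj rfl hkJ Y
  · exact hv_Y (R := R) (mt0 R F μ o o') NV (same_fz0 R F μ o o' J) (hPf h4)
      (by show 8 * μ ≤ F.rk0 J - μ / 2; omega) ha hj rfl hkJ Y
  · rw [sub_self]
    exact hc_nonneg _ _ _

lemma eJ_nonneg {σ : Type} (g pv J i' : ℕ) (Y : Ω → σ) : 0 ≤ eJ R F B bS bV Vs Xs μ o o' g pv J i' Y := by
  unfold eJ
  have hl : 0 ≤ Real.log 2 := Real.log_nonneg (by norm_num)
  split_ifs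
  · exact add_nonneg (eM_nonneg _ _ _ _ _ _ _ _ _ _) (hc_nonneg _ _ _)
  · exact add_nonneg (eM_nonneg _ _ _ _ _ _ _ _ _ _) (hc_nonneg _ _ _)
  · exact add_nonneg (eM_nonneg _ _ _ _ _ _ _ _ _ _) (hc_nonneg _ _ _)
  · positivity

open Classical in
/-- error of the time step `j` of the compressed path `f`; `X` = steps without reading index `rx j` -/
noncomputable def eH {σ : Type} (R : Run Ω τ υ) (F : Pf R π) (B bS bV : ℕ) (Vs Xs : Finset ℕ) (μ : ℕ) (o : Fin 7 → ℝ)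
    (o' : ℕ → ℝ) (g pv : ℕ) (f rx : ℕ → ℕ) (X : Finset ℕ) (Y : ℕ → Ω → σ) (j : ℕ) : ℝ :=
  if j ∈ X then 2 * (R.m * Real.log 2) else eJ R F B bS bV Vs Xs μ o o' g pv (f (j + 1)) (rx j) (Y j)

lemma eH_nonneg {σ : Type} (g pv : ℕ) (f rx : ℕ → ℕ) (X : Finset ℕ) (Y : ℕ → Ω → σ) (j : ℕ) :
    0 ≤ eH R F B bS bV Vs Xs μ o o' g pv f rx X Y j := by
  unfold eH
  have hl : 0 ≤ Real.log 2 := Real.log_nonneg (by norm_num)
  split_ifs
  · positivity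
  · exact eJ_nonneg _ _ _ _ _

/-- **all time steps** of the compressed path `f`, any letters `Y` -/
theorem hV_run {σ : Type} {g pv : ℕ} (h1 : 1 ≤ K) (Nm : HvN (8 * K) R.m g μ pv (R.m * R.b1) bS) (hSV : bS ≤ bV)
    (hO : ∀ ω, 0 < R.Q.w ω → (lc R.C μ o).Ok K ω)
    (hKf : ∀ J ∈ IdK R Vs Xs, ∀ ω, 0 < R.Q.w ω → ((mt R F μ o o').fz J J).Ok (8 * K) ω)
    (hPf : ∀ J ∈ IdP R F B Vs Xs, ∀ ω, 0 < R.Q.w ω → ((mt0 R F μ o o').fz J J).Ok (8 * K) ω)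
    {f a : ℕ → ℕ} {N A0 : ℕ} (hA : ∀ k ≤ N, R.C.a (f k) = A0 + R.m * a k)
    (hr : ∀ j < N, a (j + 1) = a j + 1 → 9 * μ ≤ R.C.rk (f (j + 1)) ∧ 9 * μ ≤ F.rk0 (f (j + 1)))
    (X : Finset ℕ) (rx : ℕ → ℕ) (hx : ∀ j < N, a (j + 1) = a j + 1 → j ∉ X →
      f (j + 1) ≤ rx j ∧ R.C.a (f (j + 1)) + 4 * μ ≤ R.C.a (rx j)) (Y : ℕ → Ω → σ) :
    ∀ j < N, a (j + 1) = a j + 1 →
      2 * (R.m * Real.log 2) - eH R F B bS bV Vs Xs μ o o' g pv f rx X Y j ≤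
        hc R.Q ((lc R.C μ o).VZ (f (j + 1)) (R.m * R.b1))
          (fun ω => (fl1 (R.C.a (f (j + 1))) (R.C.t ω), (Y j ω, (lc R.C μ o).VZ (f j) (R.m * R.b1) ω))) := by
  intro j hj haj
  unfold eH
  split_ifs with hX
  · rw [sub_self]
    exact hc_nonneg _ _ _
  · obtain ⟨x1, x2⟩ := hx j hj haj hX
    obtain ⟨r1, r2⟩ := hr j hj haj
    refine hv_J h1 Nm hSV hO (fun h => hKf _ h) (fun h => hPf _ h) r1 r2 x2 x1 ?_ (Y j)
    rw [hA (j + 1) (by omega), hA j (by omega), haj]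
    ring

/-- the same with the function `u` of the levels -/
theorem hV_u {σ : Type} {g pv : ℕ} (h1 : 1 ≤ K) (Nm : HvN (8 * K) R.m g μ pv (R.m * R.b1) bS) (hSV : bS ≤ bV)
    (hO : ∀ ω, 0 < R.Q.w ω → (lc R.C μ o).Ok K ω)
    (hKf : ∀ J ∈ IdK R Vs Xs, ∀ ω, 0 < R.Q.w ω → ((mt R F μ o o').fz J J).Ok (8 * K) ω)
    (hPf : ∀ J ∈ IdP R F B Vs Xs, ∀ ω, 0 < R.Q.w ω → ((mt0 R F μ o o').fz J J).Ok (8 * K) ω)
    {f a : ℕ → ℕ} {N A0 : ℕ} (hA : ∀ k ≤ N, R.C.a (f k) = A0 + R.m * a k)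
    (hr : ∀ j < N, a (j + 1) = a j + 1 → 9 * μ ≤ R.C.rk (f (j + 1)) ∧ 9 * μ ≤ F.rk0 (f (j + 1)))
    (X : Finset ℕ) (rx : ℕ → ℕ) (hx : ∀ j < N, a (j + 1) = a j + 1 → j ∉ X →
      f (j + 1) ≤ rx j ∧ R.C.a (f (j + 1)) + 4 * μ ≤ R.C.a (rx j)) (Y : ℕ → Ω → σ) :
    ∀ j < N, a (j + 1) = a j + 1 →
      2 * (R.m * Real.log 2) - uV N a (eH R F B bS bV Vs Xs μ o o' g pv f rx X Y) (a j) ≤
        hc R.Q ((lc R.C μ o).VZ (f (j + 1)) (R.m * R.b1))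
          (fun ω => (fl1 (R.C.a (f (j + 1))) (R.C.t ω), (Y j ω, (lc R.C μ o).VZ (f j) (R.m * R.b1) ω))) := by
  intro j hj haj
  have h2 := hV_run h1 Nm hSV hO hKf hPf hA hr X rx hx Y j hj haj
  have h3 := uV_le (N := N) (a := a) (e := eH R F B bS bV Vs Xs μ o o' g pv f rx X Y)
    (fun k => eH_nonneg g pv f rx X Y k) hj haj
  linarith

end run

end Vale.Agent.P106.U.H357
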