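import Vale.Agent.P106.U.H357.SIc
import Vale.Agent.P106.U.H459.XE
import Vale.Agent.P106.U.H812.RecS
import Vale.Agent.P106.U.H833.Zon

/-!
# P106 / U / H357 : geometry of the time steps outside the exceptional levels (helper357)

`f = ix R i0`, `a = az R i0`, `N = nz R i0`.

* `rg_of` : 336's `Rg` from the field `f2`.
* `XLv` : a set `XL` of exceptional levels; `XS` : the a-steps at these levels.
* `ix3` : the first index, `q` levels after the a-step.
* **`gd_of`** : everything about a time step outside `XL` : reading index, one kind on `L` levels, growth of `R`.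
* `card_XS`, **`card_gapS`** : at most `#XL + 1` runs of one kind.
-/

set_option autoImplicit false

namespace Vale.Agent.P106.U.H357

open Finset Vale.Agent.P127 Vale.Agent.P127.Stk Vale.Agent.P127.U.Mic
open Vale.Agent.P106.U.Cell
open Vale.Agent.P106.U.S3
open Vale.Agent.P106.U.MIC (bc ix az rz nz)
open Vale.Agent.P106.U.H833 (aN RN lev_a aN_mono)
open Vale.Agent.P106.U.H118 (Sdat)
open Vale.Agent.P106.U.H931 (nx lvi nx_le le_nx nx_spec nx_const a_lvi lvi_le_n)
open Vale.Agent.P106.U.H336 (SwL Rg KR kd)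
open Vale.Agent.P106.U.H459 (rxI)

section

variable {Ω : Type} [Fintype Ω] {τ υ π : Type} {R : Run Ω τ υ} {p : Run.Num} {F : Pf R π} {K : ℝ} {B bS bV : ℕ}
  {Vs Xs : Finset ℕ} {i0 L d q t : ℕ} {g : ℕ → Prop} {XL : Finset ℕ}

/-- the regimes outside the exceptional levels -/
theorem rg_of (h : F2 R p K B bS bV F Vs Xs) (hm : 1 ≤ R.m) (hB : 1 ≤ B) : Rg R B bS bV F.rk0 Vs Xs := by
  have h1 := h.loS
  have h2 : R.m * (R.b1 + B) = R.m * R.b1 + R.m * B := by ring
  have h3 : 0 < R.m * B := Nat.mul_pos hm hB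
  have h4 := h.loV
  exact ⟨hB, F.l0, by omega, by omega, h.regS, h.reg⟩

/-- a set of exceptional levels, reach `L` -/
def XLv (R : Run Ω τ υ) (B : ℕ) (Vs Xs : Finset ℕ) (i0 L : ℕ) (XL : Finset ℕ) : Prop :=
  ∀ z, az R i0 0 ≤ z → z < az R i0 (nz R i0) → z ∉ XL →
    z + 1 + L < az R i0 (nz R i0) ∧ z ∉ SwL R B Vs Xs L ∧ z + 1 ∉ SwL R B Vs Xs L

open Classical in
/-- the a-steps at the levels of `XL` -/
noncomputable def XS (R : Run Ω τ υ) (i0 : ℕ) (XL : Finset ℕ) : Finset ℕ :=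
  (range (nz R i0)).filter fun j => az R i0 (j + 1) = az R i0 j + 1 ∧ az R i0 j ∈ XL

/-- first index, `q` levels after the a-step `j` -/
noncomputable def ix3 (R : Run Ω τ υ) (i0 q j : ℕ) : ℕ :=
  ix R i0 (lvi (nz R i0) (az R i0) (az R i0 (j + 1) + q))

/-- **everything about a time step** outside the exceptional levels -/
structure Gd (R : Run Ω τ υ) (p : Run.Num) (F : Pf R π) (B bS bV : ℕ) (Vs Xs : Finset ℕ) (i0 L d q j : ℕ) : Prop where
  at_ : rxI R i0 d j ∈ At' R p B d (ix R i0 (j + 1))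
  h01 : ix R i0 j < ix R i0 (j + 1)
  h12 : ix R i0 (j + 1) < rxI R i0 d j
  h23 : rxI R i0 d j ≤ ix3 R i0 q j
  h3n : ix3 R i0 q j ≤ R.n
  a1 : R.C.a (ix R i0 (j + 1)) = R.C.a (ix R i0 j) + R.m
  a2 : R.C.a (rxI R i0 d j) = R.C.a (ix R i0 (j + 1)) + d * R.m
  a3 : R.C.a (ix3 R i0 q j) = R.C.a (ix R i0 (j + 1)) + q * R.m
  reg : ∀ k ≤ R.n, az R i0 j ≤ aN R k → aN R k ≤ az R i0 j + L → 1 ≤ k ∧ aN R k ∉ Xs ∧
    kd R Vs (aN R k) = kd R Vs (az R i0 j) ∧
    (kd R Vs (az R i0 j) = 0 → aN R k ∉ Vs ∧ KR R k ∧ bS + R.C.rk k ≤ R.C.rf k) ∧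
    (kd R Vs (az R i0 j) = 1 → aN R k ∈ Vs ∧ KR R k ∧ bV + R.C.rk k ≤ R.C.rf k) ∧
    (kd R Vs (az R i0 j) = 2 → aN R k ∈ Vs ∧ ¬ KR R k ∧ R.C.rf k + 2 * (R.m * B) ≤ R.m * R.b1 + F.rk0 k) ∧
    (kd R Vs (az R i0 j) = 3 → aN R k ∉ Vs ∧ ¬ KR R k ∧ R.C.rf k + 2 * (R.m * B) ≤ R.m * R.b1 + R.C.rk k)

theorem gd_of (hP : R.Path p) (D : Sdat (nz R i0) g (az R i0) (rz R i0)) (h : F2 R p K B bS bV F Vs Xs) (hB : 1 ≤ B)
    (hX : XLv R B Vs Xs i0 L XL) (hd : 1 ≤ d) (hdq : d < q) (hqL : q + 1 ≤ L) {j : ℕ} (hj : j < nz R i0)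
    (ha : az R i0 (j + 1) = az R i0 j + 1) (hz : az R i0 j ∉ XL) : Gd R p F B bS bV Vs Xs i0 L d q j := by
  have h0 : az R i0 0 ≤ az R i0 j := D.am (Nat.zero_le _) hj.le
  have h0' : az R i0 j < az R i0 (nz R i0) := by
    have := D.am (show j + 1 ≤ nz R i0 by omega) le_rfl
    omega
  obtain ⟨x1, x2, x3⟩ := hX _ h0 h0' hz
  obtain ⟨y, q1, q2, q3, q4, q5, q6, q7, q8, q9⟩ := H459.rx_spec hP D hd hj (show az R i0 (j + 1) + d < az R i0 (nz R i0) by omega)
  have hlev : aN R (ix R i0 (j + 1)) = az R i0 (j + 1) := rfl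
  have hln : az R i0 (j + 1) ≤ aN R R.n := aN_mono hP (H459.ix_n i0 (j + 1)) (by omega)
  have hst : rxI R i0 d j ≤ ix R i0 (j + 1) + B := by
    refine H336.steps (Vs := Vs) (Xs := Xs) (z0 := az R i0 (j + 1)) (z1 := az R i0 (j + 1)) (L := L) le_rfl hln hP ?_
      hlev.ge hlev.le q7.le q8 ?_
    · intro z z1 z2
      have : z = az R i0 j + 1 := by omega
      rw [this]
      exact x3
    · have h5 : aN R (rxI R i0 d j) = az R i0 y := by
        rw [q5]
        rfl
      omega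
  have e3 : az R i0 (lvi (nz R i0) (az R i0) (az R i0 (j + 1) + q)) = az R i0 (j + 1) + q :=
    a_lvi D (by omega) le_rfl (by omega)
  have l3 : lvi (nz R i0) (az R i0) (az R i0 (j + 1) + q) ≤ nz R i0 := lvi_le_n _ _ _
  refine ⟨H459.rx_at hP D hd hj (by omega) hst, ?_, q7, ?_, H459.ix_n _ _, ?_, q9, ?_, ?_⟩
  · exact H459.ix_strict hP (Nat.lt_succ_self j) hj
  · rw [q5]
    refine H812.ix_mono' R i0 ?_
    by_contra hcon
    have := D.am (i := lvi (nz R i0) (az R i0) (az R i0 (j + 1) + q)) (j := y) (by omega) (by omega)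
    omega
  · rw [H459.a_ix hP, H459.a_ix hP, ha]
    ring
  · unfold ix3
    rw [H459.a_ix hP, H459.a_ix hP, e3]
    ring
  · intro k kn k0 k1
    have h8 : az R i0 j ≤ aN R R.n := by omega
    exact (rg_of h hP.m1 hB).pure_idx hP (L := L) (z0 := az R i0 j) (z1 := az R i0 j) le_rfl h8 (fun z z1 z2 => by
      have : z = az R i0 j := by omega
      rw [this]
      exact x2) k0 k1 kn

/-- **growth of `R`** -/
theorem gd_R (hP : R.Path p) (D : Sdat (nz R i0) g (az R i0) (rz R i0)) (hx : R.m * R.b1 ≤ p.B₁) {j : ℕ}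
    (ht : d + p.J * t ≤ q) (hj : j < nz R i0)
    (hz : az R i0 (j + 1) + q < az R i0 (nz R i0)) (hd : 1 ≤ d) (hdq : d < q) :
    R.C.R (rxI R i0 d j) (R.m * R.b1) + R.m * t ≤ R.C.R (ix3 R i0 q j) (R.m * R.b1) := by
  obtain ⟨y, q1, q2, q3, q4, q5, q6, q7, q8, q9⟩ := H459.rx_spec hP D hd hj (show az R i0 (j + 1) + d < az R i0 (nz R i0) by omega)
  have e3 : az R i0 (lvi (nz R i0) (az R i0) (az R i0 (j + 1) + q)) = az R i0 (j + 1) + q :=
    a_lvi D (by have := D.am (Nat.zero_le (j + 1)) hj; omega) le_rfl (by omega)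
  have l3 : lvi (nz R i0) (az R i0) (az R i0 (j + 1) + q) ≤ nz R i0 := lvi_le_n _ _ _
  have h1 := H833.advT hP (fun i k hik => H812.ix_mono' R i0 hik) (H459.ix_n i0 (nz R i0)) (x := R.b1) D hx t y (lvi (nz R i0) (az R i0) (az R i0 (j + 1) + q)) (by
      by_contra hcon
      have := D.am (i := lvi (nz R i0) (az R i0) (az R i0 (j + 1) + q)) (j := y) (by omega) (by omega)
      omega) l3 (by
        show az R i0 y + p.J * t ≤ az R i0 (lvi (nz R i0) (az R i0) (az R i0 (j + 1) + q))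
        omega)
  rw [q5]
  unfold ix3
  have r1 : R.C.R (ix R i0 y) (R.m * R.b1) = R.r0 + R.m * rz R i0 y := H812.R_ix hP i0 y
  have r2 : R.C.R (ix R i0 (lvi (nz R i0) (az R i0) (az R i0 (j + 1) + q))) (R.m * R.b1) =
      R.r0 + R.m * rz R i0 (lvi (nz R i0) (az R i0) (az R i0 (j + 1) + q)) := H812.R_ix hP i0 _
  rw [r1, r2]
  have h2 : rz R i0 y + t ≤ rz R i0 (lvi (nz R i0) (az R i0) (az R i0 (j + 1) + q)) := h1
  have h3 := Nat.mul_le_mul_left R.m h2
  rw [Nat.mul_add] at h3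
  omega

/-! ### numbers -/

/-- at most one a-step at a level -/
theorem card_XS (D : Sdat (nz R i0) g (az R i0) (rz R i0)) : (XS R i0 XL).card ≤ XL.card := by
  classical
  refine Finset.card_le_card_of_injOn (fun j => az R i0 j) ?_ ?_
  · intro j hj
    unfold XS at hj
    rw [Finset.mem_coe, Finset.mem_filter] at hj
    exact hj.2.2
  · intro j hj k hk e
    unfold XS at hj hk
    rw [Finset.mem_coe, Finset.mem_filter, Finset.mem_range] at hj hk
    have e' : az R i0 j = az R i0 k := e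
    exact H459.step_inj' D hj.1 hk.1 hj.2.1 hk.2.1 (by omega)

open Classical in
/-- the a-steps of kinds in `c`, outside `XL` -/
noncomputable def AK (R : Run Ω τ υ) (Vs : Finset ℕ) (i0 : ℕ) (XL : Finset ℕ) (c : Finset (Fin 4)) : Finset ℕ :=
  (range (nz R i0)).filter fun j => az R i0 (j + 1) = az R i0 j + 1 ∧ az R i0 j ∉ XL ∧ kd R Vs (az R i0 j) ∈ c

theorem mem_AK {c : Finset (Fin 4)} {j : ℕ} : j ∈ AK R Vs i0 XL c ↔ j < nz R i0 ∧ az R i0 (j + 1) = az R i0 j + 1 ∧
    az R i0 j ∉ XL ∧ kd R Vs (az R i0 j) ∈ c := by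
  classical
  unfold AK
  rw [Finset.mem_filter, Finset.mem_range]

/-- **few runs of one kind** -/
theorem card_gapS (hP : R.Path p) (D : Sdat (nz R i0) g (az R i0) (rz R i0)) (h : F2 R p K B bS bV F Vs Xs) (hB : 1 ≤ B)
    (hX : XLv R B Vs Xs i0 L XL) (hL : 1 ≤ L) (c : Finset (Fin 4)) :
    (gapS ((AK R Vs i0 XL c).image fun j => az R i0 (j + 1))).card ≤ XL.card + 1 := by
  classical
  -- the start `v`, `v - 2 ∈ XL` or `v = a 0 + 1`
  have key : ∀ v ∈ gapS ((AK R Vs i0 XL c).image fun j => az R i0 (j + 1)), v = az R i0 0 + 1 ∨ (2 ≤ v ∧ v - 2 ∈ XL) := by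
    intro v hv
    unfold gapS at hv
    rw [Finset.mem_filter, Finset.mem_image] at hv
    obtain ⟨⟨j, hj, rfl⟩, hs⟩ := hv
    rw [mem_AK] at hj
    obtain ⟨j1, j2, j3, j4⟩ := hj
    by_contra hcon
    rw [not_or] at hcon
    obtain ⟨n1, n2⟩ := hcon
    have h0 : az R i0 0 ≤ az R i0 j := D.am (Nat.zero_le _) j1.le
    have hlt : az R i0 j < az R i0 (nz R i0) := by
      have := D.am (show j + 1 ≤ nz R i0 by omega) le_rfl
      omega
    have h1 : az R i0 0 < az R i0 j := by omega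
    have h2 : az R i0 j - 1 ∉ XL := by
      intro h3
      exact n2 ⟨by omega, by
        have : az R i0 (j + 1) - 2 = az R i0 j - 1 := by omega
        rwa [this]⟩
    -- the a-step into the level `a j`
    obtain ⟨f1, f2, f3⟩ := H812.lmx_facts D (z := az R i0 j - 1) (by omega) (by omega)
    set j' := H812.lmx (nz R i0) (az R i0) (az R i0 j - 1) with hj'
    obtain ⟨x1, x2, x3⟩ := hX (az R i0 j - 1) (by omega) (by omega) h2
    have hln : az R i0 j + 1 ≤ aN R R.n := by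
      have := aN_mono hP (H459.ix_n (R := R) i0 (j + 1)) (by omega : R.n ≤ R.n + p.J)
      have e : aN R (ix R i0 (j + 1)) = az R i0 (j + 1) := rfl
      omega
    have hpz := (rg_of h hP.m1 hB).pure hP (L := L) (z0 := az R i0 j - 1) (z1 := az R i0 j - 1) le_rfl (by omega)
      (fun z z1 z2 => by
        have : z = az R i0 j - 1 := by omega
        rw [this]
        exact x2) (az R i0 j) (by omega) (by omega) (by omega)
    have hm : j' ∈ AK R Vs i0 XL c := by
      rw [mem_AK, f2]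
      refine ⟨f1, by rw [f3], h2, ?_⟩
      rw [← hpz.2.2]
      exact j4
    rcases hs with hs | hs
    · omega
    · apply hs
      rw [Finset.mem_image]
      exact ⟨j', hm, by rw [f3]; omega⟩
  have hsub : gapS ((AK R Vs i0 XL c).image fun j => az R i0 (j + 1)) ⊆ insert (az R i0 0 + 1) (XL.image (· + 2)) := by
    intro v hv
    rw [Finset.mem_insert, Finset.mem_image]
    rcases key v hv with h1 | ⟨h1, h2⟩
    · exact Or.inl h1
    · exact Or.inr ⟨v - 2, h2, by omega⟩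
  refine (Finset.card_le_card hsub).trans ((Finset.card_insert_le _ _).trans ?_)
  exact Nat.add_le_add_right Finset.card_image_le 1

/-- number of the a-steps -/
theorem card_AK (D : Sdat (nz R i0) g (az R i0) (rz R i0)) (c : Finset (Fin 4)) :
    (AK R Vs i0 XL c).card ≤ az R i0 (nz R i0) := by
  classical
  have h : (AK R Vs i0 XL c).card ≤ (range (az R i0 (nz R i0))).card := by
    refine Finset.card_le_card_of_injOn (fun j => az R i0 j) ?_ ?_
    · intro j hj
      rw [Finset.mem_coe, mem_AK] at hj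
      have := D.am (show j + 1 ≤ nz R i0 by omega) le_rfl
      rw [Finset.mem_coe, Finset.mem_range]
      show az R i0 j < _
      omega
    · intro j hj k hk e
      rw [Finset.mem_coe, mem_AK] at hj hk
      have e' : az R i0 j = az R i0 k := e
      exact H459.step_inj' D hj.1 hk.1 hj.2.1 hk.2.1 (by omega)
  rwa [Finset.card_range] at h

end

end Vale.Agent.P106.U.H357
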