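import Vale.Agent.P106.U.H357.USa

/-!
# P106 / U / H357 : the sum of `eH` over all a-steps (helper357)

* `S1b`, `Ub` : the bound of the first informations of one kind; the final bound.
* `eH_X`, `eH_O`, `eH_K`, `eH_P` : the error of a time step of each kind.
* `hxU` : hypothesis `hx` of `hV_run` for `X := XS R i0 XL ∪ XE`.
* **`us1`** : `∑ eH ≤ Ub` for `X := XS R i0 XL ∪ XE` (`XE` = any further a-steps, e.g. those with a bad reading step), from the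
  three collision sums outside `XE` and the prices of the letters `Y`.
-/

set_option autoImplicit false
set_option linter.unusedSectionVars false

namespace Vale.Agent.P106.U.H357

open Finset Vale.Agent.P127 Vale.Agent.P127.Stk Vale.Agent.P127.U.Mic
open Vale.Agent.P127.U.CellD (q2 q2_pos)
open Vale.Agent.P106.U.Cell
open Vale.Agent.P106.U.S3
open Vale.Agent.P106.U.MIC (bc ix az rz nz)
open Vale.Agent.P106.U.H336 (kd)
open Vale.Agent.P106.U.H459 (rxI)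
open Vale.Agent.P106.U.H101 (lc)
open Vale.Agent.P106.U.H513 (cNe cSl cNe_nonneg cSl_nonneg)
open Vale.Agent.P106.U.H958 (cF nF xF)

theorem sum_union_le' {ι : Type*} [DecidableEq ι] (s t : Finset ι) (f : ι → ℝ) (hf : ∀ i, 0 ≤ f i) :
    ∑ i ∈ s ∪ t, f i ≤ ∑ i ∈ s, f i + ∑ i ∈ t, f i := by
  rw [← Finset.sum_union_inter]
  have := Finset.sum_nonneg (s := s ∩ t) fun i _ => hf i
  linarith

section

variable {Ω : Type} [Fintype Ω] {τ υ π σ : Type}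
variable {R : Run Ω τ υ} {p : Run.Num} {K c' g' gU : ℝ} {B bS bV : ℕ} {F : Pf R π} {Vs Xs : Finset ℕ} {μ : ℕ} {K' : ℝ}
  {o : Fin 7 → ℝ} {o' : ℕ → ℝ} {i0 L d q t : ℕ} {gd : ℕ → Prop} {XL : Finset ℕ}

/-- bound of the first informations of one kind -/
noncomputable def S1b (R : Run Ω τ υ) (p : Run.Num) (K K' : ℝ) (μ i0 d q pv : ℕ) (XL : Finset ℕ) : ℝ :=
  q * (XL.card + 1) * (pv * Real.log 2) +
    (4 * (cNe K + cSl K) + 8 * cF K) * Real.sqrt (az R i0 (nz R i0) * ((d + 1) * xF R p μ K' d))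

lemma cF_nonneg (K : ℝ) : 0 ≤ cF K := by
  obtain ⟨z1, z2, z3⟩ := H958.z_nn (4 * K)
  unfold cF
  have := z3 ⌈641 * (4 * K) ^ 2⌉₊
  linarith

/-- the sum of one kind -/
theorem kind_sum {τ' : Type} (A : Finset ℕ) (hA : A.card ≤ az R i0 (nz R i0)) (C : ℕ → Pth Ω τ') {m g b b' pv : ℕ}
    (J i' : ℕ → ℕ) (Y : ℕ → Ω → σ) {S1 S2 cc cY : ℝ} (h10 : 0 ≤ S1) (h20 : 0 ≤ S2)
    (h1 : ∑ j ∈ A, I1L R.Q (C j) b pv (J j) (i' j) ((C j).cell (i' j) b) ≤ S1)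
    (h2 : ∑ j ∈ A, I2L R.Q (C j) b b' (J j) (i' j) ≤ S2)
    (h3 : ∑ j ∈ A, (cTL R.Q (C j) b (J j) g + cYL R.Q (C j) b (J j) g) ≤ cc) (hc0 : 0 ≤ cY)
    (hY : ∀ j ∈ A, hc R.Q (Y j) ((C j).cell (J j) b) ≤ cY) :
    ∑ j ∈ A, (eM R.Q (C j) m g b b' pv (J j) (i' j) ((C j).cell (i' j) b) + hc R.Q (Y j) ((C j).cell (J j) b)) ≤
      (15 + cY) * az R i0 (nz R i0) + 13 * m * cc +
        2 ^ (22 * g) * (Real.sqrt (az R i0 (nz R i0) * S1) + Real.sqrt (az R i0 (nz R i0) * S2)) := by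
  have hA' : ((A.card : ℕ) : ℝ) ≤ az R i0 (nz R i0) := by exact_mod_cast hA
  have k1 := sum_eM R.Q A C m g b b' pv J i' (fun j => (C j).cell (i' j) b) h1 h2 h3
  have k2 : ∑ j ∈ A, hc R.Q (Y j) ((C j).cell (J j) b) ≤ A.card * cY := by
    rw [← nsmul_eq_mul]
    exact Finset.sum_le_card_nsmul _ _ _ hY
  rw [Finset.sum_add_distrib]
  have e1 : Real.sqrt (A.card * S1) ≤ Real.sqrt (az R i0 (nz R i0) * S1) :=
    Real.sqrt_le_sqrt (mul_le_mul_of_nonneg_right hA' h10)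
  have e2 : Real.sqrt (A.card * S2) ≤ Real.sqrt (az R i0 (nz R i0) * S2) :=
    Real.sqrt_le_sqrt (mul_le_mul_of_nonneg_right hA' h20)
  have e3 := mul_le_mul_of_nonneg_left (add_le_add e1 e2) (show (0 : ℝ) ≤ 2 ^ (22 * g) by positivity)
  have e4 := mul_le_mul_of_nonneg_right hA' (show (0 : ℝ) ≤ 15 + cY by linarith)
  linarith

/-- the final bound -/
noncomputable def Ub (R : Run Ω τ υ) (p : Run.Num) (K K' : ℝ) (B μ i0 d q g pv : ℕ) (XL XE : Finset ℕ) (cY cc : ℝ) : ℝ :=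
  2 * (R.m * Real.log 2) * (XL.card + XE.card) + 3 * (15 + cY) * az R i0 (nz R i0) + 13 * R.m * cc +
    2 ^ (22 * g) * (3 * (Real.sqrt (az R i0 (nz R i0) * S1b R p K K' μ i0 d q pv XL) +
      Real.sqrt (az R i0 (nz R i0) * F2b R p B μ K' d)))

theorem F2b_nonneg (hK : 0 ≤ K') : 0 ≤ F2b R p B μ K' d := by
  unfold F2b
  have := q2_pos (μ / 8)
  positivity

namespace UsH

variable (H : UsH R p K c' g' gU B bS bV F Vs Xs μ K' o o' i0 L d q t gd XL)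

include H

theorem mem_XS_iff {j : ℕ} (hj : j < nz R i0) (ha : az R i0 (j + 1) = az R i0 j + 1) : j ∈ XS R i0 XL ↔ az R i0 j ∈ XL := by
  classical
  unfold XS
  rw [Finset.mem_filter, Finset.mem_range]
  exact ⟨fun h => h.2.2, fun h => ⟨hj, ha, h⟩⟩

/-- hypothesis `hx` of `hV_run` -/
theorem hxU (XE : Finset ℕ) {j : ℕ} (hj : j < nz R i0) (ha : az R i0 (j + 1) = az R i0 j + 1) (hX : j ∉ XS R i0 XL ∪ XE) :
    ix R i0 (j + 1) ≤ rxI R i0 d j ∧ R.C.a (ix R i0 (j + 1)) + 4 * μ ≤ R.C.a (rxI R i0 d j) := by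
  rw [Finset.mem_union, not_or, H.mem_XS_iff hj ha] at hX
  have G := H.gdj hj ha hX.1
  refine ⟨G.h12.le, ?_⟩
  rw [G.a2]
  have := H.dμ
  omega

theorem eH_O {XE : Finset ℕ} {g pv : ℕ} (Y : ℕ → Ω → σ) {j : ℕ} (hj : j ∈ AK R Vs i0 XL {0, 3}) (hE : j ∉ XE) :
    eH R F B bS bV Vs Xs μ o o' g pv (ix R i0) (rxI R i0 d) (XS R i0 XL ∪ XE) Y j =
      eM R.Q (lc R.C μ o) R.m g (R.m * R.b1) bS pv (ix R i0 (j + 1)) (rxI R i0 d j)
        ((lc R.C μ o).cell (rxI R i0 d j) (R.m * R.b1)) + hc R.Q (Y j) ((lc R.C μ o).cell (ix R i0 (j + 1)) (R.m * R.b1)) := by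
  have h := mem_AK.1 hj
  unfold eH eJ
  rw [if_neg (fun h' => by
    rcases Finset.mem_union.1 h' with h' | h'
    · exact h.2.2.1 ((H.mem_XS_iff h.1 h.2.1).1 h')
    · exact hE h'), if_pos (H.kO hj).1]

theorem eH_K {XE : Finset ℕ} {g pv : ℕ} (Y : ℕ → Ω → σ) {j : ℕ} (hj : j ∈ AK R Vs i0 XL {1}) (hE : j ∉ XE) :
    eH R F B bS bV Vs Xs μ o o' g pv (ix R i0) (rxI R i0 d) (XS R i0 XL ∪ XE) Y j =
      eM R.Q ((mt R F μ o o').fz (ix R i0 (j + 1)) (ix R i0 (j + 1))) R.m g (R.m * R.b1) bV pv (ix R i0 (j + 1)) (rxI R i0 d j)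
        (((mt R F μ o o').fz (ix R i0 (j + 1)) (ix R i0 (j + 1))).cell (rxI R i0 d j) (R.m * R.b1)) +
      hc R.Q (Y j) (((mt R F μ o o').fz (ix R i0 (j + 1)) (ix R i0 (j + 1))).cell (ix R i0 (j + 1)) (R.m * R.b1)) := by
  have h := mem_AK.1 hj
  have k := H.kK hj
  unfold eH eJ
  rw [if_neg (fun h' => by
    rcases Finset.mem_union.1 h' with h' | h'
    · exact h.2.2.1 ((H.mem_XS_iff h.1 h.2.1).1 h')
    · exact hE h'), if_neg k.1, if_pos k.2.1]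

theorem eH_P {XE : Finset ℕ} {g pv : ℕ} (Y : ℕ → Ω → σ) {j : ℕ} (hj : j ∈ AK R Vs i0 XL {2}) (hE : j ∉ XE) :
    eH R F B bS bV Vs Xs μ o o' g pv (ix R i0) (rxI R i0 d) (XS R i0 XL ∪ XE) Y j =
      eM R.Q ((mt0 R F μ o o').fz (ix R i0 (j + 1)) (ix R i0 (j + 1))) R.m g (R.m * R.b1) bV pv (ix R i0 (j + 1)) (rxI R i0 d j)
        (((mt0 R F μ o o').fz (ix R i0 (j + 1)) (ix R i0 (j + 1))).cell (rxI R i0 d j) (R.m * R.b1)) +
      hc R.Q (Y j) (((mt0 R F μ o o').fz (ix R i0 (j + 1)) (ix R i0 (j + 1))).cell (ix R i0 (j + 1)) (R.m * R.b1)) := by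
  have h := mem_AK.1 hj
  have k := H.kP hj
  unfold eH eJ
  rw [if_neg (fun h' => by
    rcases Finset.mem_union.1 h' with h' | h'
    · exact h.2.2.1 ((H.mem_XS_iff h.1 h.2.1).1 h')
    · exact hE h'), if_neg k.1, if_neg k.2.1, if_pos k.2.2.1]

theorem K'0 : 0 ≤ K' := by
  have h1 := H.K1
  have h2 : (0 : ℝ) ≤ (100 * K) ^ 20 := by positivity
  exact h2.trans H.hK'

theorem S1b_nonneg (pv : ℕ) : 0 ≤ S1b R p K K' μ i0 d q pv XL := by
  unfold S1b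
  have h1 := cNe_nonneg K
  have h2 := cSl_nonneg K
  have h3 := cF_nonneg K
  have h4 : 0 ≤ Real.log 2 := Real.log_nonneg (by norm_num)
  have h5 := Real.sqrt_nonneg (az R i0 (nz R i0) * ((d + 1) * xF R p μ K' d))
  positivity

theorem l1_O (pv : ℕ) : q * (XL.card + 1) * (pv * Real.log 2) +
      4 * (cNe K + cSl K) * Real.sqrt (az R i0 (nz R i0) * xF R p μ K' 0) ≤ S1b R p K K' μ i0 d q pv XL := by
  unfold S1b
  have h1 := cNe_nonneg K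
  have h2 := cSl_nonneg K
  have h3 := cF_nonneg K
  have hx := H958.xF_mono R p μ K' (Nat.zero_le d)
  have hx0 := H958.xF_nn R p μ K' d
  have h6 : xF R p μ K' 0 ≤ (d + 1) * xF R p μ K' d := by
    have : (0 : ℝ) ≤ d := Nat.cast_nonneg _
    nlinarith
  have h5 : Real.sqrt (az R i0 (nz R i0) * xF R p μ K' 0) ≤ Real.sqrt (az R i0 (nz R i0) * ((d + 1) * xF R p μ K' d)) :=
    Real.sqrt_le_sqrt (mul_le_mul_of_nonneg_left h6 (Nat.cast_nonneg _))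
  have h7 := mul_le_mul_of_nonneg_left h5 (show 0 ≤ 4 * (cNe K + cSl K) by positivity)
  have h8 := mul_nonneg (show 0 ≤ 8 * cF K by positivity) (Real.sqrt_nonneg (az R i0 (nz R i0) * ((d + 1) * xF R p μ K' d)))
  have e : (4 * (cNe K + cSl K) + 8 * cF K) * Real.sqrt (az R i0 (nz R i0) * ((d + 1) * xF R p μ K' d)) =
      4 * (cNe K + cSl K) * Real.sqrt (az R i0 (nz R i0) * ((d + 1) * xF R p μ K' d)) +
        8 * cF K * Real.sqrt (az R i0 (nz R i0) * ((d + 1) * xF R p μ K' d)) := by ring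
  rw [e]
  linarith

theorem l1_Y (pv : ℕ) : q * (XL.card + 1) * (pv * Real.log 2) +
      8 * cF K * Real.sqrt (az R i0 (nz R i0) * ((d + 1) * xF R p μ K' d)) ≤ S1b R p K K' μ i0 d q pv XL := by
  unfold S1b
  have h1 := cNe_nonneg K
  have h2 := cSl_nonneg K
  have h8 := mul_nonneg (show 0 ≤ 4 * (cNe K + cSl K) by positivity)
    (Real.sqrt_nonneg (az R i0 (nz R i0) * ((d + 1) * xF R p μ K' d)))
  have e : (4 * (cNe K + cSl K) + 8 * cF K) * Real.sqrt (az R i0 (nz R i0) * ((d + 1) * xF R p μ K' d)) =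
      4 * (cNe K + cSl K) * Real.sqrt (az R i0 (nz R i0) * ((d + 1) * xF R p μ K' d)) +
        8 * cF K * Real.sqrt (az R i0 (nz R i0) * ((d + 1) * xF R p μ K' d)) := by ring
  rw [e]
  linarith

/-- **the sum over all a-steps** -/
theorem us1 (XE : Finset ℕ) {g pv : ℕ} (Y : ℕ → Ω → σ) {cY ccO ccK ccP : ℝ} (hc0 : 0 ≤ cY)
    (hYO : ∀ j ∈ AK R Vs i0 XL {0, 3} \ XE, hc R.Q (Y j) ((lc R.C μ o).cell (ix R i0 (j + 1)) (R.m * R.b1)) ≤ cY)
    (hYK : ∀ j ∈ AK R Vs i0 XL {1} \ XE, hc R.Q (Y j)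
      (((mt R F μ o o').fz (ix R i0 (j + 1)) (ix R i0 (j + 1))).cell (ix R i0 (j + 1)) (R.m * R.b1)) ≤ cY)
    (hYP : ∀ j ∈ AK R Vs i0 XL {2} \ XE, hc R.Q (Y j)
      (((mt0 R F μ o o').fz (ix R i0 (j + 1)) (ix R i0 (j + 1))).cell (ix R i0 (j + 1)) (R.m * R.b1)) ≤ cY)
    (hcO : ∑ j ∈ AK R Vs i0 XL {0, 3} \ XE, (cTL R.Q (lc R.C μ o) (R.m * R.b1) (ix R i0 (j + 1)) g +
      cYL R.Q (lc R.C μ o) (R.m * R.b1) (ix R i0 (j + 1)) g) ≤ ccO)
    (hcK : ∑ j ∈ AK R Vs i0 XL {1} \ XE, (cTL R.Q ((mt R F μ o o').fz (ix R i0 (j + 1)) (ix R i0 (j + 1))) (R.m * R.b1)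
      (ix R i0 (j + 1)) g + cYL R.Q ((mt R F μ o o').fz (ix R i0 (j + 1)) (ix R i0 (j + 1))) (R.m * R.b1)
      (ix R i0 (j + 1)) g) ≤ ccK)
    (hcP : ∑ j ∈ AK R Vs i0 XL {2} \ XE, (cTL R.Q ((mt0 R F μ o o').fz (ix R i0 (j + 1)) (ix R i0 (j + 1))) (R.m * R.b1)
      (ix R i0 (j + 1)) g + cYL R.Q ((mt0 R F μ o o').fz (ix R i0 (j + 1)) (ix R i0 (j + 1))) (R.m * R.b1)
      (ix R i0 (j + 1)) g) ≤ ccP) :
    ∑ j ∈ (range (nz R i0)).filter (fun j => az R i0 (j + 1) = az R i0 j + 1),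
      eH R F B bS bV Vs Xs μ o o' g pv (ix R i0) (rxI R i0 d) (XS R i0 XL ∪ XE) Y j ≤
    Ub R p K K' B μ i0 d q g pv XL XE cY (ccO + ccK + ccP) := by
  classical
  set f : ℕ → ℝ := fun j => eH R F B bS bV Vs Xs μ o o' g pv (ix R i0) (rxI R i0 d) (XS R i0 XL ∪ XE) Y j with hf
  have f0 : ∀ j, 0 ≤ f j := fun j => eH_nonneg g pv (ix R i0) (rxI R i0 d) (XS R i0 XL ∪ XE) Y j
  have hsub : (range (nz R i0)).filter (fun j => az R i0 (j + 1) = az R i0 j + 1) ⊆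
      (XS R i0 XL ∪ XE) ∪ (AK R Vs i0 XL {0, 3} \ XE ∪ (AK R Vs i0 XL {1} \ XE ∪ AK R Vs i0 XL {2} \ XE)) := by
    intro j hj
    rw [Finset.mem_filter, Finset.mem_range] at hj
    rw [Finset.mem_union, Finset.mem_union, Finset.mem_union, Finset.mem_union, H.mem_XS_iff hj.1 hj.2, Finset.mem_sdiff,
      Finset.mem_sdiff, Finset.mem_sdiff, mem_AK, mem_AK, mem_AK]
    by_cases hE : j ∈ XE
    · exact Or.inl (Or.inr hE)
    by_cases hz : az R i0 j ∈ XL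
    · exact Or.inl (Or.inl hz)
    · right
      have hcase : kd R Vs (az R i0 j) = 0 ∨ kd R Vs (az R i0 j) = 1 ∨ kd R Vs (az R i0 j) = 2 ∨ kd R Vs (az R i0 j) = 3 := by
        generalize kd R Vs (az R i0 j) = x
        fin_cases x <;> simp
      rcases hcase with h | h | h | h
      · left; exact ⟨⟨hj.1, hj.2, hz, by rw [h]; simp⟩, hE⟩
      · right; left; exact ⟨⟨hj.1, hj.2, hz, by rw [h]; simp⟩, hE⟩
      · right; right; exact ⟨⟨hj.1, hj.2, hz, by rw [h]; simp⟩, hE⟩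
      · left; exact ⟨⟨hj.1, hj.2, hz, by rw [h]; simp⟩, hE⟩
  have s0 : ∑ j ∈ (range (nz R i0)).filter (fun j => az R i0 (j + 1) = az R i0 j + 1), f j ≤
      ∑ j ∈ XS R i0 XL ∪ XE, f j + (∑ j ∈ AK R Vs i0 XL {0, 3} \ XE, f j + (∑ j ∈ AK R Vs i0 XL {1} \ XE, f j +
        ∑ j ∈ AK R Vs i0 XL {2} \ XE, f j)) := by
    refine (Finset.sum_le_sum_of_subset_of_nonneg hsub fun j _ _ => f0 j).trans ?_
    refine (sum_union_le' _ _ f f0).trans (add_le_add le_rfl ?_)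
    refine (sum_union_le' _ _ f f0).trans (add_le_add le_rfl ?_)
    exact sum_union_le' _ _ f f0
  -- the exceptional steps
  have hl : 0 ≤ Real.log 2 := Real.log_nonneg (by norm_num)
  have sX : ∑ j ∈ XS R i0 XL ∪ XE, f j ≤ 2 * (R.m * Real.log 2) * (XL.card + XE.card) := by
    have e : ∀ j ∈ XS R i0 XL ∪ XE, f j = 2 * (R.m * Real.log 2) := by
      intro j hj
      rw [hf]
      show eH R F B bS bV Vs Xs μ o o' g pv (ix R i0) (rxI R i0 d) (XS R i0 XL ∪ XE) Y j = _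
      unfold eH
      rw [if_pos hj]
    rw [Finset.sum_congr rfl e, Finset.sum_const, nsmul_eq_mul, mul_comm]
    refine mul_le_mul_of_nonneg_left ?_ (by positivity)
    have h1 := Finset.card_union_le (XS R i0 XL) XE
    have h2 := card_XS (XL := XL) H.D
    exact_mod_cast h1.trans (Nat.add_le_add_right h2 _)
  -- the kinds
  have F0 : 0 ≤ F2b R p B μ K' d := F2b_nonneg H.K'0
  have S0 := H.S1b_nonneg pv
  have cd : ∀ c : Finset (Fin 4), (AK R Vs i0 XL c \ XE).card ≤ az R i0 (nz R i0) := fun c =>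
    (Finset.card_le_card Finset.sdiff_subset).trans (card_AK H.D c)
  have sb : ∀ (c : Finset (Fin 4)) (w : ℕ → ℝ), (∀ j, 0 ≤ w j) → ∑ j ∈ AK R Vs i0 XL c \ XE, w j ≤ ∑ j ∈ AK R Vs i0 XL c, w j :=
    fun c w hw => Finset.sum_le_sum_of_subset_of_nonneg Finset.sdiff_subset fun j _ _ => hw j
  have sO := kind_sum (R := R) (i0 := i0) (AK R Vs i0 XL {0, 3} \ XE) (cd _) (fun _ => lc R.C μ o) (m := R.m) (g := g)
    (b := R.m * R.b1) (b' := bS) (pv := pv) (fun j => ix R i0 (j + 1)) (rxI R i0 d) Y S0 F0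
    ((sb _ _ fun j => mi_nonneg _ _ _ _).trans ((H.i1_O pv).trans (H.l1_O pv)))
    ((sb _ _ fun j => mi_nonneg _ _ _ _).trans H.i2_O) hcO hc0 hYO
  have sK := kind_sum (R := R) (i0 := i0) (AK R Vs i0 XL {1} \ XE) (cd _)
    (fun j => (mt R F μ o o').fz (ix R i0 (j + 1)) (ix R i0 (j + 1))) (m := R.m) (g := g)
    (b := R.m * R.b1) (b' := bV) (pv := pv) (fun j => ix R i0 (j + 1)) (rxI R i0 d) Y S0 F0
    ((sb _ _ fun j => mi_nonneg _ _ _ _).trans ((H.i1_K pv).trans (H.l1_Y pv)))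
    ((sb _ _ fun j => mi_nonneg _ _ _ _).trans H.i2_K) hcK hc0 hYK
  have sP := kind_sum (R := R) (i0 := i0) (AK R Vs i0 XL {2} \ XE) (cd _)
    (fun j => (mt0 R F μ o o').fz (ix R i0 (j + 1)) (ix R i0 (j + 1))) (m := R.m) (g := g)
    (b := R.m * R.b1) (b' := bV) (pv := pv) (fun j => ix R i0 (j + 1)) (rxI R i0 d) Y S0 F0
    ((sb _ _ fun j => mi_nonneg _ _ _ _).trans ((H.i1_P pv).trans (H.l1_Y pv)))
    ((sb _ _ fun j => mi_nonneg _ _ _ _).trans H.i2_P) hcP hc0 hYP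
  have eO : ∑ j ∈ AK R Vs i0 XL {0, 3} \ XE, f j = ∑ j ∈ AK R Vs i0 XL {0, 3} \ XE,
      (eM R.Q (lc R.C μ o) R.m g (R.m * R.b1) bS pv (ix R i0 (j + 1)) (rxI R i0 d j)
        ((lc R.C μ o).cell (rxI R i0 d j) (R.m * R.b1)) +
        hc R.Q (Y j) ((lc R.C μ o).cell (ix R i0 (j + 1)) (R.m * R.b1))) :=
    Finset.sum_congr rfl fun j hj => H.eH_O Y (Finset.mem_sdiff.1 hj).1 (Finset.mem_sdiff.1 hj).2
  have eK : ∑ j ∈ AK R Vs i0 XL {1} \ XE, f j = _ := Finset.sum_congr rfl fun j hj =>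
    H.eH_K Y (Finset.mem_sdiff.1 hj).1 (Finset.mem_sdiff.1 hj).2
  have eP : ∑ j ∈ AK R Vs i0 XL {2} \ XE, f j = _ := Finset.sum_congr rfl fun j hj =>
    H.eH_P Y (Finset.mem_sdiff.1 hj).1 (Finset.mem_sdiff.1 hj).2
  rw [eO, eK, eP] at s0
  unfold Ub
  linarith

end UsH

end

end Vale.Agent.P106.U.H357
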