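import Vale.Agent.P106.U.CellN
import Vale.Agent.P106.U.H875.SatV

/-!
# P106 / U / H357 : the (V, Z)-step over the cells of light rays (helper357)

`D = cell j b`, `W = (cell j b', fl1 (b + p) v)`, `E = cell i' b`, `Θ = T i'`; positions `(X, Zs b)` at the rounded
time `s i'`, in the units `2^-(a j + b)`, `2^-(a j + 2 b)`.

* `geoV` : the hypotheses `GeoG` of helper875's `satV`.
* `satVC` : the block of the position is saturated, at the time of the later step.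
* `satVZ` : the same for the nominal positions at the own times (`VZ`), `satVR` : in the form of the RISE lemma.
-/

set_option autoImplicit false

namespace Vale.Agent.P106.U.H357

open Finset Vale.Agent.P127 Vale.Agent.P127.Stk Vale.Agent.P127.U.Pin Vale.Agent.P127.U.Mic
open Vale.Agent.P127.U.CellD
open Vale.Agent.P106.TV
open Vale.Agent.P106.U.Cell Vale.Agent.P106.U.H875

/-! ### numbers -/

lemma sc {n m μ : ℕ} (h : n + μ ≤ m) : (2 : ℝ) ^ n * q2 m ≤ q2 μ := by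
  have e : q2 m ≤ q2 (n + μ) := q2_le h
  calc (2 : ℝ) ^ n * q2 m ≤ 2 ^ n * q2 (n + μ) := by gcongr
    _ = (2 ^ n * q2 n) * q2 μ := by rw [q2_add]; ring
    _ = q2 μ := by rw [q2_mul_pow, one_mul]

/-- floors which differ by two: the finer roundings are far -/
lemma rd_far {n m : ℕ} (h : n ≤ m) {x y : ℝ} (hf : ¬ |fl1 n x - fl1 n y| ≤ ((1 : ℕ) : ℤ)) :
    q2 n ≤ |rd m x - rd m y| := by
  have key : ∀ {x y : ℝ}, 2 ≤ fl1 n x - fl1 n y → q2 n ≤ rd m x - rd m y := by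
    intro x y h2
    have h3 : (2 : ℝ) ≤ (fl1 n x : ℝ) - fl1 n y := by exact_mod_cast h2
    have e1 : rd n x - rd n y = ((fl1 n x : ℝ) - fl1 n y) * q2 n := by
      unfold rd
      rw [div_pow_eq, div_pow_eq]
      ring
    have e2 : 2 * q2 n ≤ rd n x - rd n y := by
      rw [e1]
      exact mul_le_mul_of_nonneg_right h3 (q2_pos n).le
    have e3 := rd_mono h x
    have e4 := rd_le m y
    have e5 := lt_rd n y
    linarith
  push_cast at hf
  rw [not_le, lt_abs] at hf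
  rcases hf with h1 | h1
  · exact (key (by omega)).trans (le_abs_self _)
  · have := key (x := y) (y := x) (by omega)
    rw [abs_sub_comm]
    exact this.trans (le_abs_self _)

/-- difference of two squares -/
lemma sq_diff {x y A B : ℝ} (hx : |x| ≤ A) (hy : |y| ≤ A) (h : |x - y| ≤ B) :
    |x ^ 2 / 2 - y ^ 2 / 2| ≤ A * B := by
  have hA : 0 ≤ A := (abs_nonneg _).trans hx
  have e : x ^ 2 / 2 - y ^ 2 / 2 = ((x + y) / 2) * (x - y) := by ring
  rw [e, abs_mul]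
  refine mul_le_mul ?_ h (abs_nonneg _) hA
  rw [abs_le] at hx hy ⊢
  constructor <;> linarith [hx.1, hx.2, hy.1, hy.2]

section path

variable {Ω τ : Type} (C : Pth Ω τ)

/-- the null coordinate at two times -/
lemma Zs_time (b : ℕ) (ω : Ω) (s d : ℝ) : C.Zs b (s + d) ω = C.Zs b s ω +
    d * (((C.l ω).v - rd b (C.l ω).v) ^ 2 / 2 +
      ((C.l ω).w - C.ro 1 (b - C.μ) (C.l ω).w) ^ 2 / 2 -
      (rd b (C.l ω).v ^ 2 + C.ro 1 (b - C.μ) (C.l ω).w ^ 2) / 2) := by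
  unfold Pth.Zs
  rw [Ray.Z_add, Ray.X_add, Ray.N_add]
  ring

/-- the position at the rounded time of the step `i'` -/
noncomputable def pV (α b i' : ℕ) (ω : Ω) : Fin 2 → ℝ :=
  ![2 ^ (α + b) * (C.l ω).X (C.s i' ω), 2 ^ (α + 2 * b) * C.Zs b (C.s i' ω) ω]

/-- the position at the time of another letter, transported with the velocity of the cell -/
noncomputable def bV (α b i' : ℕ) (θ : τ) (ω : Ω) : Fin 2 → ℝ :=
  ![2 ^ (α + b) * ((C.l ω).X (C.s i' ω) - (C.s i' ω - C.tv i' θ) * rd b (C.l ω).v),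
    2 ^ (α + 2 * b) * (C.Zs b (C.s i' ω) ω + (C.s i' ω - C.tv i' θ) *
      ((rd b (C.l ω).v ^ 2 + C.ro 1 (b - C.μ) (C.l ω).w ^ 2) / 2 -
        ((C.l ω).w - C.ro 1 (b - C.μ) (C.l ω).w) ^ 2 / 2))]

/-- difference of the times of two letters -/
noncomputable def SV (α i' : ℕ) (_ : τ × Pth.Dg) (θ θ' : τ) : ℝ := 2 ^ α * (C.tv i' θ' - C.tv i' θ)

/-- the new digits of the velocity -/
noncomputable def eV (p : ℕ) (d : τ × Pth.Dg) (w : (τ × Pth.Dg) × ℤ) : ℝ := (w.2 : ℝ) / 2 ^ p - (d.2.1 : ℝ)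

variable {C}
variable {i j b b' p : ℕ} {ω ω' : Ω} {K : ℝ}

/-- times of two outcomes with the same letter `T j` -/
lemma s_block {i' : ℕ} (hj : j ≤ i') (hT : C.T j ω = C.T j ω') : |C.s i' ω' - C.s i' ω| ≤ q2 (C.a j) := by
  have e : C.s j ω' = C.s j ω := Pth.s_eq hT
  unfold Pth.s at *
  have h1 := rd_mono (C.ha hj) (C.t ω)
  have h2 := rd_mono (C.ha hj) (C.t ω')
  have h3 := rd_le (C.a i') (C.t ω)
  have h4 := rd_le (C.a i') (C.t ω')
  have h5 := lt_rd (C.a j) (C.t ω)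
  have h6 := lt_rd (C.a j) (C.t ω')
  rw [abs_le]
  constructor <;> linarith

lemma s_own {i' : ℕ} (hj : j ≤ i') (hT : C.T j ω = C.T j ω') : |C.s i' ω' - C.s j ω| ≤ q2 (C.a j) := by
  have e : C.s j ω' = C.s j ω := Pth.s_eq hT
  rw [← e]
  unfold Pth.s
  exact rd_sub (C.ha hj) _

/-- what a cell says about the velocities -/
lemma cell_vel (h1 : 1 ≤ K) (hK : C.Ok K ω) (hl : C.Lev j b) (h : C.cell j b ω = C.cell j b ω') :
    rd b (C.l ω').v = rd b (C.l ω).v ∧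
    C.ro 1 (b - C.μ) (C.l ω').w = C.ro 1 (b - C.μ) (C.l ω).w ∧
    |(C.l ω').v - (C.l ω).v| ≤ q2 b ∧ |(C.l ω').w - (C.l ω).w| ≤ 10 * K ^ 2 * q2 (b + 2 * C.μ) := by
  obtain ⟨hT, hv, hk⟩ := Pth.cell_iff.1 h
  have hN := Pth.Nr_of_cell' h1 hK hl h
  refine ⟨?_, ?_, hN.v, hN.w⟩
  · unfold rd; rw [hv]
  · have := hk 1
    rw [Pth.va1, Pth.va1, Pth.lv1] at this
    unfold Pth.ro rd
    rw [this]

/-- the difference of the transverse kinetic terms in one cell -/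
lemma cell_kin (h1 : 1 ≤ K) (hK : C.Ok K ω) (hl : C.Lev j b) (h : C.cell j b ω = C.cell j b ω') :
    |((C.l ω').w - C.ro 1 (b - C.μ) (C.l ω').w) ^ 2 / 2 -
      ((C.l ω).w - C.ro 1 (b - C.μ) (C.l ω).w) ^ 2 / 2| ≤ 10 * K ^ 2 * q2 (2 * b + C.μ) := by
  obtain ⟨-, e2, -, e4⟩ := cell_vel h1 hK hl h
  have a1 := C.ro_err 1 (b - C.μ) (C.l ω).w
  have a2 := C.ro_err 1 (b - C.μ) (C.l ω').w
  have h3 := sq_diff a2 a1 (B := 10 * K ^ 2 * q2 (b + 2 * C.μ)) (by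
    rw [e2]
    calc |(C.l ω').w - C.ro 1 (b - C.μ) (C.l ω).w - ((C.l ω).w - C.ro 1 (b - C.μ) (C.l ω).w)| =
        |(C.l ω').w - (C.l ω).w| := by congr 1; ring
      _ ≤ _ := e4)
  refine h3.trans (le_of_eq ?_)
  have hb := hl.1
  have e : q2 (b - C.μ) * q2 (b + 2 * C.μ) = q2 (2 * b + C.μ) := by
    rw [← q2_add]; congr 1; omega
  calc q2 (b - C.μ) * (10 * K ^ 2 * q2 (b + 2 * C.μ)) = 10 * K ^ 2 * (q2 (b - C.μ) * q2 (b + 2 * C.μ)) := by
        ring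
    _ = _ := by rw [e]

/-- the velocity terms of two rays with the same `b` digits -/
lemma vel_kin (b : ℕ) (ω ω' : Ω) :
    |((C.l ω').v - rd b (C.l ω').v) ^ 2 / 2 - ((C.l ω).v - rd b (C.l ω).v) ^ 2 / 2| ≤ q2 (2 * b) / 2 := by
  have a1 := rd_le b (C.l ω).v
  have a2 := lt_rd b (C.l ω).v
  have a3 := rd_le b (C.l ω').v
  have a4 := lt_rd b (C.l ω').v
  have e : q2 (2 * b) = q2 b ^ 2 := by rw [pow_two, ← q2_add, two_mul]
  rw [e, abs_le]
  have h0 := q2_pos b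
  constructor <;> nlinarith

/-- two rays with the same cell of a deep cap are close at the time `s'` -/
lemma deep (h1 : 1 ≤ K) (hK : C.Ok K ω) (hl : C.Lev j b) (hl' : C.Lev j b') (hbb : b + 8 * C.μ ≤ b')
    (hD : C.cell j b ω = C.cell j b ω') (hW : C.cell j b' ω = C.cell j b' ω') {s : ℝ}
    (hs : |s - C.s j ω| ≤ q2 (C.a j)) :
    2 ^ (C.a j + b) * |(C.l ω').X s - (C.l ω).X s| ≤ 2 * q2 C.μ ∧
    2 ^ (C.a j + 2 * b) * |C.Zs b s ω' - C.Zs b s ω| ≤ 67 * K ^ 4 * q2 C.μ := by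
  obtain ⟨hT, hv, hk⟩ := Pth.cell_iff.1 hD
  have hN := (Pth.Nr_of_cell' h1 hK hl' hW).evolve (d := s - C.s j ω) hs
  have es : C.s j ω + (s - C.s j ω) = s := by ring
  rw [es] at hN
  have hb := hl.1
  set α := C.a j with hα
  set μ := C.μ with hμ
  have m0 := (q2_pos μ).le
  have K2 : 1 ≤ K ^ 2 := one_le_pow₀ h1
  have K4 : 1 ≤ K ^ 4 := one_le_pow₀ h1
  have K24 : K ^ 2 ≤ K ^ 4 := pow_le_pow_right₀ h1 (by norm_num)
  have c1 : (2 : ℝ) ^ (α + b) * q2 (α + b' - μ) ≤ q2 μ := sc (by omega)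
  have c2 : (2 : ℝ) ^ (α + b) * (q2 α * q2 b') ≤ q2 μ := by rw [← q2_add]; exact sc (by omega)
  refine ⟨?_, ?_⟩
  · calc (2 : ℝ) ^ (α + b) * |(C.l ω').X s - (C.l ω).X s| ≤
        2 ^ (α + b) * (q2 (α + b' - μ) + q2 α * q2 b') := by
          have := hN.X
          gcongr
      _ ≤ 2 * q2 μ := by linarith
  · have hw : fl1 (b - μ) ((C.l ω).w + C.o 1) = fl1 (b - μ) ((C.l ω').w + C.o 1) := by
      have := hk 1
      rwa [Pth.va1, Pth.va1, Pth.lv1] at this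
    rw [Pth.Zs_sub hv hw]
    have e1 := rd_err b (C.l ω).v
    rw [abs_sub_comm] at e1
    have e2 := C.ro_err 1 (b - μ) (C.l ω).w
    have t1 : |((C.l ω).v - rd b (C.l ω).v) * ((C.l ω').X s - (C.l ω).X s)| ≤
        q2 b * (q2 (α + b' - μ) + q2 α * q2 b') := by
      rw [abs_mul]
      exact mul_le_mul e1 hN.X (abs_nonneg _) (q2_pos _).le
    have t2 : |((C.l ω).w - C.ro 1 (b - μ) (C.l ω).w) * ((C.l ω').N s - (C.l ω).N s)| ≤
        q2 (b - μ) * (q2 (α + b' - μ) + q2 α * (10 * K ^ 2 * q2 (b' + 2 * μ))) := by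
      rw [abs_mul]
      exact mul_le_mul e2 hN.N (abs_nonneg _) (q2_pos _).le
    have t0 := hN.z
    have hP : (0 : ℝ) ≤ 2 ^ (α + 2 * b) := by positivity
    have b1 : (2 : ℝ) ^ (α + 2 * b) * q2 (α + 2 * b' - 3 * μ) ≤ q2 μ := sc (by omega)
    have b2 : (2 : ℝ) ^ (α + 2 * b) * (q2 α * q2 b' ^ 2) ≤ q2 μ := by
      rw [pow_two, ← q2_add, ← q2_add]; exact sc (by omega)
    have b3 : (2 : ℝ) ^ (α + 2 * b) * (q2 α * q2 (b' + 2 * μ) ^ 2) ≤ q2 μ := by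
      rw [pow_two, ← q2_add, ← q2_add]; exact sc (by omega)
    have b4 : (2 : ℝ) ^ (α + 2 * b) * (q2 b * q2 (α + b' - μ)) ≤ q2 μ := by
      rw [← q2_add]; exact sc (by omega)
    have b5 : (2 : ℝ) ^ (α + 2 * b) * (q2 b * (q2 α * q2 b')) ≤ q2 μ := by
      rw [← q2_add, ← q2_add]; exact sc (by omega)
    have b6 : (2 : ℝ) ^ (α + 2 * b) * (q2 (b - μ) * q2 (α + b' - μ)) ≤ q2 μ := by
      rw [← q2_add]; exact sc (by omega)
    have b7 : (2 : ℝ) ^ (α + 2 * b) * (q2 (b - μ) * (q2 α * q2 (b' + 2 * μ))) ≤ q2 μ := by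
      rw [← q2_add, ← q2_add]; exact sc (by omega)
    have ht : |(C.l ω).dz (C.l ω') s + ((C.l ω).v - rd b (C.l ω).v) * ((C.l ω').X s - (C.l ω).X s) +
        ((C.l ω).w - C.ro 1 (b - μ) (C.l ω).w) * ((C.l ω').N s - (C.l ω).N s)| ≤
        (3 * q2 (α + 2 * b' - 3 * μ) + q2 α * ((q2 b' ^ 2 + (10 * K ^ 2 * q2 (b' + 2 * μ)) ^ 2) / 2)) +
        q2 b * (q2 (α + b' - μ) + q2 α * q2 b') +
        q2 (b - μ) * (q2 (α + b' - μ) + q2 α * (10 * K ^ 2 * q2 (b' + 2 * μ))) :=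
      (abs_add_le _ _).trans (add_le_add ((abs_add_le _ _).trans (add_le_add t0 t1)) t2)
    calc _ ≤ (2 : ℝ) ^ (α + 2 * b) * ((3 * q2 (α + 2 * b' - 3 * μ) +
          q2 α * ((q2 b' ^ 2 + (10 * K ^ 2 * q2 (b' + 2 * μ)) ^ 2) / 2)) +
          q2 b * (q2 (α + b' - μ) + q2 α * q2 b') +
          q2 (b - μ) * (q2 (α + b' - μ) + q2 α * (10 * K ^ 2 * q2 (b' + 2 * μ)))) :=
          mul_le_mul_of_nonneg_left ht hP
      _ = 3 * ((2 : ℝ) ^ (α + 2 * b) * q2 (α + 2 * b' - 3 * μ)) +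
          (2 ^ (α + 2 * b) * (q2 α * q2 b' ^ 2)) / 2 +
          50 * K ^ 4 * (2 ^ (α + 2 * b) * (q2 α * q2 (b' + 2 * μ) ^ 2)) +
          (2 ^ (α + 2 * b) * (q2 b * q2 (α + b' - μ))) + (2 ^ (α + 2 * b) * (q2 b * (q2 α * q2 b'))) +
          (2 ^ (α + 2 * b) * (q2 (b - μ) * q2 (α + b' - μ))) +
          10 * K ^ 2 * (2 ^ (α + 2 * b) * (q2 (b - μ) * (q2 α * q2 (b' + 2 * μ)))) := by ring
      _ ≤ 3 * q2 μ + q2 μ / 2 + 50 * K ^ 4 * q2 μ + q2 μ + q2 μ + q2 μ + 10 * K ^ 2 * q2 μ := by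
          gcongr
      _ ≤ 67 * K ^ 4 * q2 μ := by nlinarith

end path

section main

variable {Ω : Type} [Fintype Ω] {τ : Type} {P : Law Ω} {C : Pth Ω τ} {j b b' p i' : ℕ} {K : ℝ}

/-- **the hypotheses of the (V, Z)-step** -/
theorem geoV (h1 : 1 ≤ K) (hK : ∀ ω, 0 < P.w ω → C.Ok K ω) (hl : C.Lev j b) (hl' : C.Lev j b')
    (hbb : b + 8 * C.μ ≤ b') (hbp : b + p ≤ b') (hp : C.μ ≤ p) (ha : C.a j + 4 * C.μ ≤ C.a i') (hj : j ≤ i') :
    GeoG P (C.cell j b) (C.T i') (fun ω => (C.cell j b' ω, fl1 (b + p) (C.l ω).v)) (C.cell i' b) (eV p)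
      (pV C (C.a j) b i') (bV C (C.a j) b i') (F2 (SV C (C.a j) i')) (fun _ => 70 * K ^ 4 * q2 C.μ) := by
  have m0 := (q2_pos C.μ).le
  have K2 : 1 ≤ K ^ 2 := one_le_pow₀ h1
  have K4 : 1 ≤ K ^ 4 := one_le_pow₀ h1
  have K24 : K ^ 2 ≤ K ^ 4 := pow_le_pow_right₀ h1 (by norm_num)
  have hb := hl.1
  have big : ∀ c : ℝ, 0 ≤ c → c ≤ 70 → c * q2 C.μ ≤ 70 * K ^ 4 * q2 C.μ := fun c hc0 hc =>
    mul_le_mul_of_nonneg_right (by nlinarith) m0
  have big1 := big 1 (by norm_num) (by norm_num)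
  have big3 := big 3 (by norm_num) (by norm_num)
  -- closeness of the positions in the same later cell
  have hE : ∀ a b₁ : Ω, C.cell i' b a = C.cell i' b b₁ →
      2 ^ (C.a j + b) * |(C.l b₁).X (C.s i' b₁) - (C.l a).X (C.s i' a)| ≤ q2 C.μ ∧
      2 ^ (C.a j + 2 * b) * |C.Zs b (C.s i' b₁) b₁ - C.Zs b (C.s i' a) a| ≤ q2 C.μ := by
    intro a b₁ h
    have n0 := Pth.va_near h 0
    have n3 := Pth.va_near h 3
    rw [Pth.va0, Pth.va0, Pth.lv0] at n0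
    rw [Pth.va3, Pth.va3, Pth.lv3] at n3
    refine ⟨?_, ?_⟩
    · exact (mul_le_mul_of_nonneg_left n0 (by positivity)).trans (sc (by omega))
    · exact (mul_le_mul_of_nonneg_left n3 (by positivity)).trans (sc (by omega))
  refine ⟨?_, ?_, ?_⟩
  · intro a c pa pc hD hT hEe i
    obtain ⟨k0, k1⟩ := hE a c hEe
    fin_cases i
    · show |2 ^ (C.a j + b) * (C.l a).X (C.s i' a) - 2 ^ (C.a j + b) * (C.l c).X (C.s i' c)| ≤ _
      rw [← mul_sub, abs_mul, abs_of_pos (by positivity : (0 : ℝ) < 2 ^ (C.a j + b)), abs_sub_comm]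
      linarith
    · show |2 ^ (C.a j + 2 * b) * C.Zs b (C.s i' a) a - 2 ^ (C.a j + 2 * b) * C.Zs b (C.s i' c) c| ≤ _
      rw [← mul_sub, abs_mul, abs_of_pos (by positivity : (0 : ℝ) < 2 ^ (C.a j + 2 * b)), abs_sub_comm]
      linarith
  · intro o a c po pa pc hDo hD hT hEe i
    obtain ⟨k0, k1⟩ := hE a c hEe
    obtain ⟨v1, v2, v3, v4⟩ := cell_vel h1 (hK a pa) hl hD
    have kin := cell_kin h1 (hK a pa) hl hD
    have es : C.s i' c = C.s i' a := Pth.s_eq hT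
    rw [es] at k0 k1
    rw [v2] at kin
    have hst : |C.s i' a - C.tv i' (C.T i' o)| ≤ q2 (C.a j) := by
      rw [Pth.tv_T]
      exact s_block hj (Pth.cell_iff.1 hDo).1
    fin_cases i
    · show |2 ^ (C.a j + b) * ((C.l a).X (C.s i' a) - (C.s i' a - C.tv i' (C.T i' o)) * rd b (C.l a).v) -
        2 ^ (C.a j + b) * ((C.l c).X (C.s i' c) - (C.s i' c - C.tv i' (C.T i' o)) * rd b (C.l c).v)| ≤ _
      rw [v1, es, ← mul_sub, abs_mul, abs_of_pos (by positivity : (0 : ℝ) < 2 ^ (C.a j + b))]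
      have e : (C.l a).X (C.s i' a) - (C.s i' a - C.tv i' (C.T i' o)) * rd b (C.l a).v -
          ((C.l c).X (C.s i' a) - (C.s i' a - C.tv i' (C.T i' o)) * rd b (C.l a).v) =
          -((C.l c).X (C.s i' a) - (C.l a).X (C.s i' a)) := by ring
      rw [e, abs_neg]
      linarith
    · show |2 ^ (C.a j + 2 * b) * (C.Zs b (C.s i' a) a + (C.s i' a - C.tv i' (C.T i' o)) *
          ((rd b (C.l a).v ^ 2 + C.ro 1 (b - C.μ) (C.l a).w ^ 2) / 2 -
            ((C.l a).w - C.ro 1 (b - C.μ) (C.l a).w) ^ 2 / 2)) -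
        2 ^ (C.a j + 2 * b) * (C.Zs b (C.s i' c) c + (C.s i' c - C.tv i' (C.T i' o)) *
          ((rd b (C.l c).v ^ 2 + C.ro 1 (b - C.μ) (C.l c).w ^ 2) / 2 -
            ((C.l c).w - C.ro 1 (b - C.μ) (C.l c).w) ^ 2 / 2))| ≤ _
      rw [v1, es, v2, ← mul_sub, abs_mul, abs_of_pos (by positivity : (0 : ℝ) < 2 ^ (C.a j + 2 * b))]
      set δ := C.s i' a - C.tv i' (C.T i' o) with hδ
      set wr := C.ro 1 (b - C.μ) (C.l a).w with hwr
      have e : C.Zs b (C.s i' a) a + δ * ((rd b (C.l a).v ^ 2 + wr ^ 2) / 2 - ((C.l a).w - wr) ^ 2 / 2) -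
          (C.Zs b (C.s i' a) c + δ * ((rd b (C.l a).v ^ 2 + wr ^ 2) / 2 - ((C.l c).w - wr) ^ 2 / 2)) =
          -(C.Zs b (C.s i' a) c - C.Zs b (C.s i' a) a) +
            δ * (((C.l c).w - wr) ^ 2 / 2 - ((C.l a).w - wr) ^ 2 / 2) := by ring
      rw [e]
      have t1 : |δ * (((C.l c).w - wr) ^ 2 / 2 - ((C.l a).w - wr) ^ 2 / 2)| ≤
          q2 (C.a j) * (10 * K ^ 2 * q2 (2 * b + C.μ)) := by
        rw [abs_mul]
        exact mul_le_mul hst kin (abs_nonneg _) (q2_pos _).le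
      have t2 : (2 : ℝ) ^ (C.a j + 2 * b) * (q2 (C.a j) * q2 (2 * b + C.μ)) ≤ q2 C.μ := by
        rw [← q2_add]; exact sc (by omega)
      have hP : (0 : ℝ) < 2 ^ (C.a j + 2 * b) := by positivity
      calc (2 : ℝ) ^ (C.a j + 2 * b) * |-(C.Zs b (C.s i' a) c - C.Zs b (C.s i' a) a) +
            δ * (((C.l c).w - wr) ^ 2 / 2 - ((C.l a).w - wr) ^ 2 / 2)| ≤
          2 ^ (C.a j + 2 * b) * (|C.Zs b (C.s i' a) c - C.Zs b (C.s i' a) a| +
            q2 (C.a j) * (10 * K ^ 2 * q2 (2 * b + C.μ))) := by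
            refine mul_le_mul_of_nonneg_left ((abs_add_le _ _).trans (add_le_add ?_ t1)) hP.le
            rw [abs_neg]
        _ = 2 ^ (C.a j + 2 * b) * |C.Zs b (C.s i' a) c - C.Zs b (C.s i' a) a| +
            10 * K ^ 2 * (2 ^ (C.a j + 2 * b) * (q2 (C.a j) * q2 (2 * b + C.μ))) := by ring
        _ ≤ q2 C.μ + 10 * K ^ 2 * q2 C.μ := by
            refine add_le_add k1 (mul_le_mul_of_nonneg_left t2 (by positivity))
        _ = (1 + 10 * K ^ 2) * q2 C.μ := by ring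
        _ ≤ _ := mul_le_mul_of_nonneg_right (by nlinarith) m0
  · intro a c pa pc hD hW i
    have hW1 : C.cell j b' a = C.cell j b' c := congrArg Prod.fst hW
    have hW2 : fl1 (b + p) (C.l a).v = fl1 (b + p) (C.l c).v := congrArg Prod.snd hW
    obtain ⟨v1, v2, v3, v4⟩ := cell_vel h1 (hK a pa) hl hD
    have hT := (Pth.cell_iff.1 hD).1
    have hs1 : |C.s i' a - C.s j a| ≤ q2 (C.a j) := s_own hj rfl
    obtain ⟨k0, k1⟩ := deep h1 (hK a pa) hl hl' hbb hD hW1 hs1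
    have ht1 : C.tv i' (C.T i' a) = C.s i' a := C.tv_T i' a
    have ht2 : C.tv i' (C.T i' c) = C.s i' c := C.tv_T i' c
    have hδ := s_block hj hT
    -- the digits of the velocity
    have he : eV p (C.cell j b a) (C.cell j b' a, fl1 (b + p) (C.l a).v) =
        2 ^ b * (rd (b + p) (C.l c).v - rd b (C.l c).v) := by
      unfold eV
      show ((fl1 (b + p) (C.l a).v : ℤ) : ℝ) / 2 ^ p - ((fl1 b (C.l a).v : ℤ) : ℝ) = _
      rw [(Pth.cell_iff.1 hD).2.1, hW2]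
      unfold rd
      rw [pow_add]
      field_simp
    have r1 := rd_le (b + p) (C.l c).v
    have r2 := lt_rd (b + p) (C.l c).v
    have r3 := rd_le b (C.l c).v
    have r4 := lt_rd b (C.l c).v
    have r5 := rd_mono (show b ≤ b + p by omega) (C.l c).v
    have qp : q2 p ≤ q2 C.μ := q2_le hp
    have hq := q2_pos (C.a j)
    set δ := C.s i' c - C.s i' a with hδd
    have ec : C.s i' c = C.s i' a + δ := by rw [hδd]; ring
    set y := rd (b + p) (C.l c).v with hy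
    set z := rd b (C.l c).v with hz
    fin_cases i
    · show |2 ^ (C.a j + b) * ((C.l c).X (C.s i' c) - (C.s i' c - C.tv i' (C.T i' a)) * z) -
        2 ^ (C.a j + b) * (C.l a).X (C.s i' a) -
        SV C (C.a j) i' (C.cell j b a) (C.T i' a) (C.T i' c) *
          eV p (C.cell j b a) (C.cell j b' a, fl1 (b + p) (C.l a).v)| ≤ _
      rw [he, ht1]
      unfold SV
      rw [ht1, ht2, ← hδd, ec, Ray.X_add]
      have e : 2 ^ (C.a j + b) * ((C.l c).X (C.s i' a) + δ * (C.l c).v - δ * z) -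
          2 ^ (C.a j + b) * (C.l a).X (C.s i' a) - 2 ^ (C.a j) * δ * (2 ^ b * (y - z)) =
          2 ^ (C.a j + b) * ((C.l c).X (C.s i' a) - (C.l a).X (C.s i' a)) +
          2 ^ (C.a j + b) * (δ * ((C.l c).v - y)) := by rw [pow_add]; ring
      rw [e]
      refine (abs_add_le _ _).trans ?_
      rw [abs_mul, abs_of_pos (by positivity : (0 : ℝ) < 2 ^ (C.a j + b)), abs_mul, abs_mul,
        abs_of_pos (by positivity : (0 : ℝ) < 2 ^ (C.a j + b))]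
      have t1 : |(C.l c).v - y| ≤ q2 (b + p) := by rw [abs_le]; constructor <;> linarith [q2_pos (b + p)]
      have t2 : (2 : ℝ) ^ (C.a j + b) * (q2 (C.a j) * q2 (b + p)) ≤ q2 C.μ := by
        rw [← q2_add]; exact sc (by omega)
      have t3 : (2 : ℝ) ^ (C.a j + b) * (|δ| * |(C.l c).v - y|) ≤ q2 C.μ := by
        refine le_trans ?_ t2
        gcongr
      linarith
    · show |2 ^ (C.a j + 2 * b) * (C.Zs b (C.s i' c) c + (C.s i' c - C.tv i' (C.T i' a)) *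
          ((z ^ 2 + C.ro 1 (b - C.μ) (C.l c).w ^ 2) / 2 -
            ((C.l c).w - C.ro 1 (b - C.μ) (C.l c).w) ^ 2 / 2)) -
        2 ^ (C.a j + 2 * b) * C.Zs b (C.s i' a) a -
        SV C (C.a j) i' (C.cell j b a) (C.T i' a) (C.T i' c) *
          (eV p (C.cell j b a) (C.cell j b' a, fl1 (b + p) (C.l a).v) ^ 2 / 2)| ≤ _
      rw [he, ht1]
      unfold SV
      rw [ht1, ht2, ← hδd, ec, Zs_time, ← hz]
      set wr := C.ro 1 (b - C.μ) (C.l c).w with hwr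
      have e : 2 ^ (C.a j + 2 * b) * (C.Zs b (C.s i' a) c + δ * (((C.l c).v - z) ^ 2 / 2 +
            ((C.l c).w - wr) ^ 2 / 2 - (z ^ 2 + wr ^ 2) / 2) + δ * ((z ^ 2 + wr ^ 2) / 2 -
            ((C.l c).w - wr) ^ 2 / 2)) - 2 ^ (C.a j + 2 * b) * C.Zs b (C.s i' a) a -
          2 ^ (C.a j) * δ * ((2 ^ b * (y - z)) ^ 2 / 2) =
          2 ^ (C.a j + 2 * b) * (C.Zs b (C.s i' a) c - C.Zs b (C.s i' a) a) +
          2 ^ (C.a j + 2 * b) * (δ * (((C.l c).v - z) ^ 2 / 2 - (y - z) ^ 2 / 2)) := by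
        rw [pow_add, pow_mul', mul_pow]; ring
      rw [e]
      refine (abs_add_le _ _).trans ?_
      rw [abs_mul, abs_of_pos (by positivity : (0 : ℝ) < 2 ^ (C.a j + 2 * b)), abs_mul, abs_mul,
        abs_of_pos (by positivity : (0 : ℝ) < 2 ^ (C.a j + 2 * b))]
      have q0 := q2_pos b
      have q1 := q2_pos (b + p)
      have t1 : |((C.l c).v - z) ^ 2 / 2 - (y - z) ^ 2 / 2| ≤ q2 b * q2 (b + p) := by
        refine sq_diff ?_ ?_ ?_
        · rw [abs_le]; constructor <;> linarith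
        · rw [abs_le]; constructor <;> linarith
        · rw [abs_le]; constructor <;> linarith
      have t2 : (2 : ℝ) ^ (C.a j + 2 * b) * (q2 (C.a j) * (q2 b * q2 (b + p))) ≤ q2 C.μ := by
        rw [← q2_add, ← q2_add]; exact sc (by omega)
      have t3 : (2 : ℝ) ^ (C.a j + 2 * b) * (|δ| * |((C.l c).v - z) ^ 2 / 2 - (y - z) ^ 2 / 2|) ≤
          q2 C.μ := by
        refine le_trans ?_ t2
        gcongr
      calc _ ≤ 67 * K ^ 4 * q2 C.μ + q2 C.μ := add_le_add k1 t3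
        _ = (67 * K ^ 4 + 1) * q2 C.μ := by ring
        _ ≤ _ := mul_le_mul_of_nonneg_right (by linarith) m0

/-- **the (V, Z)-step** over the cells, positions read at the time of the later step -/
theorem satVC (h1 : 1 ≤ K) (hK : ∀ ω, 0 < P.w ω → C.Ok K ω) (hl : C.Lev j b) (hl' : C.Lev j b')
    (hbb : b + 8 * C.μ ≤ b') (hbp : b + p ≤ b') (hp : C.μ ≤ p) (ha : C.a j + 4 * C.μ ≤ C.a i') (hj : j ≤ i')
    {m g : ℕ} (hm : 1 ≤ m) (hmg : m ≤ g) (hg : g ≤ C.μ)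
    (hμ : 10 * 2 ^ (m + 5 * g + 4) * (70 * K ^ 4 * q2 C.μ) ≤ 1) {ι₁ ι₂ : ℝ}
    (hi1 : mi P (fun ω => fl1 (b + p) (C.l ω).v) (C.cell i' b) (fun ω => (C.cell j b ω, C.T i' ω)) ≤ ι₁)
    (hi2 : mi P (C.T i') (fun ω => (C.cell j b' ω, fl1 (b + p) (C.l ω).v)) (C.cell j b) ≤ ι₂) :
    2 * m * Real.log 2 - (7 + 13 * m * (colp P (fun ω => fl1 (C.a j + g) (C.t ω)) (C.cell j b) +
        colp P (fun ω => fl1 (b + g) (C.l ω).v) (C.cell j b)) +
      2 ^ (22 * g) * (Real.sqrt ι₁ + Real.sqrt ι₂)) ≤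
    hc P (fun ω => celi 1 (pV C (C.a j) b i' ω))
      (fun ω => (celi (2 ^ m) (pV C (C.a j) b i' ω), (C.cell j b ω, C.T i' ω))) := by
  refine satV P (geoV h1 hK hl hl' hbb hbp hp ha hj) hm hmg (fun ω => fl1 (C.a j + g) (C.t ω))
    (fun ω => fl1 (b + g) (C.l ω).v) ?_ ?_ ?_ ?_ (by have := q2_pos C.μ; positivity) hμ ?_ hi2
  · intro ω ω' _ _ hD
    unfold SV
    rw [C.tv_T, C.tv_T, abs_mul, abs_of_pos (by positivity : (0 : ℝ) < 2 ^ C.a j)]
    calc (2 : ℝ) ^ C.a j * |C.s i' ω' - C.s i' ω| ≤ 2 ^ C.a j * q2 (C.a j) := by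
          have := s_block hj (Pth.cell_iff.1 hD.symm).1
          gcongr
      _ = 1 := q2_mul_pow _
  · intro ω ω' _ _ hD
    have hv : fl1 b (C.l ω').v = fl1 b (C.l ω).v := (Pth.cell_iff.1 hD).2.1
    have he : eV p (C.cell j b ω) (C.cell j b' ω', fl1 (b + p) (C.l ω').v) =
        2 ^ b * (rd (b + p) (C.l ω').v - rd b (C.l ω').v) := by
      unfold eV
      show ((fl1 (b + p) (C.l ω').v : ℤ) : ℝ) / 2 ^ p - ((fl1 b (C.l ω).v : ℤ) : ℝ) = _
      rw [← hv]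
      unfold rd
      rw [pow_add]
      field_simp
    rw [he]
    have r1 := rd_mono (show b ≤ b + p by omega) (C.l ω').v
    have r2 := rd_le (b + p) (C.l ω').v
    have r3 := lt_rd b (C.l ω').v
    have hP : (0 : ℝ) < 2 ^ b := by positivity
    have e1 := q2_mul_pow b
    constructor
    · exact mul_nonneg hP.le (by linarith)
    · calc (2 : ℝ) ^ b * (rd (b + p) (C.l ω').v - rd b (C.l ω').v) ≤ 2 ^ b * q2 b := by
            gcongr
            linarith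
        _ = 1 := e1
  · intro ω ω' _ _ hD ht
    unfold SV
    rw [C.tv_T, C.tv_T, abs_mul, abs_of_pos (by positivity : (0 : ℝ) < 2 ^ C.a j)]
    have h2 := rd_far (show C.a j + g ≤ C.a i' by omega) ht
    have e1 : q2 g = 2 ^ C.a j * q2 (C.a j + g) := by
      rw [q2_add, ← mul_assoc, q2_mul_pow, one_mul]
    rw [e1, abs_sub_comm]
    unfold Pth.s
    gcongr
  · intro ω a c _ _ _ ha' hc' hy
    have h2 := rd_far (show b + g ≤ b + p by omega) hy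
    have e1 : q2 g = 2 ^ b * q2 (b + g) := by
      rw [q2_add, ← mul_assoc, q2_mul_pow, one_mul]
    have e2 : eV p (C.cell j b ω) (C.cell j b' a, fl1 (b + p) (C.l a).v) -
        eV p (C.cell j b ω) (C.cell j b' c, fl1 (b + p) (C.l c).v) =
        2 ^ b * (rd (b + p) (C.l a).v - rd (b + p) (C.l c).v) := by
      unfold eV rd
      rw [pow_add]
      field_simp
      ring
    rw [e2, e1, abs_mul, abs_of_pos (by positivity : (0 : ℝ) < 2 ^ b)]
    gcongr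
  · refine le_trans ?_ hi1
    refine mi_mono_left P _ ?_
    intro ω ω' _ _ e
    simp only [Prod.mk.injEq] at e
    obtain ⟨e1, e2, e3⟩ := e
    show eV p (C.cell j b ω) (C.cell j b' ω, fl1 (b + p) (C.l ω).v) =
      eV p (C.cell j b ω') (C.cell j b' ω', fl1 (b + p) (C.l ω').v)
    unfold eV
    rw [e1]
    have : (C.cell j b ω).2.1 = (C.cell j b ω').2.1 := by rw [e2]
    rw [this]

/-- a pair of floors with few values, given `Y` -/
theorem hc_pair49 (X : Ω → Fin 2 → ℤ) {S : Type*} (Y : Ω → S)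
    (h : ∀ ω ω', 0 < P.w ω → 0 < P.w ω' → Y ω' = Y ω → ∀ i, |X ω' i - X ω i| ≤ 3) :
    hc P X Y ≤ 4 := by
  have h1 : hc P X Y ≤ Real.log ((49 : ℕ) : ℝ) := by
    refine hc_le_log P X Y 49 fun ω hω => ?_
    refine ⟨Fintype.piFinset fun i => Finset.Icc (X ω i - 3) (X ω i + 3), ?_, ?_⟩
    · rw [Fintype.card_piFinset, Fin.prod_univ_two, Int.card_Icc, Int.card_Icc]
      have e : ∀ z : ℤ, (z + 3 + 1 - (z - 3)).toNat = 7 := by intro z; omega
      rw [e, e]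
      norm_num
    · intro ω' hω' e
      rw [Fintype.mem_piFinset]
      intro i
      have := h ω ω' hω hω' e i
      rw [abs_le] at this
      rw [Finset.mem_Icc]
      omega
  have h2 : Real.log ((49 : ℕ) : ℝ) ≤ 4 := by
    have h4 : Real.log 7 ≤ 2 := by
      rw [Real.log_le_iff_le_exp (by norm_num)]
      have := Real.exp_one_gt_d9
      have e2 : Real.exp 2 = Real.exp 1 ^ 2 := by rw [← Real.exp_nat_mul]; norm_num
      rw [e2]
      nlinarith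
    have h5 : Real.log ((49 : ℕ) : ℝ) = 2 * Real.log 7 := by
      rw [show ((49 : ℕ) : ℝ) = 7 ^ 2 by norm_num, Real.log_pow]
      norm_num
    rw [h5]
    linarith
  exact h1.trans h2

/-- floors of two numbers which are close -/
lemma fl_near3 {x y : ℝ} (h : |x - y| ≤ 2) : |⌊x⌋ - ⌊y⌋| ≤ 3 := by
  have h1 := Int.floor_le x
  have h2 := Int.lt_floor_add_one x
  have h3 := Int.floor_le y
  have h4 := Int.lt_floor_add_one y
  rw [abs_le] at h
  have a : (⌊x⌋ : ℝ) - ⌊y⌋ < 4 := by linarith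
  have b : -4 < (⌊x⌋ : ℝ) - ⌊y⌋ := by linarith
  have a' : ⌊x⌋ - ⌊y⌋ < 4 := by exact_mod_cast a
  have b' : -4 < ⌊x⌋ - ⌊y⌋ := by exact_mod_cast b
  rw [abs_le]
  omega

/-- the nominal position at the own time, as a vector -/
noncomputable def vz (C : Pth Ω τ) (k b : ℕ) (ω : Ω) : Fin 2 → ℤ := ![(C.VZ k b ω).1, (C.VZ k b ω).2]

/-- positions of two rays of the cell `(j, b)` at two times `s`, `s'` of the block of level `a k` -/
theorem two_times (h1 : 1 ≤ K) {ω ω' : Ω} (hK : C.Ok K ω) (hl : C.Lev j b)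
    (hμ : 20 * K ^ 2 * q2 C.μ ≤ 1) (hD : C.cell j b ω = C.cell j b ω') {α : ℕ} {s d : ℝ} (hd : |d| ≤ q2 α) :
    2 ^ (α + b) * |(C.l ω').X (s + d) - (C.l ω).X (s + d) - ((C.l ω').X s - (C.l ω).X s)| ≤ 1 ∧
    2 ^ (α + 2 * b) * |C.Zs b (s + d) ω' - C.Zs b (s + d) ω - (C.Zs b s ω' - C.Zs b s ω)| ≤ 1 := by
  obtain ⟨v1, v2, v3, v4⟩ := cell_vel h1 hK hl hD
  have kin := cell_kin h1 hK hl hD
  have vk := vel_kin (C := C) b ω ω'
  refine ⟨?_, ?_⟩
  · rw [Ray.X_add, Ray.X_add]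
    have e : (C.l ω').X s + d * (C.l ω').v - ((C.l ω).X s + d * (C.l ω).v) -
        ((C.l ω').X s - (C.l ω).X s) = d * ((C.l ω').v - (C.l ω).v) := by ring
    rw [e, abs_mul]
    have q0 := q2_pos α
    calc (2 : ℝ) ^ (α + b) * (|d| * |(C.l ω').v - (C.l ω).v|) ≤ 2 ^ (α + b) * (q2 α * q2 b) := by
          gcongr
      _ = 1 := by rw [← q2_add, q2_mul_pow]
  · rw [Zs_time, Zs_time, v1, v2]
    rw [v1] at vk
    rw [v2] at kin
    set z := rd b (C.l ω).v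
    set wr := C.ro 1 (b - C.μ) (C.l ω).w
    have e : C.Zs b s ω' + d * (((C.l ω').v - z) ^ 2 / 2 + ((C.l ω').w - wr) ^ 2 / 2 - (z ^ 2 + wr ^ 2) / 2) -
        (C.Zs b s ω + d * (((C.l ω).v - z) ^ 2 / 2 + ((C.l ω).w - wr) ^ 2 / 2 - (z ^ 2 + wr ^ 2) / 2)) -
        (C.Zs b s ω' - C.Zs b s ω) =
        d * ((((C.l ω').v - z) ^ 2 / 2 - ((C.l ω).v - z) ^ 2 / 2) +
          (((C.l ω').w - wr) ^ 2 / 2 - ((C.l ω).w - wr) ^ 2 / 2)) := by ring
    rw [e, abs_mul]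
    have t1 := (abs_add_le _ _).trans (add_le_add vk kin)
    have q0 := q2_pos α
    have e2 : q2 (2 * b + C.μ) = q2 (2 * b) * q2 C.μ := q2_add _ _
    calc (2 : ℝ) ^ (α + 2 * b) * (|d| * _) ≤
        2 ^ (α + 2 * b) * (q2 α * (q2 (2 * b) / 2 + 10 * K ^ 2 * q2 (2 * b + C.μ))) := by
          gcongr
      _ = (2 ^ (α + 2 * b) * q2 (α + 2 * b)) * (1 / 2 + 10 * K ^ 2 * q2 C.μ) := by
          rw [e2, q2_add]; ring
      _ = 1 / 2 + 10 * K ^ 2 * q2 C.μ := by rw [q2_mul_pow, one_mul]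
      _ ≤ 1 := by linarith

/-- **the (V, Z)-step**, nominal positions at the own times: from the level `a k` to the level `a j = a k + m` -/
theorem satVZ (h1 : 1 ≤ K) (hK : ∀ ω, 0 < P.w ω → C.Ok K ω) (hl : C.Lev j b) (hl' : C.Lev j b')
    (hbb : b + 8 * C.μ ≤ b') (hbp : b + p ≤ b') (hp : C.μ ≤ p) (ha : C.a j + 4 * C.μ ≤ C.a i') (hj : j ≤ i')
    {k m g : ℕ} (hk : k ≤ j) (hkj : C.a j = C.a k + m) (hm : 1 ≤ m) (hmg : m ≤ g) (hg : g ≤ C.μ)
    (hμ : 10 * 2 ^ (m + 5 * g + 4) * (70 * K ^ 4 * q2 C.μ) ≤ 1) {ι₁ ι₂ : ℝ}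
    (hi1 : mi P (fun ω => fl1 (b + p) (C.l ω).v) (C.cell i' b) (fun ω => (C.cell j b ω, C.T i' ω)) ≤ ι₁)
    (hi2 : mi P (C.T i') (fun ω => (C.cell j b' ω, fl1 (b + p) (C.l ω).v)) (C.cell j b) ≤ ι₂) :
    2 * m * Real.log 2 - (15 + 13 * m * (colp P (fun ω => fl1 (C.a j + g) (C.t ω)) (C.cell j b) +
        colp P (fun ω => fl1 (b + g) (C.l ω).v) (C.cell j b)) +
      2 ^ (22 * g) * (Real.sqrt ι₁ + Real.sqrt ι₂)) ≤
    hc P (C.VZ j b) (fun ω => (C.VZ k b ω, (C.cell j b ω, C.T i' ω))) := by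
  have main := satVC h1 hK hl hl' hbb hbp hp ha hj hm hmg hg hμ hi1 hi2
  have m0 := (q2_pos C.μ).le
  have hμ' : 20 * K ^ 2 * q2 C.μ ≤ 1 := by
    have K2 : 1 ≤ K ^ 2 := one_le_pow₀ h1
    have K24 : K ^ 2 ≤ K ^ 4 := pow_le_pow_right₀ h1 (by norm_num)
    have t : (1 : ℝ) ≤ 2 ^ (m + 5 * g + 4) := one_le_pow₀ (by norm_num)
    have t2 : 70 * K ^ 4 * q2 C.μ ≤ 10 * 2 ^ (m + 5 * g + 4) * (70 * K ^ 4 * q2 C.μ) := by
      have : 0 ≤ 70 * K ^ 4 * q2 C.μ := by positivity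
      nlinarith
    have t3 : 20 * K ^ 2 * q2 C.μ ≤ 70 * K ^ 4 * q2 C.μ :=
      mul_le_mul_of_nonneg_right (by nlinarith) m0
    linarith
  set α := C.a j with hα
  set Dt : Ω → (τ × Pth.Dg) × τ := fun ω => (C.cell j b ω, C.T i' ω) with hDt
  set Xf : Ω → Fin 2 → ℤ := fun ω => celi 1 (pV C α b i' ω) with hXf
  set Xc : Ω → Fin 2 → ℤ := fun ω => celi (2 ^ m) (pV C α b i' ω) with hXc
  -- 1. the fine position, from the nominal position at the own time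
  have c1 : hc P Xf (fun ω => (vz C j b ω, Dt ω)) ≤ 4 := by
    refine hc_pair49 Xf _ fun ω ω' pω pω' e => ?_
    simp only [hDt, Prod.mk.injEq] at e
    obtain ⟨e1, e2, e3⟩ := e
    have es : C.s i' ω' = C.s i' ω := Pth.s_eq e3.symm
    have ej : C.s j ω' = C.s j ω := Pth.s_eq (Pth.cell_iff.1 e2).1.symm
    have f0 : (C.VZ j b ω').1 = (C.VZ j b ω).1 := congrFun e1 0
    have f1 : (C.VZ j b ω').2 = (C.VZ j b ω).2 := congrFun e1 1
    have g0 := near_of_fl (x := (C.l ω).X (C.s j ω)) (y := (C.l ω').X (C.s j ω)) (n := C.a j + b) (by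
      have := f0.symm
      simp only [Pth.VZ] at this
      rwa [ej] at this)
    have g1 := near_of_fl (x := C.Zs b (C.s j ω) ω) (y := C.Zs b (C.s j ω) ω') (n := C.a j + 2 * b) (by
      have := f1.symm
      simp only [Pth.VZ] at this
      rwa [ej] at this)
    obtain ⟨k0, k1⟩ := two_times h1 (hK ω pω) hl hμ' e2.symm (α := α) (s := C.s j ω)
      (d := C.s i' ω - C.s j ω) (s_own hj rfl)
    rw [add_sub_cancel] at k0 k1
    have n0 := mul_le_mul_of_nonneg_left g0 (show (0 : ℝ) ≤ 2 ^ (α + b) by positivity)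
    have n1 := mul_le_mul_of_nonneg_left g1 (show (0 : ℝ) ≤ 2 ^ (α + 2 * b) by positivity)
    rw [q2_mul_pow] at n0 n1
    intro i
    fin_cases i
    · show |⌊2 ^ (α + b) * (C.l ω').X (C.s i' ω') / 1⌋ - ⌊2 ^ (α + b) * (C.l ω).X (C.s i' ω) / 1⌋| ≤ 3
      rw [div_one, div_one, es]
      refine fl_near3 ?_
      rw [← mul_sub, abs_mul, abs_of_pos (by positivity : (0 : ℝ) < 2 ^ (α + b))]
      have e4 : (C.l ω').X (C.s i' ω) - (C.l ω).X (C.s i' ω) =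
          ((C.l ω').X (C.s i' ω) - (C.l ω).X (C.s i' ω) -
            ((C.l ω').X (C.s j ω) - (C.l ω).X (C.s j ω))) +
          ((C.l ω').X (C.s j ω) - (C.l ω).X (C.s j ω)) := by ring
      rw [e4]
      refine (mul_le_mul_of_nonneg_left (abs_add_le _ _) (by positivity)).trans ?_
      rw [mul_add]
      linarith
    · show |⌊2 ^ (α + 2 * b) * C.Zs b (C.s i' ω') ω' / 1⌋ -
        ⌊2 ^ (α + 2 * b) * C.Zs b (C.s i' ω) ω / 1⌋| ≤ 3
      rw [div_one, div_one, es]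
      refine fl_near3 ?_
      rw [← mul_sub, abs_mul, abs_of_pos (by positivity : (0 : ℝ) < 2 ^ (α + 2 * b))]
      have e4 : C.Zs b (C.s i' ω) ω' - C.Zs b (C.s i' ω) ω =
          (C.Zs b (C.s i' ω) ω' - C.Zs b (C.s i' ω) ω -
            (C.Zs b (C.s j ω) ω' - C.Zs b (C.s j ω) ω)) +
          (C.Zs b (C.s j ω) ω' - C.Zs b (C.s j ω) ω) := by ring
      rw [e4]
      refine (mul_le_mul_of_nonneg_left (abs_add_le _ _) (by positivity)).trans ?_
      rw [mul_add]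
      linarith
  -- 2. the nominal position of the step `k`, from the coarse position
  have c2 : hc P (vz C k b) (fun ω => (Xc ω, Dt ω)) ≤ 4 := by
    refine hc_pair49 (vz C k b) _ fun ω ω' pω pω' e => ?_
    simp only [hDt, Prod.mk.injEq] at e
    obtain ⟨e1, e2, e3⟩ := e
    have es : C.s i' ω' = C.s i' ω := Pth.s_eq e3.symm
    have hTj := (Pth.cell_iff.1 e2).1
    have ek : C.s k ω' = C.s k ω := Pth.s_eq (Pth.T_mono hk hTj).symm
    have hm2 : (0 : ℝ) < 2 ^ m := by positivity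
    have g0 : |(2 : ℝ) ^ (α + b) * (C.l ω').X (C.s i' ω) / 2 ^ m -
        2 ^ (α + b) * (C.l ω).X (C.s i' ω) / 2 ^ m| ≤ 1 := by
      have f0 : ⌊(2 : ℝ) ^ (α + b) * (C.l ω').X (C.s i' ω') / 2 ^ m⌋ =
          ⌊2 ^ (α + b) * (C.l ω).X (C.s i' ω) / 2 ^ m⌋ := congrFun e1 0
      rw [es] at f0
      have a1 := Int.floor_le ((2 : ℝ) ^ (α + b) * (C.l ω').X (C.s i' ω) / 2 ^ m)
      have a2 := Int.lt_floor_add_one ((2 : ℝ) ^ (α + b) * (C.l ω').X (C.s i' ω) / 2 ^ m)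
      have a3 := Int.floor_le ((2 : ℝ) ^ (α + b) * (C.l ω).X (C.s i' ω) / 2 ^ m)
      have a4 := Int.lt_floor_add_one ((2 : ℝ) ^ (α + b) * (C.l ω).X (C.s i' ω) / 2 ^ m)
      rw [f0] at a1 a2
      rw [abs_le]; constructor <;> linarith
    have g1 : |(2 : ℝ) ^ (α + 2 * b) * C.Zs b (C.s i' ω) ω' / 2 ^ m -
        2 ^ (α + 2 * b) * C.Zs b (C.s i' ω) ω / 2 ^ m| ≤ 1 := by
      have f0 : ⌊(2 : ℝ) ^ (α + 2 * b) * C.Zs b (C.s i' ω') ω' / 2 ^ m⌋ =
          ⌊2 ^ (α + 2 * b) * C.Zs b (C.s i' ω) ω / 2 ^ m⌋ := congrFun e1 1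
      rw [es] at f0
      have a1 := Int.floor_le ((2 : ℝ) ^ (α + 2 * b) * C.Zs b (C.s i' ω) ω' / 2 ^ m)
      have a2 := Int.lt_floor_add_one ((2 : ℝ) ^ (α + 2 * b) * C.Zs b (C.s i' ω) ω' / 2 ^ m)
      have a3 := Int.floor_le ((2 : ℝ) ^ (α + 2 * b) * C.Zs b (C.s i' ω) ω / 2 ^ m)
      have a4 := Int.lt_floor_add_one ((2 : ℝ) ^ (α + 2 * b) * C.Zs b (C.s i' ω) ω / 2 ^ m)
      rw [f0] at a1 a2
      rw [abs_le]; constructor <;> linarith
    have p0 : (2 : ℝ) ^ (α + b) = 2 ^ (C.a k + b) * 2 ^ m := by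
      rw [hkj, ← pow_add]; congr 1; ring
    have p1 : (2 : ℝ) ^ (α + 2 * b) = 2 ^ (C.a k + 2 * b) * 2 ^ m := by
      rw [hkj, ← pow_add]; congr 1; ring
    rw [p0] at g0
    rw [p1] at g1
    rw [← sub_div, ← mul_sub, mul_assoc, mul_comm ((2 : ℝ) ^ m), ← mul_assoc, mul_div_assoc,
      div_self hm2.ne', mul_one, abs_mul, abs_of_pos (by positivity : (0 : ℝ) < 2 ^ (C.a k + b))] at g0
    rw [← sub_div, ← mul_sub, mul_assoc, mul_comm ((2 : ℝ) ^ m), ← mul_assoc, mul_div_assoc,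
      div_self hm2.ne', mul_one, abs_mul, abs_of_pos (by positivity : (0 : ℝ) < 2 ^ (C.a k + 2 * b))] at g1
    have hsk : |C.s k ω - C.s i' ω| ≤ q2 (C.a k) := C.s_near (hk.trans hj) ω
    obtain ⟨k0, k1⟩ := two_times h1 (hK ω pω) hl hμ' e2.symm (α := C.a k) (s := C.s i' ω)
      (d := C.s k ω - C.s i' ω) hsk
    rw [add_sub_cancel] at k0 k1
    intro i
    fin_cases i
    · show |⌊(2 : ℝ) ^ (C.a k + b) * (C.l ω').X (C.s k ω')⌋ -
        ⌊(2 : ℝ) ^ (C.a k + b) * (C.l ω).X (C.s k ω)⌋| ≤ 3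
      rw [ek]
      refine fl_near3 ?_
      rw [← mul_sub, abs_mul, abs_of_pos (by positivity : (0 : ℝ) < 2 ^ (C.a k + b))]
      have e4 : (C.l ω').X (C.s k ω) - (C.l ω).X (C.s k ω) =
          ((C.l ω').X (C.s k ω) - (C.l ω).X (C.s k ω) -
            ((C.l ω').X (C.s i' ω) - (C.l ω).X (C.s i' ω))) +
          ((C.l ω').X (C.s i' ω) - (C.l ω).X (C.s i' ω)) := by ring
      rw [e4]
      refine (mul_le_mul_of_nonneg_left (abs_add_le _ _) (by positivity)).trans ?_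
      rw [mul_add]
      linarith
    · show |⌊(2 : ℝ) ^ (C.a k + 2 * b) * C.Zs b (C.s k ω') ω'⌋ -
        ⌊(2 : ℝ) ^ (C.a k + 2 * b) * C.Zs b (C.s k ω) ω⌋| ≤ 3
      rw [ek]
      refine fl_near3 ?_
      rw [← mul_sub, abs_mul, abs_of_pos (by positivity : (0 : ℝ) < 2 ^ (C.a k + 2 * b))]
      have e4 : C.Zs b (C.s k ω) ω' - C.Zs b (C.s k ω) ω =
          (C.Zs b (C.s k ω) ω' - C.Zs b (C.s k ω) ω -
            (C.Zs b (C.s i' ω) ω' - C.Zs b (C.s i' ω) ω)) +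
          (C.Zs b (C.s i' ω) ω' - C.Zs b (C.s i' ω) ω) := by ring
      rw [e4]
      refine (mul_le_mul_of_nonneg_left (abs_add_le _ _) (by positivity)).trans ?_
      rw [mul_add]
      linarith
  -- 3. Shannon
  have s1 := hc_le_add' P Xf (vz C j b) (fun ω => (Xc ω, Dt ω))
  have s2 : hc P Xf (fun ω => (vz C j b ω, (Xc ω, Dt ω))) ≤ hc P Xf (fun ω => (vz C j b ω, Dt ω)) :=
    hc_mono_right P _ fun ω ω' _ _ e => by
      simp only [Prod.mk.injEq] at e ⊢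
      exact ⟨e.1, e.2.2⟩
  have s3 := hc_le_add' P (vz C j b) (vz C k b) (fun ω => (Xc ω, Dt ω))
  have s4 : hc P (vz C j b) (fun ω => (vz C k b ω, (Xc ω, Dt ω))) ≤
      hc P (vz C j b) (fun ω => (vz C k b ω, Dt ω)) :=
    hc_mono_right P _ fun ω ω' _ _ e => by
      simp only [Prod.mk.injEq] at e ⊢
      exact ⟨e.1, e.2.2⟩
  have s5 : hc P (vz C j b) (fun ω => (vz C k b ω, Dt ω)) ≤
      hc P (C.VZ j b) (fun ω => (C.VZ k b ω, Dt ω)) := by
    refine (hc_mono_left P ?_).trans (hc_mono_right P _ ?_)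
    · intro ω ω' _ _ e
      simp only [Prod.mk.injEq] at e
      unfold vz
      rw [e.1]
    · intro ω ω' _ _ e
      simp only [Prod.mk.injEq] at e ⊢
      refine ⟨?_, e.2⟩
      exact Prod.ext (congrFun e.1 0) (congrFun e.1 1)
  linarith

/-- **the (V, Z)-step** with the cell of the earlier step `k` (`SatV` of helper833, letter `T i'`) -/
theorem satVT (h1 : 1 ≤ K) (hK : ∀ ω, 0 < P.w ω → C.Ok K ω) (hl : C.Lev j b) (hl' : C.Lev j b')
    (hbb : b + 8 * C.μ ≤ b') (hbp : b + p ≤ b') (hp : C.μ ≤ p) (ha : C.a j + 4 * C.μ ≤ C.a i') (hj : j ≤ i')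
    {k k' m g : ℕ} (hk : k ≤ j) (hk' : C.a j = C.a k') (hkj : C.a j = C.a k + m) (hm : 1 ≤ m) (hmg : m ≤ g)
    (hg : g ≤ C.μ) (hμ : 10 * 2 ^ (m + 5 * g + 4) * (70 * K ^ 4 * q2 C.μ) ≤ 1) {ι₁ ι₂ : ℝ}
    (hi1 : mi P (fun ω => fl1 (b + p) (C.l ω).v) (C.cell i' b) (fun ω => (C.cell j b ω, C.T i' ω)) ≤ ι₁)
    (hi2 : mi P (C.T i') (fun ω => (C.cell j b' ω, fl1 (b + p) (C.l ω).v)) (C.cell j b) ≤ ι₂) :
    2 * (m * Real.log 2) - ((15 + 13 * m * (colp P (fun ω => fl1 (C.a j + g) (C.t ω)) (C.cell j b) +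
        colp P (fun ω => fl1 (b + g) (C.l ω).v) (C.cell j b)) +
      2 ^ (22 * g) * (Real.sqrt ι₁ + Real.sqrt ι₂)) + hc P (C.cell k b) (C.cell j b)) ≤
    hc P (C.VZ k' b) (fun ω => (C.VZ k b ω, (C.cell k b ω, C.T i' ω))) := by
  have main := satVZ h1 hK hl hl' hbb hbp hp ha hj hk hkj hm hmg hg hμ hi1 hi2
  have es : ∀ ω, C.s k' ω = C.s j ω := by
    intro ω
    unfold Pth.s
    rw [hk']
  have e : C.VZ j b = C.VZ k' b := by
    funext ω
    unfold Pth.VZ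
    rw [es, hk']
  rw [e] at main
  have s1 := hc_le_add' P (C.VZ k' b) (C.cell k b) (fun ω => (C.VZ k b ω, (C.cell j b ω, C.T i' ω)))
  have s2 : hc P (C.VZ k' b) (fun ω => (C.cell k b ω, (C.VZ k b ω, (C.cell j b ω, C.T i' ω)))) ≤
      hc P (C.VZ k' b) (fun ω => (C.VZ k b ω, (C.cell k b ω, C.T i' ω))) :=
    hc_mono_right P _ fun ω ω' _ _ e => by
      simp only [Prod.mk.injEq] at e ⊢
      exact ⟨e.2.1, e.1, e.2.2.2⟩
  have s3 : hc P (C.cell k b) (fun ω => (C.VZ k b ω, (C.cell j b ω, C.T i' ω))) ≤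
      hc P (C.cell k b) (C.cell j b) :=
    hc_mono_right P _ fun ω ω' _ _ e => by
      simp only [Prod.mk.injEq] at e
      exact e.2.1
  linarith

/-- **the (V, Z)-step** in the form of the RISE lemma (hypothesis `hV` of `rise_cell` of helper118) -/
theorem satVR (h1 : 1 ≤ K) (hK : ∀ ω, 0 < P.w ω → C.Ok K ω) (hl : C.Lev j b) (hl' : C.Lev j b')
    (hbb : b + 8 * C.μ ≤ b') (hbp : b + p ≤ b') (hp : C.μ ≤ p) (ha : C.a j + 4 * C.μ ≤ C.a i') (hj : j ≤ i')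
    {k m g : ℕ} (hk : k + 1 ≤ j) (hk' : C.a j = C.a (k + 1)) (hkj : C.a (k + 1) = C.a k + m) (hm : 1 ≤ m)
    (hmg : m ≤ g) (hg : g ≤ C.μ) (hμ : 10 * 2 ^ (m + 5 * g + 4) * (70 * K ^ 4 * q2 C.μ) ≤ 1) {ι₁ ι₂ : ℝ}
    (hi1 : mi P (fun ω => fl1 (b + p) (C.l ω).v) (C.cell i' b) (fun ω => (C.cell j b ω, C.T i' ω)) ≤ ι₁)
    (hi2 : mi P (C.T i') (fun ω => (C.cell j b' ω, fl1 (b + p) (C.l ω).v)) (C.cell j b) ≤ ι₂) :
    2 * (m * Real.log 2) - ((15 + 13 * m * (colp P (fun ω => fl1 (C.a j + g) (C.t ω)) (C.cell j b) +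
        colp P (fun ω => fl1 (b + g) (C.l ω).v) (C.cell j b)) +
      2 ^ (22 * g) * (Real.sqrt ι₁ + Real.sqrt ι₂)) + hc P (C.cell k b) (C.cell j b)) ≤
    hc P (C.VZ (k + 1) b) (fun ω => (C.T (k + 1) ω, (C.cell k b ω, C.VZ k b ω))) := by
  have main := satVT h1 hK hl hl' hbb hbp hp ha hj (k := k) (k' := k + 1) (by omega) hk' (by omega) hm hmg hg hμ
    hi1 hi2
  refine main.trans (hc_mono_right P _ fun ω ω' _ _ e => ?_)
  simp only [Prod.mk.injEq] at e ⊢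
  exact ⟨Pth.T_mono (by omega) e.2.2, e.2.1, e.1⟩

end main

end Vale.Agent.P106.U.H357
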