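import Vale.Agent.P106.U.H357.SatVG
import Vale.Agent.P106.U.S3.F2
import Vale.Agent.P106.U.MIC.Props

/-!
# P106 / U / H357 : hypothesis `hV` of the RISE lemma from the fields of the record (helper357)

* `exS C S` : the path `C` with a further letter `S` in every letter; its cells.
* **`satVD`** : `satVYe` over any letter `D` finer than the cell, any later letter `E`, any `Θ`, any near-determined `Y`.
* `SameL C C₀` : same time, ray, offsets, margin, levels ⇒ same `VZ`; `EOk.same` : cells of another path as the later letter.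
* **`hV_G`** : the conclusion in terms of `C₀`, collisions given the letter `D`; `cTL`, `cYL` : collisions given `LDk`; **`hV_L`** : in the letters of `S3.F2`
  (`LDk`, `LTh`), ALL regimes, for every path `C` (`lc R.C μ o`, frozen path of the true line digits ..).
* `uV`, `uV_nonneg`, `uV_le`, `uV_sum` : from the errors of the time steps to the function `u` of the levels.
-/

set_option autoImplicit false

namespace Vale.Agent.P106.U.H357

open Finset Vale.Agent.P127 Vale.Agent.P127.Stk Vale.Agent.P127.U.Pin Vale.Agent.P127.U.Mic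
open Vale.Agent.P127.U.CellD
open Vale.Agent.P106.TV
open Vale.Agent.P106.U.Cell Vale.Agent.P106.U.H875

/-! ### a further letter -/

section ext

variable {Ω τ σ : Type}

/-- the path `C` with the letter `S` added to every letter -/
noncomputable def exS (C : Pth Ω τ) (S : Ω → σ) : Pth Ω (τ × σ) where
  a := C.a
  rf := C.rf
  rk := C.rk
  ha := C.ha
  hf := C.hf
  hk := C.hk
  hkf := C.hkf
  μ := C.μ
  o := C.o
  l := C.l
  t := C.t
  p := C.p
  T := fun i ω => (C.T i ω, S ω)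
  tm := fun i θ => C.tm i θ.1
  ga := fun i θ => C.ga i θ.1
  ka := fun i θ => C.ka i θ.1
  al := fun i θ => C.al i θ.1
  hT := fun i ω ω' e => by
    simp only [Prod.mk.injEq] at e ⊢
    exact ⟨C.hT i ω ω' e.1, e.2⟩
  htm := fun i ω => C.htm i ω

variable {C : Pth Ω τ} {S : Ω → σ} {i b : ℕ} {ω ω' : Ω} {K : ℝ}

lemma exS_cell (i b : ℕ) (ω : Ω) : (exS C S).cell i b ω = ((C.T i ω, S ω), (C.cell i b ω).2) := rfl

lemma exS_iff : (exS C S).cell i b ω = (exS C S).cell i b ω' ↔ C.cell i b ω = C.cell i b ω' ∧ S ω = S ω' := by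
  rw [exS_cell, exS_cell]
  constructor
  · intro e
    simp only [Prod.mk.injEq] at e
    exact ⟨Prod.ext e.1.1 e.2, e.1.2⟩
  · rintro ⟨e1, e2⟩
    have h1 : C.T i ω = C.T i ω' := congrArg Prod.fst e1
    rw [h1, e2, e1]

lemma exS_Ok (h : C.Ok K ω) : (exS C S).Ok K ω := ⟨h.v1, h.w1, h.p1, h.n1, h.n2, h.k1, h.a1, h.ag⟩

end ext

section main

variable {Ω : Type} [Fintype Ω] {τ τ₀ θ ω₀ ε₀ σ δ : Type} {P : Law Ω} {C : Pth Ω τ} {C₀ : Pth Ω τ₀} {j b p i' : ℕ} {K : ℝ}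
  {Θ : Ω → θ} {tv : θ → ℝ} {W₀ : Ω → ω₀} {E : Ω → ε₀} {D : Ω → δ}

/-- **the (V, Z)-step** over a letter `D` finer than the cell -/
theorem satVD (hD : Fn P (C.cell j b) D) (h1 : 1 ≤ K) (hK : ∀ ω, 0 < P.w ω → C.Ok K ω) (hl : C.Lev j b)
    (hW : WOk P C K j b W₀) (hE : EOk P C j b i' E)
    (hΘ : ∀ ω, tv (Θ ω) = C.s i' ω) (hp : C.μ ≤ p) (ha : C.a j + 4 * C.μ ≤ C.a i') (hj : j ≤ i')
    {α₀ m g : ℕ} (hkj : C.a j = α₀ + m) (hm : 1 ≤ m) (hmg : m ≤ g)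
    (hg : g ≤ C.μ) (hμ : 10 * 2 ^ (m + 5 * g + 4) * (70 * K ^ 4 * q2 C.μ) ≤ 1) {ι₁ ι₂ : ℝ}
    (hi1 : mi P (fun ω => fl1 (b + p) (C.l ω).v) E (fun ω => (D ω, Θ ω)) ≤ ι₁)
    (hi2 : mi P Θ (fun ω => (W₀ ω, fl1 (b + p) (C.l ω).v)) D ≤ ι₂)
    {υ lam : Type} (Y : Ω → υ) (Λ : Ω → lam) (hΛ : Fn P Λ Θ) :
    2 * (m * Real.log 2) - ((15 + 13 * m * (colp P (fun ω => fl1 (C.a j + g) (C.t ω)) D +
        colp P (fun ω => fl1 (b + g) (C.l ω).v) D) +
      2 ^ (22 * g) * (Real.sqrt ι₁ + Real.sqrt ι₂)) + hc P Y D) ≤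
    hc P (VZl C (C.a j) b) (fun ω => (Λ ω, (Y ω, VZl C α₀ b ω))) := by
  have i1 : ∀ ω ω' : Ω, 0 < P.w ω → 0 < P.w ω' → (exS C D).cell j b ω = (exS C D).cell j b ω' →
      D ω = D ω' := fun ω ω' _ _ e => (exS_iff.1 e).2
  have i2 : ∀ ω ω' : Ω, 0 < P.w ω → 0 < P.w ω' → D ω = D ω' →
      (exS C D).cell j b ω = (exS C D).cell j b ω' := fun ω ω' p1 p2 e =>
    exS_iff.2 ⟨hD ω ω' p1 p2 e, e⟩
  have hW' : WOk P (exS C D) K j b W₀ := fun a c pa pc hD => hW a c pa pc (exS_iff.1 hD).1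
  have m1 : mi P (fun ω => fl1 (b + p) ((exS C D).l ω).v) E
      (fun ω => ((exS C D).cell j b ω, Θ ω)) ≤ ι₁ := by
    refine le_trans (le_of_eq (mi_congr_cond P _ _ ?_ ?_)) hi1
    · intro ω ω' p1 p2 e
      simp only [Prod.mk.injEq] at e
      exact Prod.ext (i2 ω ω' p1 p2 e.1) e.2
    · intro ω ω' p1 p2 e
      simp only [Prod.mk.injEq] at e
      exact Prod.ext (i1 ω ω' p1 p2 e.1) e.2
  have m2 : mi P Θ (fun ω => (W₀ ω, fl1 (b + p) ((exS C D).l ω).v)) ((exS C D).cell j b) ≤ ι₂ := by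
    refine le_trans (le_of_eq (mi_congr_cond P _ _ ?_ ?_)) hi2
    · exact fun ω ω' p1 p2 e => i2 ω ω' p1 p2 e
    · exact fun ω ω' p1 p2 e => i1 ω ω' p1 p2 e
  have main := satVYl (P := P) (C := exS C D) (K := K) (b := b) (p := p) (i' := i') (j := j) (W₀ := W₀) (Θ := Θ) (tv := tv)
    h1 (fun ω hω => exS_Ok (hK ω hω)) hl hW' hE hΘ hp ha hj hkj hm hmg hg hμ m1 m2 Y Λ hΛ
  have c1 : colp P (fun ω => fl1 ((exS C D).a j + g) ((exS C D).t ω)) ((exS C D).cell j b) =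
      colp P (fun ω => fl1 (C.a j + g) (C.t ω)) D :=
    colp_congr P (fun ω ω' _ _ e => congrArg Prod.fst e) (fun ω ω' _ _ e => congrArg Prod.fst e)
      (fun ω ω' p1 p2 e => i2 ω ω' p1 p2 e) (fun ω ω' p1 p2 e => i1 ω ω' p1 p2 e)
  have c2 : colp P (fun ω => fl1 (b + g) ((exS C D).l ω).v) ((exS C D).cell j b) =
      colp P (fun ω => fl1 (b + g) (C.l ω).v) D :=
    colp_congr P (fun ω ω' _ _ e => congrArg Prod.fst e) (fun ω ω' _ _ e => congrArg Prod.fst e)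
      (fun ω ω' p1 p2 e => i2 ω ω' p1 p2 e) (fun ω ω' p1 p2 e => i1 ω ω' p1 p2 e)
  have c3 : hc P Y ((exS C D).cell j b) = hc P Y D :=
    hc_congr P (fun ω ω' _ _ e => congrArg Prod.fst e) (fun ω ω' _ _ e => congrArg Prod.fst e)
      (fun ω ω' p1 p2 e => i2 ω ω' p1 p2 e) (fun ω ω' p1 p2 e => i1 ω ω' p1 p2 e)
  rw [c1, c2, c3] at main
  exact main

/-- two paths with the same time, ray, offsets, margin -/
structure SameL (C : Pth Ω τ) (C₀ : Pth Ω τ₀) : Prop where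
  t : C.t = C₀.t
  l : C.l = C₀.l
  μ : C.μ = C₀.μ
  o : C.o = C₀.o

omit [Fintype Ω] in
lemma SameL.Zs (h : SameL C C₀) (b : ℕ) (s : ℝ) (ω : Ω) : C.Zs b s ω = C₀.Zs b s ω := by
  unfold Pth.Zs Pth.ro
  rw [h.l, h.μ, h.o]

omit [Fintype Ω] in
/-- the same nominal `(V, Z)`-positions -/
lemma SameL.VZl (h : SameL C C₀) (α b : ℕ) : VZl C α b = VZl C₀ α b := by
  funext ω
  unfold H357.VZl
  rw [h.Zs, h.t, h.l]

/-- the cell of another path as the later letter -/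
theorem EOk.same {i₀ : ℕ} (h : SameL C C₀) (hi : C.a i' = C₀.a i₀) (hl : C.Lev j b) (ha : C.a j + 4 * C.μ ≤ C.a i') :
    EOk P C j b i' (C₀.cell i₀ b) := by
  intro a c pa pc e
  have hs : C.s i' = C₀.s i₀ := by
    unfold Pth.s
    rw [hi, h.t]
  have n0 := Pth.va_near e 0
  have n3 := Pth.va_near e 3
  rw [Pth.va0, Pth.va0, Pth.lv0] at n0
  rw [Pth.va3, Pth.va3, Pth.lv3] at n3
  rw [← hs, ← hi, ← h.l, ← h.μ] at n0
  rw [← h.Zs, ← h.Zs, ← hs, ← hi, ← h.μ] at n3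
  have hb := hl.1
  refine ⟨?_, ?_⟩
  · exact (mul_le_mul_of_nonneg_left n0 (by positivity)).trans (sc (by omega))
  · exact (mul_le_mul_of_nonneg_left n3 (by positivity)).trans (sc (by omega))

/-- **hypothesis `hV` of RISE**, any letters: `C` = path over which the informations are small (`lc R.C μ o` at an old step, the frozen
path of the true line digits at a young step), `C₀` = path in terms of which the conclusion is stated, `Y` = letter of the step `k`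
of the chain -/
theorem hV_G (hS : SameL C C₀) (hD : Fn P (C.cell j b) D) (h1 : 1 ≤ K)
    (hK : ∀ ω, 0 < P.w ω → C.Ok K ω) (hl : C.Lev j b)
    (hW : WOk P C K j b W₀) (hE : EOk P C j b i' E)
    (hΘ : ∀ ω, tv (Θ ω) = C.s i' ω) (hΘ' : Fn P (fun ω => fl1 (C.a i') (C.t ω)) Θ)
    (hp : C.μ ≤ p) (ha : C.a j + 4 * C.μ ≤ C.a i') (hj : j ≤ i')
    {k k' m g : ℕ} (hk' : C.a j = C₀.a k') (hkj : C₀.a k' = C₀.a k + m) (hm : 1 ≤ m) (hmg : m ≤ g)
    (hg : g ≤ C.μ) (hμ : 10 * 2 ^ (m + 5 * g + 4) * (70 * K ^ 4 * q2 C.μ) ≤ 1) {ι₁ ι₂ : ℝ}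
    (hi1 : mi P (fun ω => fl1 (b + p) (C.l ω).v) E (fun ω => (D ω, Θ ω)) ≤ ι₁)
    (hi2 : mi P Θ (fun ω => (W₀ ω, fl1 (b + p) (C.l ω).v)) D ≤ ι₂)
    {υ : Type} (Y : Ω → υ) :
    2 * (m * Real.log 2) - ((15 + 13 * m * (colp P (fun ω => fl1 (C.a j + g) (C.t ω)) D +
        colp P (fun ω => fl1 (b + g) (C.l ω).v) D) +
      2 ^ (22 * g) * (Real.sqrt ι₁ + Real.sqrt ι₂)) + hc P Y D) ≤
    hc P (C₀.VZ k' b) (fun ω => (fl1 (C₀.a k') (C₀.t ω), (Y ω, C₀.VZ k b ω))) := by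
  have main := satVD hD h1 hK hl hW hE hΘ hp ha hj (hk'.trans hkj) hm hmg hg hμ hi1 hi2 Y
    (fun ω => fl1 (C₀.a k') (C₀.t ω)) (fun ω ω' p1 p2 e => by
      have e1 := hΘ' ω ω' p1 p2 e
      rw [← hS.t, ← hk']
      exact fl1_coarse (C.ha hj) e1)
  have hh : VZl C₀ (C.a j) b = C₀.VZ k' b := by
    rw [hk']
    rfl
  rw [hS.VZl, hS.VZl, hh] at main
  exact main

/-- the letters of the record are between the cell and `Dp` -/
lemma cell_LDk (P : Law Ω) (C : Pth Ω τ) (b j : ℕ) : Fn P (C.cell j b) (S3.LDk C b j) :=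
  fun _ _ _ _ e => congrArg Prod.fst e

lemma LDk_Dp (P : Law Ω) (C : Pth Ω τ) (b j : ℕ) : Fn P (S3.LDk C b j) (H683.Dp C j b) := by
  intro ω ω' _ _ e
  unfold H683.Dp at e
  simp only [Prod.mk.injEq] at e
  unfold S3.LDk
  rw [e.1]
  refine Prod.ext rfl ?_
  show (if _ then _ else _) = (if _ then _ else _)
  split_ifs
  · exact e.2
  · rfl

/-- collisions of the time given `LDk` -/
noncomputable def cTL (P : Law Ω) (C : Pth Ω τ) (b j g : ℕ) : ℝ :=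
  colp P (fun ω => fl1 (C.a j + g) (C.t ω)) (S3.LDk C b j)

/-- collisions of the direction given `LDk` -/
noncomputable def cYL (P : Law Ω) (C : Pth Ω τ) (b j g : ℕ) : ℝ :=
  colp P (fun ω => fl1 (b + g) (C.l ω).v) (S3.LDk C b j)

lemma cTL_nonneg (P : Law Ω) (C : Pth Ω τ) (b j g : ℕ) : 0 ≤ cTL P C b j g := colp_nonneg P _ _

lemma cYL_nonneg (P : Law Ω) (C : Pth Ω τ) (b j g : ℕ) : 0 ≤ cYL P C b j g := colp_nonneg P _ _

/-- all regimes : at most the collisions given `Dp` -/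
lemma cTL_le (P : Law Ω) (C : Pth Ω τ) (b j g : ℕ) : cTL P C b j g ≤ MIC.cT P C b j g :=
  colp_mono_cond P _ (LDk_Dp P C b j)

lemma cYL_le (P : Law Ω) (C : Pth Ω τ) (b j g : ℕ) : cYL P C b j g ≤ MIC.cY P C b j g :=
  colp_mono_cond P _ (LDk_Dp P C b j)

/-- kappa regime : `LDk` is the cell -/
lemma LDk_kap (P : Law Ω) {C : Pth Ω τ} {b j : ℕ} (h : b + C.rk j < C.rf j) : Fn P (S3.LDk C b j) (C.cell j b) := by
  intro ω ω' _ _ e
  unfold S3.LDk
  rw [if_neg (by omega), if_neg (by omega), e]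

lemma cTL_kap (P : Law Ω) {C : Pth Ω τ} {b j : ℕ} (h : b + C.rk j < C.rf j) (g : ℕ) :
    cTL P C b j g = colp P (fun ω => fl1 (C.a j + g) (C.t ω)) (C.cell j b) :=
  le_antisymm (colp_mono_cond P _ (LDk_kap P h)) (colp_mono_cond P _ (cell_LDk P C b j))

lemma cYL_kap (P : Law Ω) {C : Pth Ω τ} {b j : ℕ} (h : b + C.rk j < C.rf j) (g : ℕ) :
    cYL P C b j g = colp P (fun ω => fl1 (b + g) (C.l ω).v) (C.cell j b) :=
  le_antisymm (colp_mono_cond P _ (LDk_kap P h)) (colp_mono_cond P _ (cell_LDk P C b j))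

/-- time of the later step from its letter -/
noncomputable def tvL (C : Pth Ω τ) (i' : ℕ) (x : τ × ℤ) : ℝ := (C.tm i' x.1 : ℝ) / 2 ^ C.a i'

omit [Fintype Ω] in
lemma tvL_LTh (C : Pth Ω τ) (b i' : ℕ) (ω : Ω) : tvL C i' (S3.LTh C b i' ω) = C.s i' ω := by
  show (C.tm i' (C.T i' ω) : ℝ) / 2 ^ C.a i' = _
  rw [C.htm]
  rfl

lemma td_LTh (P : Law Ω) (C : Pth Ω τ) (b i' : ℕ) : Fn P (fun ω => fl1 (C.a i') (C.t ω)) (S3.LTh C b i') := by
  intro ω ω' _ _ e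
  have e1 : C.T i' ω = C.T i' ω' := congrArg Prod.fst e
  show fl1 (C.a i') (C.t ω) = fl1 (C.a i') (C.t ω')
  rw [← C.htm i' ω, ← C.htm i' ω', e1]

/-- **hypothesis `hV` of RISE from the sums `S`, `V1` of `S3.F2`** : all regimes, every path `C` -/
theorem hV_L (hS : SameL C C₀) (h1 : 1 ≤ K) (hK : ∀ ω, 0 < P.w ω → C.Ok K ω) {b' : ℕ} (hl : C.Lev j b) (hl' : C.Lev j b')
    (hbb : b + 8 * C.μ ≤ b') (hbp : b + p ≤ b') (hp : C.μ ≤ p) (ha : C.a j + 4 * C.μ ≤ C.a i') (hj : j ≤ i')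
    {k k' m g : ℕ} (hk' : C.a j = C₀.a k') (hkj : C₀.a k' = C₀.a k + m) (hm : 1 ≤ m) (hmg : m ≤ g)
    (hg : g ≤ C.μ) (hμ : 10 * 2 ^ (m + 5 * g + 4) * (70 * K ^ 4 * q2 C.μ) ≤ 1)
    (hE : EOk P C j b i' E) {ι₁ ι₂ : ℝ}
    (hi1 : mi P (fun ω => fl1 (b + p) (C.l ω).v) E (fun ω => (S3.LDk C b j ω, S3.LTh C b i' ω)) ≤ ι₁)
    (hi2 : mi P (S3.LTh C b i') (C.cell j b') (S3.LDk C b j) ≤ ι₂)
    {υ : Type} (Y : Ω → υ) :
    2 * (m * Real.log 2) - ((15 + 13 * m * (cTL P C b j g + cYL P C b j g) +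
      2 ^ (22 * g) * (Real.sqrt ι₁ + Real.sqrt ι₂)) + hc P Y (C.cell j b)) ≤
    hc P (C₀.VZ k' b) (fun ω => (fl1 (C₀.a k') (C₀.t ω), (Y ω, C₀.VZ k b ω))) := by
  have main := hV_G hS (cell_LDk P C b j) h1 hK hl (WOk.cell h1 hK hl hl' hbb) hE (tvL_LTh C b i')
    (td_LTh P C b i') hp ha hj hk' hkj hm hmg hg hμ hi1 (ι₂ := ι₂) (by
      refine le_trans (mi_mono_right P _ ?_) hi2
      intro ω ω' _ _ e
      simp only [Prod.mk.injEq] at e
      refine Prod.ext e.1 ?_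
      have e1 : fl1 b' (C.l ω).v = fl1 b' (C.l ω').v := (Pth.cell_iff.1 e.1).2.1
      exact fl1_coarse hbp e1) Y
  have := hc_mono_right P Y (cell_LDk P C b j)
  unfold cTL cYL
  linarith

end main

/-! ### from the time steps to the levels -/

/-- the error of the level `z` : error of the time step which starts at the level `z` -/
noncomputable def uV (N : ℕ) (a : ℕ → ℕ) (e : ℕ → ℝ) (z : ℕ) : ℝ :=
  ∑ k ∈ (range N).filter (fun k => a (k + 1) = a k + 1 ∧ a k = z), e k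

section uV

variable {N : ℕ} {a : ℕ → ℕ} {e : ℕ → ℝ}

lemma uV_nonneg (he : ∀ k, 0 ≤ e k) (z : ℕ) : 0 ≤ uV N a e z := Finset.sum_nonneg fun k _ => he k

lemma uV_le (he : ∀ k, 0 ≤ e k) {k : ℕ} (hk : k < N) (ha : a (k + 1) = a k + 1) : e k ≤ uV N a e (a k) :=
  Finset.single_le_sum (f := e) (fun k _ => he k) (by
    rw [Finset.mem_filter, Finset.mem_range]
    exact ⟨hk, ha, rfl⟩)

lemma uV_sum (he : ∀ k, 0 ≤ e k) (T : Finset ℕ) :
    ∑ z ∈ T, uV N a e z ≤ ∑ k ∈ (range N).filter (fun k => a (k + 1) = a k + 1), e k := by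
  classical
  unfold uV
  have h1 : ∀ z ∈ T, ∑ k ∈ (range N).filter (fun k => a (k + 1) = a k + 1 ∧ a k = z), e k =
      ∑ k ∈ (range N).filter (fun k => a (k + 1) = a k + 1), if a k = z then e k else 0 := by
    intro z _
    rw [← Finset.sum_filter, Finset.filter_filter]
  rw [Finset.sum_congr rfl h1, Finset.sum_comm]
  refine Finset.sum_le_sum fun k _ => ?_
  rw [Finset.sum_ite_eq]
  split_ifs
  · exact le_rfl
  · exact he k

/-- outside the levels below the last one the error is zero -/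
lemma uV_zero (ha : ∀ i j, i ≤ j → j ≤ N → a i ≤ a j) {z : ℕ} (hz : z ∉ range (a N)) : uV N a e z = 0 := by
  unfold uV
  refine Finset.sum_eq_zero fun k hk => ?_
  rw [Finset.mem_filter, Finset.mem_range] at hk
  rw [Finset.mem_range] at hz
  have := ha (k + 1) N (by omega) le_rfl
  omega

end uV

end Vale.Agent.P106.U.H357
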