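import Vale.Agent.P106.U.H357.HVR
import Vale.Agent.P106.U.H833.Near
import Vale.Agent.P106.U.H931.Nxt

/-!
# P106 / U / H357 : the sums of the informations of the time steps of the heavy intervals (helper357)

* `card_gap` : `#{v ∈ G : v - q ∉ G} ≤ q #{v ∈ G : v - 1 ∉ G}`.
* `tele_gap` : telescoping over a set of levels.
* `mi_down` : `I(y ; E | D, Θ) ≤ I(y ; M' | M) + H(E, D, Θ | M')`.
* **`f1_lev`** : `∑_(v ∈ G) I(y ; E v | D v, Θ v) ≤ q H #starts + ∑ (near losses)`, telescoping over LEVELS.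
* **`i2_sum`** : the second informations from a double sum of the record.
* `sqrt_sum_le` : `∑ √x ≤ √(# ∑ x)`.
-/

set_option autoImplicit false

namespace Vale.Agent.P106.U.H357

open Finset Vale.Agent.P127 Vale.Agent.P127.Stk Vale.Agent.P127.U.Mic
open Vale.Agent.P106.U.H833 (mi_near mi_near_mono)

/-! ### levels -/

/-- starts of the runs of `G` -/
def gapS (G : Finset ℕ) : Finset ℕ := G.filter fun v => v = 0 ∨ v - 1 ∉ G

/-- elements without an element `q` below -/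
def gapQ (q : ℕ) (G : Finset ℕ) : Finset ℕ := G.filter fun v => v < q ∨ v - q ∉ G

/-- below an element there is a start, all elements between are in `G` -/
lemma gap_start (G : Finset ℕ) (q : ℕ) : ∀ v ∈ G, (v < q ∨ v - q ∉ G) → ∃ s ∈ gapS G, s ≤ v ∧ v < s + q := by
  induction q with
  | zero =>
    intro v hv h
    rcases h with h | h
    · omega
    · exact absurd hv h
  | succ q ih =>
    intro v hv h
    by_cases h1 : v < q ∨ v - q ∉ G
    · obtain ⟨s, hs, h2, h3⟩ := ih v hv h1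
      exact ⟨s, hs, h2, by omega⟩
    · push Not at h1
      obtain ⟨h2, h3⟩ := h1
      refine ⟨v - q, ?_, by omega, by omega⟩
      rw [gapS, Finset.mem_filter]
      refine ⟨h3, ?_⟩
      rcases h with h | h
      · left; omega
      · right
        rwa [show v - q - 1 = v - (q + 1) by omega]

theorem card_gap (G : Finset ℕ) (q : ℕ) : (gapQ q G).card ≤ q * (gapS G).card := by
  have h : gapQ q G ⊆ (gapS G).biUnion fun s => Ico s (s + q) := by
    intro v hv
    rw [gapQ, Finset.mem_filter] at hv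
    obtain ⟨s, hs, h1, h2⟩ := gap_start G q v hv.1 hv.2
    rw [Finset.mem_biUnion]
    exact ⟨s, hs, by rw [Finset.mem_Ico]; exact ⟨h1, h2⟩⟩
  refine (Finset.card_le_card h).trans ((Finset.card_biUnion_le).trans ?_)
  simp [mul_comm]

/-- **telescoping over a set of levels** -/
theorem tele_gap (G : Finset ℕ) (q : ℕ) (H : ℕ → ℝ) {Hm : ℝ} (h0 : ∀ v, 0 ≤ H v) (h1 : ∀ v ∈ G, H v ≤ Hm)
    (hm : 0 ≤ Hm) : ∑ v ∈ G, (H v - H (v + q)) ≤ q * (gapS G).card * Hm := by
  classical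
  rw [Finset.sum_sub_distrib]
  have e1 : ∑ v ∈ G, H (v + q) = ∑ w ∈ G.image (· + q), H w := by
    rw [Finset.sum_image]
    intro a _ b _ h
    simpa using h
  have e2 : ∑ v ∈ G, H v ≤ ∑ v ∈ gapQ q G, H v + ∑ w ∈ G.image (· + q), H w := by
    rw [← Finset.sum_filter_add_sum_filter_not G (fun v => v < q ∨ v - q ∉ G) H]
    refine add_le_add le_rfl ?_
    refine Finset.sum_le_sum_of_subset_of_nonneg ?_ fun w _ _ => h0 w
    intro v hv
    rw [Finset.mem_filter] at hv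
    push Not at hv
    rw [Finset.mem_image]
    exact ⟨v - q, hv.2.2, by omega⟩
  have e3 : ∑ v ∈ gapQ q G, H v ≤ (gapQ q G).card * Hm := by
    rw [← nsmul_eq_mul]
    exact Finset.sum_le_card_nsmul _ _ _ fun v hv => h1 v (Finset.mem_filter.1 hv).1
  have e4 : ((gapQ q G).card : ℝ) * Hm ≤ q * (gapS G).card * Hm := by
    refine mul_le_mul_of_nonneg_right ?_ hm
    exact_mod_cast card_gap G q
  rw [e1]
  linarith

section ent

variable {Ω : Type} [Fintype Ω] (P : Law Ω) {S T U V W X : Type*}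

/-- the information of a step, from the information of two cells -/
theorem mi_down (y : Ω → S) (E : Ω → T) (D : Ω → U) (Θ : Ω → V) (M : Ω → W) (M' : Ω → X) (hD : Fn P M D) :
    mi P y E (fun ω => (D ω, Θ ω)) ≤ mi P y M' M + hc P (fun ω => (E ω, (D ω, Θ ω))) M' := by
  have h1 := mi_pair P y (fun ω => (D ω, Θ ω)) E M
  have h2 := mi_nonneg P y (fun ω => (D ω, Θ ω)) M
  have h3 : mi P y E (fun ω => ((D ω, Θ ω), M ω)) = mi P y E (fun ω => (D ω, Θ ω)) := by
    refine mi_congr_cond P y E ?_ ?_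
    · intro ω ω' p p' e
      exact Prod.ext e (hD ω ω' p p' (congrArg Prod.fst e))
    · intro ω ω' _ _ e
      exact congrArg Prod.fst e
  have h4 : mi P y (fun ω => ((D ω, Θ ω), E ω)) M ≤ mi P y (fun ω => (E ω, (D ω, Θ ω))) M :=
    mi_mono_right P y fun ω ω' _ _ e => by
      simp only [Prod.mk.injEq] at e ⊢
      exact ⟨e.1.2, e.1.1⟩
  have h5 := mi_near_mono P y M (fun ω => (E ω, (D ω, Θ ω))) M'
  rw [h3] at h1
  linarith

/-- **the first informations**, sum over a set of levels: `M v` = letter of the level `v` -/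
theorem f1_lev {DT : ℕ → Type*} {TT : ℕ → Type*} {ET : ℕ → Type*} (G : Finset ℕ) (q : ℕ) (y : Ω → S) (M : ℕ → Ω → W)
    (E : ∀ v, Ω → ET v) (D : ∀ v, Ω → DT v) (Θ : ∀ v, Ω → TT v) (hD : ∀ v ∈ G, Fn P (M v) (D v)) {Hm : ℝ} (hm : 0 ≤ Hm)
    (hH : ∀ v ∈ G, hc P y (M v) ≤ Hm) (ν ν' : ℕ → ℝ)
    (hν : ∀ v ∈ G, hc P (M v) (M (v + q)) ≤ ν v)
    (hν' : ∀ v ∈ G, hc P (fun ω => (E v ω, (D v ω, Θ v ω))) (M (v + q)) ≤ ν' v) :
    ∑ v ∈ G, mi P y (E v) (fun ω => (D v ω, Θ v ω)) ≤ q * (gapS G).card * Hm + ∑ v ∈ G, (ν v + ν' v) := by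
  have h1 : ∀ v ∈ G, mi P y (E v) (fun ω => (D v ω, Θ v ω)) ≤
      (hc P y (M v) - hc P y (M (v + q))) + (ν v + ν' v) := by
    intro v hv
    have a1 := mi_down P y (E v) (D v) (Θ v) (M v) (M (v + q)) (hD v hv)
    have a2 := mi_near P y (M v) (M (v + q))
    have a3 := hν v hv
    have a4 := hν' v hv
    linarith
  refine (Finset.sum_le_sum h1).trans ?_
  rw [Finset.sum_add_distrib]
  have := tele_gap G q (fun v => hc P y (M v)) (fun v => hc_nonneg P _ _) hH hm
  linarith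

end ent

/-- Cauchy-Schwarz -/
theorem sqrt_sum_le {ι : Type*} (A : Finset ι) (x : ι → ℝ) (hx : ∀ i ∈ A, 0 ≤ x i) :
    ∑ i ∈ A, Real.sqrt (x i) ≤ Real.sqrt (A.card * ∑ i ∈ A, x i) := by
  rw [← Real.sqrt_sq (Finset.sum_nonneg fun i _ => Real.sqrt_nonneg (x i))]
  refine Real.sqrt_le_sqrt ?_
  have h1 := sq_sum_le_card_mul_sum_sq (s := A) (f := fun i => Real.sqrt (x i))
  refine h1.trans ?_
  refine mul_le_mul_of_nonneg_left (le_of_eq ?_) (Nat.cast_nonneg _)
  exact Finset.sum_congr rfl fun i hi => Real.sq_sqrt (hx i hi)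

/-- **the second informations** : a family of pairs inside a double sum of the record -/
theorem i2_sum {ι : Type*} (A : Finset ι) (Id : Finset ℕ) (At : ℕ → Finset ℕ) (J I : ι → ℕ) (w : ℕ → ℕ → ℝ)
    (hw : ∀ k i, 0 ≤ w k i) (hJ : ∀ j ∈ A, J j ∈ Id) (hI : ∀ j ∈ A, I j ∈ At (J j))
    (hinj : ∀ j ∈ A, ∀ j' ∈ A, J j = J j' → j = j') :
    ∑ j ∈ A, w (J j) (I j) ≤ ∑ k ∈ Id, ∑ i ∈ At k, w k i := by
  classical
  have h1 : ∀ j ∈ A, w (J j) (I j) ≤ ∑ i ∈ At (J j), w (J j) i := fun j hj =>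
    Finset.single_le_sum (f := fun i => w (J j) i) (fun i _ => hw _ i) (hI j hj)
  refine (Finset.sum_le_sum h1).trans ?_
  have h2 : ∑ j ∈ A, ∑ i ∈ At (J j), w (J j) i = ∑ k ∈ A.image J, ∑ i ∈ At k, w k i := by
    rw [Finset.sum_image]
    exact fun j hj j' hj' e => hinj j hj j' hj' e
  rw [h2]
  refine Finset.sum_le_sum_of_subset_of_nonneg ?_ fun k _ _ => Finset.sum_nonneg fun i _ => hw k i
  intro k hk
  rw [Finset.mem_image] at hk
  obtain ⟨j, hj, rfl⟩ := hk
  exact hJ j hj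

end Vale.Agent.P106.U.H357
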