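import Vale.Agent.P106.U.H357.SIa
import Vale.Agent.P106.U.H513.F1
import Vale.Agent.P106.U.H300.N2

/-!
# P106 / U / H357 : the near losses of the old levels (helper357)

* `nearO` : `H(cell i', LDk J, LTh i' | cell J')` for `J ≤ i' ≤ J'` of one path, both regimes, in terms of the exceptional events
  `S3.exc` of the record.
* `nearO0` : `H(cell J | cell J')`.
-/

set_option autoImplicit false

namespace Vale.Agent.P106.U.H357

open Finset Vale.Agent.P127 Vale.Agent.P127.Stk Vale.Agent.P127.U.Mic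
open Vale.Agent.P127.U.CellD
open Vale.Agent.P106.U.Cell
open Vale.Agent.P106.U.S3
open Vale.Agent.P106.U.H513 (cNe cSl nuC nuS hc_cell5 hc_SR5 cNe_nonneg cSl_nonneg)

section near

variable {Ω τ : Type} [Fintype Ω] {P : Law Ω} {C : Pth Ω τ} {K K' : ℝ} {J i' J' b : ℕ}

lemma nb_mono {n : ℕ} {z ε ε' : ℝ} (h : ε ≤ ε') (hn : Nb n z ε) : Nb n z ε' := by
  by_contra hc
  obtain ⟨y, h1, h2, h3⟩ := hn
  exact h3 (Nb.eq hc (by rw [abs_le]; constructor <;> linarith) (by
    rw [sub_sub_cancel_left, abs_neg]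
    rw [abs_le]; constructor <;> linarith))

lemma sq_bad (hK : 640 * K ^ 7 ≤ K') : Real.sqrt (prE P (C.Bad (640 * K ^ 7) J b)) ≤ Real.sqrt (exc P C K' J b) := by
  refine Real.sqrt_le_sqrt ?_
  unfold exc
  have h1 : prE P (C.Bad (640 * K ^ 7) J b) ≤ prE P (C.Bad K' J b) := Vale.Agent.P127.Stk.Bs.prE_mono' fun ω _ h => Pth.Bad_mono hK h
  have h2 : 0 ≤ prE P (H420.BadS C K' J b) := prE_nonneg _ _
  have h3 : 0 ≤ prE P (H300.BadR C K' J b) := prE_nonneg _ _
  linarith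

lemma sq_badS (hK : 32 * K ^ 5 ≤ K') : Real.sqrt (prE P (H420.BadS C (32 * K ^ 5) J b)) ≤ Real.sqrt (exc P C K' J b) := by
  refine Real.sqrt_le_sqrt ?_
  unfold exc
  have h1 : prE P (H420.BadS C (32 * K ^ 5) J b) ≤ prE P (H420.BadS C K' J b) := Vale.Agent.P127.Stk.Bs.prE_mono' fun ω _ h => by
    unfold H420.BadS at h ⊢
    exact nb_mono (mul_le_mul_of_nonneg_right hK (q2_pos _).le) h
  have h2 : 0 ≤ prE P (C.Bad K' J b) := prE_nonneg _ _
  have h3 : 0 ≤ prE P (H300.BadR C K' J b) := prE_nonneg _ _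
  linarith

lemma exc_nonneg (P : Law Ω) (C : Pth Ω τ) (K' : ℝ) (J b : ℕ) : 0 ≤ exc P C K' J b :=
  add_nonneg (add_nonneg (prE_nonneg _ _) (prE_nonneg _ _)) (prE_nonneg _ _)

/-- the cell given a later cell -/
theorem nearO0 (h1 : 1 ≤ K) (hok : ∀ ω, 0 < P.w ω → C.Ok K ω) (hJ : J ≤ J') (hl : C.Lev J b) (hl' : C.Lev J' b)
    (ha : C.a J + 2 * C.μ ≤ C.a J') (hR : C.R J b + C.μ ≤ C.R J' b) (hK : 640 * K ^ 7 ≤ K') :
    hc P (C.cell J b) (C.cell J' b) ≤ cNe K * Real.sqrt (exc P C K' J b) := by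
  refine (hc_cell5 P C h1 hok hJ hl hl' ha hR).trans ?_
  exact mul_le_mul_of_nonneg_left (sq_bad hK) (cNe_nonneg K)

/-- **near losses of an old level**, both regimes (`rf ≤ rk + b` or not, the same at `J` and `i'`) -/
theorem nearO (h1 : 1 ≤ K) (hok : ∀ ω, 0 < P.w ω → C.Ok K ω) (h12 : J ≤ i') (h23 : i' ≤ J') (hl : ∀ x, C.Lev x b)
    (ha : C.a i' + 2 * C.μ ≤ C.a J') (hR : C.R i' b + 4 * C.μ ≤ C.R J' b)
    (hreg : (C.rf J + 2 * C.μ ≤ b + C.rk J ∧ C.rf i' + 2 * C.μ ≤ b + C.rk i') ∨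
      (b + C.rk J < C.rf J ∧ b + C.rk i' < C.rf i')) (hK : 640 * K ^ 7 ≤ K') :
    hc P (fun ω => (C.cell i' b ω, (LDk C b J ω, LTh C b i' ω))) (C.cell J' b) ≤
      (cNe K + cSl K) * (Real.sqrt (exc P C K' J b) + Real.sqrt (exc P C K' i' b)) := by
  have hK5 : 32 * K ^ 5 ≤ K' := by
    have : K ^ 5 ≤ K ^ 7 := pow_le_pow_right₀ h1 (by norm_num)
    have h0 : 0 ≤ K ^ 5 := by positivity
    linarith
  have hR1 := H300.R_mono C h12 b
  have a1 := C.ha h12
  have n1 := nearO0 (P := P) (K' := K') h1 hok (h12.trans h23) (hl J) (hl J') (by omega) (by omega) hK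
  have n2 := nearO0 (P := P) (K' := K') h1 hok h23 (hl i') (hl J') ha (by omega) hK
  have c1 := cNe_nonneg K
  have c2 := cSl_nonneg K
  have s1 := Real.sqrt_nonneg (exc P C K' J b)
  have s2 := Real.sqrt_nonneg (exc P C K' i' b)
  -- the slope digits
  have m1 : ∀ x : ℕ, x ≤ J' → C.R x b + 4 * C.μ ≤ C.R J' b → (C.rf x + 2 * C.μ ≤ b + C.rk x ∨ b + C.rk x < C.rf x) →
      hc P (fun ω => if C.rf x ≤ b + C.rk x then fl1 (C.rf x) (H683.slR C x b ω + C.o 4) else 0) (C.cell J' b) ≤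
        cSl K * Real.sqrt (exc P C K' x b) := by
    intro x hx hRx hr
    by_cases hc' : C.rf x ≤ b + C.rk x
    · have e : (fun ω => if C.rf x ≤ b + C.rk x then fl1 (C.rf x) (H683.slR C x b ω + C.o 4) else 0) =
          H420.SR C x b := by
        funext ω
        rw [if_pos hc']
        rfl
      rw [e]
      have hRe : C.R x b = C.rf x := by
        rw [Pth.R_eq, min_eq_right (by omega)]
      refine (hc_SR5 P C h1 hok hx (hl J') (by omega) (by omega)).trans ?_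
      exact mul_le_mul_of_nonneg_left (sq_badS hK5) c2
    · have e : (fun ω : Ω => if C.rf x ≤ b + C.rk x then fl1 (C.rf x) (H683.slR C x b ω + C.o 4) else 0) =
          fun _ => (0 : ℤ) := by
        funext ω
        rw [if_neg hc']
      rw [e]
      have h0 : hc P (fun _ : Ω => (0 : ℤ)) (C.cell J' b) = 0 := hc_zero P fun _ _ _ _ _ => rfl
      rw [h0]
      exact mul_nonneg c2 (Real.sqrt_nonneg _)
  have p1 := m1 J (h12.trans h23) (by omega) (by rcases hreg with h | h; exacts [Or.inl h.1, Or.inr h.1])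
  have p2 := m1 i' h23 hR (by rcases hreg with h | h; exacts [Or.inl h.2, Or.inr h.2])
  -- Shannon
  have q1 : hc P (fun ω => (C.cell i' b ω, (LDk C b J ω, LTh C b i' ω))) (C.cell J' b) ≤
      hc P (fun ω => (C.cell i' b ω, (C.cell J b ω,
        ((if C.rf J ≤ b + C.rk J then fl1 (C.rf J) (H683.slR C J b ω + C.o 4) else 0),
        (if C.rf i' ≤ b + C.rk i' then fl1 (C.rf i') (H683.slR C i' b ω + C.o 4) else 0))))) (C.cell J' b) := by
    refine hc_mono_left P fun ω ω' _ _ e => ?_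
    simp only [Prod.mk.injEq] at e
    obtain ⟨⟨e1, e2, e3, e4⟩, _⟩ := e
    have eT : C.T i' ω = C.T i' ω' := (Pth.cell_iff.1 e1).1
    unfold LDk LTh
    rw [e1, e2, eT]
    simp only [Prod.mk.injEq, true_and]
    exact ⟨e3, e4⟩
  have q2' := H420.hc_pair_le P (C.cell i' b) (fun ω => (C.cell J b ω,
        ((if C.rf J ≤ b + C.rk J then fl1 (C.rf J) (H683.slR C J b ω + C.o 4) else 0),
        (if C.rf i' ≤ b + C.rk i' then fl1 (C.rf i') (H683.slR C i' b ω + C.o 4) else 0)))) (C.cell J' b)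
  have q3 := H420.hc_pair_le P (C.cell J b) (fun ω =>
        ((if C.rf J ≤ b + C.rk J then fl1 (C.rf J) (H683.slR C J b ω + C.o 4) else 0),
        (if C.rf i' ≤ b + C.rk i' then fl1 (C.rf i') (H683.slR C i' b ω + C.o 4) else 0))) (C.cell J' b)
  have q4 := H420.hc_pair_le P (fun ω => if C.rf J ≤ b + C.rk J then fl1 (C.rf J) (H683.slR C J b ω + C.o 4) else 0)
        (fun ω => if C.rf i' ≤ b + C.rk i' then fl1 (C.rf i') (H683.slR C i' b ω + C.o 4) else 0) (C.cell J' b)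
  nlinarith

end near

end Vale.Agent.P106.U.H357
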