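import Vale.Agent.P106.U.H357.SIb

/-!
# P106 / U / H357 : sums over the time steps of a compressed path (helper357)

* `lvi_a` : `lvi n a (a (j + 1)) = j + 1` at a time step `j`.
* **`s1_gen`** : first informations, one kind of levels, abstract letters.
* **`s1_O`** : the old levels (path `lc R.C μ o`), near losses = exceptional events of the record.
* `sum_eM` : `∑ eM ≤ 15 # + 13 m coll + 2^(22 g) (√(# S1) + √(# S2))`.
* `sum_sq` : `∑ √x (J j) ≤ √(# ∑ x)` for injective `J`.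
-/

set_option autoImplicit false

namespace Vale.Agent.P106.U.H357

open Finset Vale.Agent.P127 Vale.Agent.P127.Stk Vale.Agent.P127.U.Mic
open Vale.Agent.P127.U.CellD
open Vale.Agent.P106.U.Cell
open Vale.Agent.P106.U.S3
open Vale.Agent.P106.U.H118 (Sdat)
open Vale.Agent.P106.U.H931 (lvi lvi_le lvi_le_n lvi_lt le_a_lvi)
open Vale.Agent.P106.U.H513 (cNe cSl cNe_nonneg cSl_nonneg)

section lv

variable {N : ℕ} {gd : ℕ → Prop} {a r : ℕ → ℕ}

/-- the first index of the level after a time step -/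
lemma lvi_a (D : Sdat N gd a r) {j : ℕ} (hj : j < N) (ha : a (j + 1) = a j + 1) : lvi N a (a (j + 1)) = j + 1 := by
  refine le_antisymm (lvi_le hj le_rfl) ?_
  by_contra h
  push Not at h
  have h1 := le_a_lvi (n := N) (a := a) (v := a (j + 1)) (i1 := j + 1) hj le_rfl
  have h2 := D.am (show lvi N a (a (j + 1)) ≤ j by omega) hj.le
  omega

/-- the level after a time step determines the step -/
lemma a_inj (D : Sdat N gd a r) {j j' : ℕ} (hj : j < N) (ha : a (j + 1) = a j + 1) (hj' : j' < N)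
    (ha' : a (j' + 1) = a j' + 1) (h : a (j + 1) = a (j' + 1)) : j = j' := by
  have h1 := lvi_a D hj ha
  have h2 := lvi_a D hj' ha'
  rw [h] at h1
  omega

end lv

section gen

variable {Ω : Type} [Fintype Ω] (P : Law Ω) {N : ℕ} {gd : ℕ → Prop} {a r : ℕ → ℕ} {S W ET DT TT : Type*}

/-- **first informations, one kind of levels** -/
theorem s1_gen (D : Sdat N gd a r) (A : Finset ℕ) (hA : ∀ j ∈ A, j < N ∧ a (j + 1) = a j + 1) (q : ℕ) (y : Ω → S)
    (M : ℕ → Ω → W) (E : ℕ → Ω → ET) (Dl : ℕ → Ω → DT) (Θ : ℕ → Ω → TT) (hD : ∀ j ∈ A, Fn P (M (a (j + 1))) (Dl j))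
    {Hm : ℝ} (hm : 0 ≤ Hm) (hH : ∀ j ∈ A, hc P y (M (a (j + 1))) ≤ Hm) (ν ν' : ℕ → ℝ)
    (hν : ∀ j ∈ A, hc P (M (a (j + 1))) (M (a (j + 1) + q)) ≤ ν j)
    (hν' : ∀ j ∈ A, hc P (fun ω => (E j ω, (Dl j ω, Θ j ω))) (M (a (j + 1) + q)) ≤ ν' j) :
    ∑ j ∈ A, mi P y (E j) (fun ω => (Dl j ω, Θ j ω)) ≤
      q * (gapS (A.image fun j => a (j + 1))).card * Hm + ∑ j ∈ A, (ν j + ν' j) := by
  classical
  set jv : ℕ → ℕ := fun v => lvi N a v - 1 with hjv
  have e : ∀ j ∈ A, jv (a (j + 1)) = j := fun j hj => by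
    have := lvi_a D (hA j hj).1 (hA j hj).2
    rw [hjv]
    show lvi N a (a (j + 1)) - 1 = j
    omega
  have inj : Set.InjOn (fun j => a (j + 1)) (A : Set ℕ) := fun j hj j' hj' h => by
    have h1 := e j hj
    have h2 := e j' hj'
    have h3 : a (j + 1) = a (j' + 1) := h
    rw [h3] at h1
    exact h1.symm.trans h2
  have key := f1_lev P (A.image fun j => a (j + 1)) q y M (fun v => E (jv v)) (fun v => Dl (jv v)) (fun v => Θ (jv v))
    (by
      intro v hv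
      rw [Finset.mem_image] at hv
      obtain ⟨j, hj, rfl⟩ := hv
      rw [e j hj]
      exact hD j hj) hm
    (by
      intro v hv
      rw [Finset.mem_image] at hv
      obtain ⟨j, hj, rfl⟩ := hv
      exact hH j hj) (fun v => ν (jv v)) (fun v => ν' (jv v))
    (by
      intro v hv
      rw [Finset.mem_image] at hv
      obtain ⟨j, hj, rfl⟩ := hv
      show hc P (M (a (j + 1))) (M (a (j + 1) + q)) ≤ ν (jv (a (j + 1)))
      rw [e j hj]
      exact hν j hj)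
    (by
      intro v hv
      rw [Finset.mem_image] at hv
      obtain ⟨j, hj, rfl⟩ := hv
      show hc P (fun ω => (E (jv (a (j + 1))) ω, (Dl (jv (a (j + 1))) ω, Θ (jv (a (j + 1))) ω))) (M (a (j + 1) + q)) ≤
        ν' (jv (a (j + 1)))
      rw [e j hj]
      exact hν' j hj)
  rw [Finset.sum_image inj, Finset.sum_image inj] at key
  have s1 : ∑ j ∈ A, mi P y (E (jv (a (j + 1)))) (fun ω => (Dl (jv (a (j + 1))) ω, Θ (jv (a (j + 1))) ω)) =
      ∑ j ∈ A, mi P y (E j) (fun ω => (Dl j ω, Θ j ω)) := Finset.sum_congr rfl fun j hj => by rw [e j hj]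
  have s2 : ∑ j ∈ A, (ν (jv (a (j + 1))) + ν' (jv (a (j + 1)))) = ∑ j ∈ A, (ν j + ν' j) :=
    Finset.sum_congr rfl fun j hj => by rw [e j hj]
  rw [s1, s2] at key
  exact key

/-- square roots over an injective family -/
theorem sum_sq {ι : Type*} (A : Finset ι) (J : ι → ℕ) (hJ : ∀ j ∈ A, ∀ j' ∈ A, J j = J j' → j = j') (x : ℕ → ℝ)
    (hx : ∀ k, 0 ≤ x k) {T : Finset ℕ} (hT : ∀ j ∈ A, J j ∈ T) {X : ℝ} (hX : ∑ k ∈ T, x k ≤ X) :
    ∑ j ∈ A, Real.sqrt (x (J j)) ≤ Real.sqrt (A.card * X) := by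
  classical
  refine (sqrt_sum_le A (fun j => x (J j)) fun j _ => hx _).trans (Real.sqrt_le_sqrt ?_)
  refine mul_le_mul_of_nonneg_left ?_ (Nat.cast_nonneg _)
  refine le_trans ?_ hX
  have h1 : ∑ j ∈ A, x (J j) = ∑ k ∈ A.image J, x k := by
    rw [Finset.sum_image]
    exact fun j hj j' hj' e => hJ j hj j' hj' e
  rw [h1]
  refine Finset.sum_le_sum_of_subset_of_nonneg ?_ fun k _ _ => hx k
  intro k hk
  rw [Finset.mem_image] at hk
  obtain ⟨j, hj, rfl⟩ := hk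
  exact hT j hj

/-- **sum of the errors of one kind** -/
theorem sum_eM {τ ε₀ : Type} (A : Finset ℕ) (C : ℕ → Pth Ω τ) (m g b b' pv : ℕ) (J i' : ℕ → ℕ) (E : ℕ → Ω → ε₀)
    {S1 S2 cc : ℝ} (h1 : ∑ j ∈ A, I1L P (C j) b pv (J j) (i' j) (E j) ≤ S1)
    (h2 : ∑ j ∈ A, I2L P (C j) b b' (J j) (i' j) ≤ S2)
    (h3 : ∑ j ∈ A, (cTL P (C j) b (J j) g + cYL P (C j) b (J j) g) ≤ cc) :
    ∑ j ∈ A, eM P (C j) m g b b' pv (J j) (i' j) (E j) ≤
      15 * A.card + 13 * m * cc + 2 ^ (22 * g) * (Real.sqrt (A.card * S1) + Real.sqrt (A.card * S2)) := by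
  unfold eM
  rw [Finset.sum_add_distrib, Finset.sum_add_distrib, ← Finset.mul_sum, ← Finset.mul_sum, Finset.sum_const, nsmul_eq_mul]
  have e0 : ∑ j ∈ A, (Real.sqrt (I1L P (C j) b pv (J j) (i' j) (E j)) + Real.sqrt (I2L P (C j) b b' (J j) (i' j))) =
      ∑ j ∈ A, Real.sqrt (I1L P (C j) b pv (J j) (i' j) (E j)) +
        ∑ j ∈ A, Real.sqrt (I2L P (C j) b b' (J j) (i' j)) := Finset.sum_add_distrib
  rw [e0]
  have e1 : ∑ j ∈ A, Real.sqrt (I1L P (C j) b pv (J j) (i' j) (E j)) ≤ Real.sqrt (A.card * S1) :=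
    (sqrt_sum_le A _ fun j _ => mi_nonneg P _ _ _).trans
      (Real.sqrt_le_sqrt (mul_le_mul_of_nonneg_left h1 (Nat.cast_nonneg _)))
  have e2 : ∑ j ∈ A, Real.sqrt (I2L P (C j) b b' (J j) (i' j)) ≤ Real.sqrt (A.card * S2) :=
    (sqrt_sum_le A _ fun j _ => mi_nonneg P _ _ _).trans
      (Real.sqrt_le_sqrt (mul_le_mul_of_nonneg_left h2 (Nat.cast_nonneg _)))
  have e3 : 13 * (m : ℝ) * ∑ j ∈ A, (cTL P (C j) b (J j) g + cYL P (C j) b (J j) g) ≤ 13 * m * cc :=
    mul_le_mul_of_nonneg_left h3 (by positivity)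
  have e4 := mul_le_mul_of_nonneg_left (add_le_add e1 e2) (show (0 : ℝ) ≤ 2 ^ (22 * g) by positivity)
  linarith

end gen

section old

variable {Ω τ : Type} [Fintype Ω] {P : Law Ω} {C : Pth Ω τ} {K K' : ℝ} {N : ℕ} {gd : ℕ → Prop} {a r : ℕ → ℕ}

/-- geometry of one reading: `J` = index after the time step, `i'` = reading index, `J'` = index `q` levels later -/
structure Rd (C : Pth Ω τ) (b J i' J' : ℕ) : Prop where
  h12 : J ≤ i'
  h23 : i' ≤ J'
  a : C.a i' + 2 * C.μ ≤ C.a J'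
  R : C.R i' b + 4 * C.μ ≤ C.R J' b
  reg : (C.rf J + 2 * C.μ ≤ b + C.rk J ∧ C.rf i' + 2 * C.μ ≤ b + C.rk i') ∨
    (b + C.rk J < C.rf J ∧ b + C.rk i' < C.rf i')

/-- **first informations of the old levels** -/
theorem s1_O (h1 : 1 ≤ K) (hok : ∀ ω, 0 < P.w ω → C.Ok K ω) {b pv : ℕ} (hl : ∀ x, C.Lev x b) (hK : 640 * K ^ 7 ≤ K')
    (D : Sdat N gd a r) (A : Finset ℕ) (hA : ∀ j ∈ A, j < N ∧ a (j + 1) = a j + 1) (f rx : ℕ → ℕ) (q : ℕ)
    (hR : ∀ j ∈ A, Rd C b (f (j + 1)) (rx j) (f (lvi N a (a (j + 1) + q)))) :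
    ∑ j ∈ A, I1L P C b pv (f (j + 1)) (rx j) (C.cell (rx j) b) ≤
      q * (gapS (A.image fun j => a (j + 1))).card * (pv * Real.log 2) +
        2 * (cNe K + cSl K) * ∑ j ∈ A, (Real.sqrt (exc P C K' (f (j + 1)) b) + Real.sqrt (exc P C K' (rx j) b)) := by
  have c1 := cNe_nonneg K
  have c2 := cSl_nonneg K
  have key := s1_gen P D A hA q (fun ω => fl1 (b + pv) (C.l ω).v) (fun v => C.cell (f (lvi N a v)) b)
    (fun j => C.cell (rx j) b) (fun j => LDk C b (f (j + 1))) (fun j => LTh C b (rx j))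
    (by
      intro j hj
      rw [lvi_a D (hA j hj).1 (hA j hj).2]
      exact cell_LDk P C b (f (j + 1))) (Hm := pv * Real.log 2)
    (mul_nonneg (Nat.cast_nonneg _) (Real.log_nonneg (by norm_num)))
    (fun j hj => H420.hc_v P C _ b pv)
    (fun j => cNe K * Real.sqrt (exc P C K' (f (j + 1)) b))
    (fun j => (cNe K + cSl K) * (Real.sqrt (exc P C K' (f (j + 1)) b) + Real.sqrt (exc P C K' (rx j) b)))
    (by
      intro j hj
      have h := hR j hj
      rw [lvi_a D (hA j hj).1 (hA j hj).2]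
      have hR1 := H300.R_mono C h.h12 b
      have ha1 := C.ha h.h12
      exact nearO0 h1 hok (h.h12.trans h.h23) (hl _) (hl _) (by have := h.a; omega) (by have := h.R; omega) hK)
    (by
      intro j hj
      have h := hR j hj
      exact nearO h1 hok h.h12 h.h23 hl h.a h.R h.reg hK)
  refine key.trans (add_le_add le_rfl ?_)
  rw [Finset.mul_sum]
  refine Finset.sum_le_sum fun j _ => ?_
  have s1 := Real.sqrt_nonneg (exc P C K' (f (j + 1)) b)
  have s2 := Real.sqrt_nonneg (exc P C K' (rx j) b)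
  nlinarith

end old

end Vale.Agent.P106.U.H357
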