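import Vale.Agent.P106.U.H357.SatVC

/-!
# P106 / U / H357 : the (V, Z)-step with an arbitrary letter (helper357)

As `SatVC.lean`, with an arbitrary letter `Θ` which fixes the rounded time `s i'` in the place of `T i'`, and an arbitrary
fine letter `W₀` in the place of `cell j b'`.

* `WOk` : what is used of the fine letter; `WOk.cell` : `cell j b'`.  `EOk` : what is used of the later letter; `EOk.cell` : `cell i' b`.
* `geoVg`, `satVCg`, `satVZl` (levels), `satVZg`; `satVYl`, `satVYe`, `satVYg` : the cell replaced by any letter `Y` which is near-determined by it, the time letter by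
  any function of `Θ`; `satVRt` : time digits only, in the form of the RISE lemma.
-/

set_option autoImplicit false

namespace Vale.Agent.P106.U.H357

open Finset Vale.Agent.P127 Vale.Agent.P127.Stk Vale.Agent.P127.U.Pin Vale.Agent.P127.U.Mic
open Vale.Agent.P127.U.CellD
open Vale.Agent.P106.TV
open Vale.Agent.P106.U.Cell Vale.Agent.P106.U.H875

/-- coarser digits -/
lemma fl1_coarse {m n : ℕ} (h : m ≤ n) {x y : ℝ} (hv : fl1 n x = fl1 n y) : fl1 m x = fl1 m y :=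
  congrFun (fl_of_fl (ι := Unit) h (fun _ => x) (fun _ => y) (funext fun _ => hv)) ()

/-- the fine letter `W₀` : two rays with the same cell `(j, b)` and the same `W₀` are close on the time block of level `a j` -/
def WOk {Ω : Type} [Fintype Ω] {τ ω₀ : Type} (P : Law Ω) (C : Pth Ω τ) (K : ℝ) (j b : ℕ) (W₀ : Ω → ω₀) : Prop :=
  ∀ a c : Ω, 0 < P.w a → 0 < P.w c → C.cell j b a = C.cell j b c → W₀ a = W₀ c → ∀ s : ℝ, |s - C.s j a| ≤ q2 (C.a j) →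
    2 ^ (C.a j + b) * |(C.l c).X s - (C.l a).X s| ≤ 2 * q2 C.μ ∧
    2 ^ (C.a j + 2 * b) * |C.Zs b s c - C.Zs b s a| ≤ 67 * K ^ 4 * q2 C.μ

theorem WOk.cell {Ω : Type} [Fintype Ω] {τ : Type} {P : Law Ω} {C : Pth Ω τ} {j b b' : ℕ} {K : ℝ} (h1 : 1 ≤ K)
    (hK : ∀ ω, 0 < P.w ω → C.Ok K ω) (hl : C.Lev j b) (hl' : C.Lev j b') (hbb : b + 8 * C.μ ≤ b') :
    WOk P C K j b (C.cell j b') := fun a _ pa _ hD hW _ hs => deep h1 (hK a pa) hl hl' hbb hD hW hs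

/-- a finer letter is as good -/
theorem WOk.fn {Ω : Type} [Fintype Ω] {τ ω₀ ω₁ : Type} {P : Law Ω} {C : Pth Ω τ} {K : ℝ} {j b : ℕ} {W₀ : Ω → ω₀} {W₁ : Ω → ω₁}
    (h : WOk P C K j b W₀) (hf : Fn P W₀ W₁) : WOk P C K j b W₁ := fun a c pa pc hD hW s hs =>
  h a c pa pc hD (hf a c pa pc hW) s hs

/-- the later letter `E` : two rays with the same `E` have the same position at the time of the step `i'` -/
def EOk {Ω : Type} [Fintype Ω] {τ ε₀ : Type} (P : Law Ω) (C : Pth Ω τ) (j b i' : ℕ) (E : Ω → ε₀) : Prop :=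
  ∀ a c : Ω, 0 < P.w a → 0 < P.w c → E a = E c →
    2 ^ (C.a j + b) * |(C.l c).X (C.s i' c) - (C.l a).X (C.s i' a)| ≤ q2 C.μ ∧
    2 ^ (C.a j + 2 * b) * |C.Zs b (C.s i' c) c - C.Zs b (C.s i' a) a| ≤ q2 C.μ

theorem EOk.cell {Ω : Type} [Fintype Ω] {τ : Type} {P : Law Ω} {C : Pth Ω τ} {j b i' : ℕ} (hl : C.Lev j b)
    (ha : C.a j + 4 * C.μ ≤ C.a i') : EOk P C j b i' (C.cell i' b) := by
  intro a b₁ _ _ h
  have hb := hl.1
  have n0 := Pth.va_near h 0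
  have n3 := Pth.va_near h 3
  rw [Pth.va0, Pth.va0, Pth.lv0] at n0
  rw [Pth.va3, Pth.va3, Pth.lv3] at n3
  refine ⟨?_, ?_⟩
  · exact (mul_le_mul_of_nonneg_left n0 (by positivity)).trans (sc (by omega))
  · exact (mul_le_mul_of_nonneg_left n3 (by positivity)).trans (sc (by omega))

/-- a finer letter is as good -/
theorem EOk.fn {Ω : Type} [Fintype Ω] {τ ε₀ ε₁ : Type} {P : Law Ω} {C : Pth Ω τ} {j b i' : ℕ} {E : Ω → ε₀} {E₁ : Ω → ε₁}
    (h : EOk P C j b i' E) (hf : Fn P E E₁) : EOk P C j b i' E₁ := fun a c pa pc hE => h a c pa pc (hf a c pa pc hE)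

/-- the position at the time `t'`, transported with the velocity of the cell -/
noncomputable def bVg {Ω τ : Type} (C : Pth Ω τ) (α b i' : ℕ) (t' : ℝ) (ω : Ω) : Fin 2 → ℝ :=
  ![2 ^ (α + b) * ((C.l ω).X (C.s i' ω) - (C.s i' ω - t') * rd b (C.l ω).v),
    2 ^ (α + 2 * b) * (C.Zs b (C.s i' ω) ω + (C.s i' ω - t') *
      ((rd b (C.l ω).v ^ 2 + C.ro 1 (b - C.μ) (C.l ω).w ^ 2) / 2 -
        ((C.l ω).w - C.ro 1 (b - C.μ) (C.l ω).w) ^ 2 / 2))]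

/-- the new digits of the velocity -/
noncomputable def eVg {τ ω₀ : Type} (p : ℕ) (d : τ × Pth.Dg) (w : ω₀ × ℤ) : ℝ := (w.2 : ℝ) / 2 ^ p - (d.2.1 : ℝ)

/-- difference of the times of two letters -/
noncomputable def SVg {τ θ : Type} (tv : θ → ℝ) (α : ℕ) (_ : τ × Pth.Dg) (t₁ t₂ : θ) : ℝ := 2 ^ α * (tv t₂ - tv t₁)

/-- nominal `(V, Z)`-position at the level `α` -/
noncomputable def VZl {Ω τ : Type} (C : Pth Ω τ) (α b : ℕ) (ω : Ω) : ℤ × ℤ :=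
  (fl1 (α + b) ((C.l ω).X (rd α (C.t ω))), fl1 (α + 2 * b) (C.Zs b (rd α (C.t ω)) ω))

/-- the same as a vector -/
noncomputable def vzl {Ω τ : Type} (C : Pth Ω τ) (α b : ℕ) (ω : Ω) : Fin 2 → ℤ := ![(VZl C α b ω).1, (VZl C α b ω).2]

lemma VZl_step {Ω τ : Type} (C : Pth Ω τ) (k b : ℕ) : VZl C (C.a k) b = C.VZ k b := rfl

section main

variable {Ω : Type} [Fintype Ω] {τ θ ω₀ ε₀ : Type} {P : Law Ω} {C : Pth Ω τ} {j b p i' : ℕ} {K : ℝ} {Θ : Ω → θ} {tv : θ → ℝ}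
  {W₀ : Ω → ω₀} {E : Ω → ε₀}

/-- **the hypotheses of the (V, Z)-step** -/
theorem geoVg (h1 : 1 ≤ K) (hK : ∀ ω, 0 < P.w ω → C.Ok K ω) (hl : C.Lev j b) (hW : WOk P C K j b W₀)
    (hE : EOk P C j b i' E) (hΘ : ∀ ω, tv (Θ ω) = C.s i' ω) (hp : C.μ ≤ p) (hj : j ≤ i') :
    GeoG P (C.cell j b) Θ (fun ω => (W₀ ω, fl1 (b + p) (C.l ω).v)) E (eVg p)
      (pV C (C.a j) b i') (fun t' => bVg C (C.a j) b i' (tv t')) (F2 (SVg tv (C.a j))) (fun _ => 70 * K ^ 4 * q2 C.μ) := by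
  have m0 := (q2_pos C.μ).le
  have K2 : 1 ≤ K ^ 2 := one_le_pow₀ h1
  have K4 : 1 ≤ K ^ 4 := one_le_pow₀ h1
  have K24 : K ^ 2 ≤ K ^ 4 := pow_le_pow_right₀ h1 (by norm_num)
  have hb := hl.1
  have big : ∀ c : ℝ, 0 ≤ c → c ≤ 70 → c * q2 C.μ ≤ 70 * K ^ 4 * q2 C.μ := fun c hc0 hc =>
    mul_le_mul_of_nonneg_right (by nlinarith) m0
  have big1 := big 1 (by norm_num) (by norm_num)
  have big3 := big 3 (by norm_num) (by norm_num)
  refine ⟨?_, ?_, ?_⟩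
  · intro a c pa pc hD hT hEe i
    obtain ⟨k0, k1⟩ := hE a c pa pc hEe
    fin_cases i
    · show |2 ^ (C.a j + b) * (C.l a).X (C.s i' a) - 2 ^ (C.a j + b) * (C.l c).X (C.s i' c)| ≤ _
      rw [← mul_sub, abs_mul, abs_of_pos (by positivity : (0 : ℝ) < 2 ^ (C.a j + b)), abs_sub_comm]
      linarith
    · show |2 ^ (C.a j + 2 * b) * C.Zs b (C.s i' a) a - 2 ^ (C.a j + 2 * b) * C.Zs b (C.s i' c) c| ≤ _
      rw [← mul_sub, abs_mul, abs_of_pos (by positivity : (0 : ℝ) < 2 ^ (C.a j + 2 * b)), abs_sub_comm]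
      linarith
  · intro o a c po pa pc hDo hD hT hEe i
    obtain ⟨k0, k1⟩ := hE a c pa pc hEe
    obtain ⟨v1, v2, v3, v4⟩ := cell_vel h1 (hK a pa) hl hD
    have kin := cell_kin h1 (hK a pa) hl hD
    have es : C.s i' c = C.s i' a := by rw [← hΘ c, ← hΘ a, hT]
    rw [es] at k0 k1
    rw [v2] at kin
    have hst : |C.s i' a - tv (Θ o)| ≤ q2 (C.a j) := by
      rw [hΘ]
      exact s_block hj (Pth.cell_iff.1 hDo).1
    fin_cases i
    · show |2 ^ (C.a j + b) * ((C.l a).X (C.s i' a) - (C.s i' a - tv (Θ o)) * rd b (C.l a).v) -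
        2 ^ (C.a j + b) * ((C.l c).X (C.s i' c) - (C.s i' c - tv (Θ o)) * rd b (C.l c).v)| ≤ _
      rw [v1, es, ← mul_sub, abs_mul, abs_of_pos (by positivity : (0 : ℝ) < 2 ^ (C.a j + b))]
      have e : (C.l a).X (C.s i' a) - (C.s i' a - tv (Θ o)) * rd b (C.l a).v -
          ((C.l c).X (C.s i' a) - (C.s i' a - tv (Θ o)) * rd b (C.l a).v) =
          -((C.l c).X (C.s i' a) - (C.l a).X (C.s i' a)) := by ring
      rw [e, abs_neg]
      linarith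
    · show |2 ^ (C.a j + 2 * b) * (C.Zs b (C.s i' a) a + (C.s i' a - tv (Θ o)) *
          ((rd b (C.l a).v ^ 2 + C.ro 1 (b - C.μ) (C.l a).w ^ 2) / 2 -
            ((C.l a).w - C.ro 1 (b - C.μ) (C.l a).w) ^ 2 / 2)) -
        2 ^ (C.a j + 2 * b) * (C.Zs b (C.s i' c) c + (C.s i' c - tv (Θ o)) *
          ((rd b (C.l c).v ^ 2 + C.ro 1 (b - C.μ) (C.l c).w ^ 2) / 2 -
            ((C.l c).w - C.ro 1 (b - C.μ) (C.l c).w) ^ 2 / 2))| ≤ _
      rw [v1, es, v2, ← mul_sub, abs_mul, abs_of_pos (by positivity : (0 : ℝ) < 2 ^ (C.a j + 2 * b))]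
      set δ := C.s i' a - tv (Θ o) with hδ
      set wr := C.ro 1 (b - C.μ) (C.l a).w with hwr
      have e : C.Zs b (C.s i' a) a + δ * ((rd b (C.l a).v ^ 2 + wr ^ 2) / 2 - ((C.l a).w - wr) ^ 2 / 2) -
          (C.Zs b (C.s i' a) c + δ * ((rd b (C.l a).v ^ 2 + wr ^ 2) / 2 - ((C.l c).w - wr) ^ 2 / 2)) =
          -(C.Zs b (C.s i' a) c - C.Zs b (C.s i' a) a) +
            δ * (((C.l c).w - wr) ^ 2 / 2 - ((C.l a).w - wr) ^ 2 / 2) := by ring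
      rw [e]
      have t1 : |δ * (((C.l c).w - wr) ^ 2 / 2 - ((C.l a).w - wr) ^ 2 / 2)| ≤
          q2 (C.a j) * (10 * K ^ 2 * q2 (2 * b + C.μ)) := by
        rw [abs_mul]
        exact mul_le_mul hst kin (abs_nonneg _) (q2_pos _).le
      have t2 : (2 : ℝ) ^ (C.a j + 2 * b) * (q2 (C.a j) * q2 (2 * b + C.μ)) ≤ q2 C.μ := by
        rw [← q2_add]; exact sc (by omega)
      have hP : (0 : ℝ) < 2 ^ (C.a j + 2 * b) := by positivity
      calc (2 : ℝ) ^ (C.a j + 2 * b) * |-(C.Zs b (C.s i' a) c - C.Zs b (C.s i' a) a) +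
            δ * (((C.l c).w - wr) ^ 2 / 2 - ((C.l a).w - wr) ^ 2 / 2)| ≤
          2 ^ (C.a j + 2 * b) * (|C.Zs b (C.s i' a) c - C.Zs b (C.s i' a) a| +
            q2 (C.a j) * (10 * K ^ 2 * q2 (2 * b + C.μ))) := by
            refine mul_le_mul_of_nonneg_left ((abs_add_le _ _).trans (add_le_add ?_ t1)) hP.le
            rw [abs_neg]
        _ = 2 ^ (C.a j + 2 * b) * |C.Zs b (C.s i' a) c - C.Zs b (C.s i' a) a| +
            10 * K ^ 2 * (2 ^ (C.a j + 2 * b) * (q2 (C.a j) * q2 (2 * b + C.μ))) := by ring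
        _ ≤ q2 C.μ + 10 * K ^ 2 * q2 C.μ := by
            refine add_le_add k1 (mul_le_mul_of_nonneg_left t2 (by positivity))
        _ = (1 + 10 * K ^ 2) * q2 C.μ := by ring
        _ ≤ _ := mul_le_mul_of_nonneg_right (by nlinarith) m0
  · intro a c pa pc hD hWW i
    have hW1 : W₀ a = W₀ c := congrArg Prod.fst hWW
    have hW2 : fl1 (b + p) (C.l a).v = fl1 (b + p) (C.l c).v := congrArg Prod.snd hWW
    obtain ⟨v1, v2, v3, v4⟩ := cell_vel h1 (hK a pa) hl hD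
    have hT := (Pth.cell_iff.1 hD).1
    have hs1 : |C.s i' a - C.s j a| ≤ q2 (C.a j) := s_own hj rfl
    obtain ⟨k0, k1⟩ := hW a c pa pc hD hW1 _ hs1
    have ht1 : tv (Θ a) = C.s i' a := hΘ a
    have ht2 : tv (Θ c) = C.s i' c := hΘ c
    have hδ := s_block hj hT
    -- the digits of the velocity
    have he : eVg p (C.cell j b a) (W₀ a, fl1 (b + p) (C.l a).v) =
        2 ^ b * (rd (b + p) (C.l c).v - rd b (C.l c).v) := by
      unfold eVg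
      show ((fl1 (b + p) (C.l a).v : ℤ) : ℝ) / 2 ^ p - ((fl1 b (C.l a).v : ℤ) : ℝ) = _
      rw [(Pth.cell_iff.1 hD).2.1, hW2]
      unfold rd
      rw [pow_add]
      field_simp
    have r1 := rd_le (b + p) (C.l c).v
    have r2 := lt_rd (b + p) (C.l c).v
    have r3 := rd_le b (C.l c).v
    have r4 := lt_rd b (C.l c).v
    have r5 := rd_mono (show b ≤ b + p by omega) (C.l c).v
    have qp : q2 p ≤ q2 C.μ := q2_le hp
    have hq := q2_pos (C.a j)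
    set δ := C.s i' c - C.s i' a with hδd
    have ec : C.s i' c = C.s i' a + δ := by rw [hδd]; ring
    set y := rd (b + p) (C.l c).v with hy
    set z := rd b (C.l c).v with hz
    fin_cases i
    · show |2 ^ (C.a j + b) * ((C.l c).X (C.s i' c) - (C.s i' c - tv (Θ a)) * z) -
        2 ^ (C.a j + b) * (C.l a).X (C.s i' a) -
        SVg tv (C.a j) (C.cell j b a) (Θ a) (Θ c) *
          eVg p (C.cell j b a) (W₀ a, fl1 (b + p) (C.l a).v)| ≤ _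
      rw [he, ht1]
      unfold SVg
      rw [ht1, ht2, ← hδd, ec, Ray.X_add]
      have e : 2 ^ (C.a j + b) * ((C.l c).X (C.s i' a) + δ * (C.l c).v - δ * z) -
          2 ^ (C.a j + b) * (C.l a).X (C.s i' a) - 2 ^ (C.a j) * δ * (2 ^ b * (y - z)) =
          2 ^ (C.a j + b) * ((C.l c).X (C.s i' a) - (C.l a).X (C.s i' a)) +
          2 ^ (C.a j + b) * (δ * ((C.l c).v - y)) := by rw [pow_add]; ring
      rw [e]
      refine (abs_add_le _ _).trans ?_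
      rw [abs_mul, abs_of_pos (by positivity : (0 : ℝ) < 2 ^ (C.a j + b)), abs_mul, abs_mul,
        abs_of_pos (by positivity : (0 : ℝ) < 2 ^ (C.a j + b))]
      have t1 : |(C.l c).v - y| ≤ q2 (b + p) := by rw [abs_le]; constructor <;> linarith [q2_pos (b + p)]
      have t2 : (2 : ℝ) ^ (C.a j + b) * (q2 (C.a j) * q2 (b + p)) ≤ q2 C.μ := by
        rw [← q2_add]; exact sc (by omega)
      have t3 : (2 : ℝ) ^ (C.a j + b) * (|δ| * |(C.l c).v - y|) ≤ q2 C.μ := by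
        refine le_trans ?_ t2
        gcongr
      linarith
    · show |2 ^ (C.a j + 2 * b) * (C.Zs b (C.s i' c) c + (C.s i' c - tv (Θ a)) *
          ((z ^ 2 + C.ro 1 (b - C.μ) (C.l c).w ^ 2) / 2 -
            ((C.l c).w - C.ro 1 (b - C.μ) (C.l c).w) ^ 2 / 2)) -
        2 ^ (C.a j + 2 * b) * C.Zs b (C.s i' a) a -
        SVg tv (C.a j) (C.cell j b a) (Θ a) (Θ c) *
          (eVg p (C.cell j b a) (W₀ a, fl1 (b + p) (C.l a).v) ^ 2 / 2)| ≤ _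
      rw [he, ht1]
      unfold SVg
      rw [ht1, ht2, ← hδd, ec, Zs_time, ← hz]
      set wr := C.ro 1 (b - C.μ) (C.l c).w with hwr
      have e : 2 ^ (C.a j + 2 * b) * (C.Zs b (C.s i' a) c + δ * (((C.l c).v - z) ^ 2 / 2 +
            ((C.l c).w - wr) ^ 2 / 2 - (z ^ 2 + wr ^ 2) / 2) + δ * ((z ^ 2 + wr ^ 2) / 2 -
            ((C.l c).w - wr) ^ 2 / 2)) - 2 ^ (C.a j + 2 * b) * C.Zs b (C.s i' a) a -
          2 ^ (C.a j) * δ * ((2 ^ b * (y - z)) ^ 2 / 2) =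
          2 ^ (C.a j + 2 * b) * (C.Zs b (C.s i' a) c - C.Zs b (C.s i' a) a) +
          2 ^ (C.a j + 2 * b) * (δ * (((C.l c).v - z) ^ 2 / 2 - (y - z) ^ 2 / 2)) := by
        rw [pow_add, pow_mul', mul_pow]; ring
      rw [e]
      refine (abs_add_le _ _).trans ?_
      rw [abs_mul, abs_of_pos (by positivity : (0 : ℝ) < 2 ^ (C.a j + 2 * b)), abs_mul, abs_mul,
        abs_of_pos (by positivity : (0 : ℝ) < 2 ^ (C.a j + 2 * b))]
      have q0 := q2_pos b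
      have q1 := q2_pos (b + p)
      have t1 : |((C.l c).v - z) ^ 2 / 2 - (y - z) ^ 2 / 2| ≤ q2 b * q2 (b + p) := by
        refine sq_diff ?_ ?_ ?_
        · rw [abs_le]; constructor <;> linarith
        · rw [abs_le]; constructor <;> linarith
        · rw [abs_le]; constructor <;> linarith
      have t2 : (2 : ℝ) ^ (C.a j + 2 * b) * (q2 (C.a j) * (q2 b * q2 (b + p))) ≤ q2 C.μ := by
        rw [← q2_add, ← q2_add]; exact sc (by omega)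
      have t3 : (2 : ℝ) ^ (C.a j + 2 * b) * (|δ| * |((C.l c).v - z) ^ 2 / 2 - (y - z) ^ 2 / 2|) ≤
          q2 C.μ := by
        refine le_trans ?_ t2
        gcongr
      calc _ ≤ 67 * K ^ 4 * q2 C.μ + q2 C.μ := add_le_add k1 t3
        _ = (67 * K ^ 4 + 1) * q2 C.μ := by ring
        _ ≤ _ := mul_le_mul_of_nonneg_right (by linarith) m0

/-- **the (V, Z)-step** over the cells, positions read at the time of the later step -/
theorem satVCg (h1 : 1 ≤ K) (hK : ∀ ω, 0 < P.w ω → C.Ok K ω) (hl : C.Lev j b) (hW : WOk P C K j b W₀)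
    (hE : EOk P C j b i' E) (hΘ : ∀ ω, tv (Θ ω) = C.s i' ω) (hp : C.μ ≤ p) (ha : C.a j + 4 * C.μ ≤ C.a i') (hj : j ≤ i')
    {m g : ℕ} (hm : 1 ≤ m) (hmg : m ≤ g) (hg : g ≤ C.μ)
    (hμ : 10 * 2 ^ (m + 5 * g + 4) * (70 * K ^ 4 * q2 C.μ) ≤ 1) {ι₁ ι₂ : ℝ}
    (hi1 : mi P (fun ω => fl1 (b + p) (C.l ω).v) E (fun ω => (C.cell j b ω, Θ ω)) ≤ ι₁)
    (hi2 : mi P Θ (fun ω => (W₀ ω, fl1 (b + p) (C.l ω).v)) (C.cell j b) ≤ ι₂) :
    2 * m * Real.log 2 - (7 + 13 * m * (colp P (fun ω => fl1 (C.a j + g) (C.t ω)) (C.cell j b) +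
        colp P (fun ω => fl1 (b + g) (C.l ω).v) (C.cell j b)) +
      2 ^ (22 * g) * (Real.sqrt ι₁ + Real.sqrt ι₂)) ≤
    hc P (fun ω => celi 1 (pV C (C.a j) b i' ω))
      (fun ω => (celi (2 ^ m) (pV C (C.a j) b i' ω), (C.cell j b ω, Θ ω))) := by
  refine satV P (geoVg h1 hK hl hW hE hΘ hp hj) hm hmg (fun ω => fl1 (C.a j + g) (C.t ω))
    (fun ω => fl1 (b + g) (C.l ω).v) ?_ ?_ ?_ ?_ (by have := q2_pos C.μ; positivity) hμ ?_ hi2
  · intro ω ω' _ _ hD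
    unfold SVg
    rw [hΘ, hΘ, abs_mul, abs_of_pos (by positivity : (0 : ℝ) < 2 ^ C.a j)]
    calc (2 : ℝ) ^ C.a j * |C.s i' ω' - C.s i' ω| ≤ 2 ^ C.a j * q2 (C.a j) := by
          have := s_block hj (Pth.cell_iff.1 hD.symm).1
          gcongr
      _ = 1 := q2_mul_pow _
  · intro ω ω' _ _ hD
    have hv : fl1 b (C.l ω').v = fl1 b (C.l ω).v := (Pth.cell_iff.1 hD).2.1
    have he : eVg p (C.cell j b ω) (W₀ ω', fl1 (b + p) (C.l ω').v) =
        2 ^ b * (rd (b + p) (C.l ω').v - rd b (C.l ω').v) := by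
      unfold eVg
      show ((fl1 (b + p) (C.l ω').v : ℤ) : ℝ) / 2 ^ p - ((fl1 b (C.l ω).v : ℤ) : ℝ) = _
      rw [← hv]
      unfold rd
      rw [pow_add]
      field_simp
    rw [he]
    have r1 := rd_mono (show b ≤ b + p by omega) (C.l ω').v
    have r2 := rd_le (b + p) (C.l ω').v
    have r3 := lt_rd b (C.l ω').v
    have hP : (0 : ℝ) < 2 ^ b := by positivity
    have e1 := q2_mul_pow b
    constructor
    · exact mul_nonneg hP.le (by linarith)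
    · calc (2 : ℝ) ^ b * (rd (b + p) (C.l ω').v - rd b (C.l ω').v) ≤ 2 ^ b * q2 b := by
            gcongr
            linarith
        _ = 1 := e1
  · intro ω ω' _ _ hD ht
    unfold SVg
    rw [hΘ, hΘ, abs_mul, abs_of_pos (by positivity : (0 : ℝ) < 2 ^ C.a j)]
    have h2 := rd_far (show C.a j + g ≤ C.a i' by omega) ht
    have e1 : q2 g = 2 ^ C.a j * q2 (C.a j + g) := by
      rw [q2_add, ← mul_assoc, q2_mul_pow, one_mul]
    rw [e1, abs_sub_comm]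
    unfold Pth.s
    gcongr
  · intro ω a c _ _ _ ha' hc' hy
    have h2 := rd_far (show b + g ≤ b + p by omega) hy
    have e1 : q2 g = 2 ^ b * q2 (b + g) := by
      rw [q2_add, ← mul_assoc, q2_mul_pow, one_mul]
    have e2 : eVg p (C.cell j b ω) (W₀ a, fl1 (b + p) (C.l a).v) -
        eVg p (C.cell j b ω) (W₀ c, fl1 (b + p) (C.l c).v) =
        2 ^ b * (rd (b + p) (C.l a).v - rd (b + p) (C.l c).v) := by
      unfold eVg rd
      rw [pow_add]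
      field_simp
      ring
    rw [e2, e1, abs_mul, abs_of_pos (by positivity : (0 : ℝ) < 2 ^ b)]
    gcongr
  · refine le_trans ?_ hi1
    refine mi_mono_left P _ ?_
    intro ω ω' _ _ e
    simp only [Prod.mk.injEq] at e
    obtain ⟨e1, e2, e3⟩ := e
    show eVg p (C.cell j b ω) (W₀ ω, fl1 (b + p) (C.l ω).v) =
      eVg p (C.cell j b ω') (W₀ ω', fl1 (b + p) (C.l ω').v)
    unfold eVg
    rw [e1]
    have : (C.cell j b ω).2.1 = (C.cell j b ω').2.1 := by rw [e2]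
    rw [this]

/-- **the (V, Z)-step**, nominal positions at the own times: from the level `α₀` to the level `a j = α₀ + m` -/
theorem satVZl (h1 : 1 ≤ K) (hK : ∀ ω, 0 < P.w ω → C.Ok K ω) (hl : C.Lev j b) (hW : WOk P C K j b W₀)
    (hE : EOk P C j b i' E) (hΘ : ∀ ω, tv (Θ ω) = C.s i' ω) (hp : C.μ ≤ p) (ha : C.a j + 4 * C.μ ≤ C.a i') (hj : j ≤ i')
    {α₀ m g : ℕ} (hkj : C.a j = α₀ + m) (hm : 1 ≤ m) (hmg : m ≤ g) (hg : g ≤ C.μ)
    (hμ : 10 * 2 ^ (m + 5 * g + 4) * (70 * K ^ 4 * q2 C.μ) ≤ 1) {ι₁ ι₂ : ℝ}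
    (hi1 : mi P (fun ω => fl1 (b + p) (C.l ω).v) E (fun ω => (C.cell j b ω, Θ ω)) ≤ ι₁)
    (hi2 : mi P Θ (fun ω => (W₀ ω, fl1 (b + p) (C.l ω).v)) (C.cell j b) ≤ ι₂) :
    2 * m * Real.log 2 - (15 + 13 * m * (colp P (fun ω => fl1 (C.a j + g) (C.t ω)) (C.cell j b) +
        colp P (fun ω => fl1 (b + g) (C.l ω).v) (C.cell j b)) +
      2 ^ (22 * g) * (Real.sqrt ι₁ + Real.sqrt ι₂)) ≤
    hc P (C.VZ j b) (fun ω => (VZl C α₀ b ω, (C.cell j b ω, Θ ω))) := by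
  have main := satVCg h1 hK hl hW hE hΘ hp ha hj hm hmg hg hμ hi1 hi2
  have m0 := (q2_pos C.μ).le
  have hμ' : 20 * K ^ 2 * q2 C.μ ≤ 1 := by
    have K2 : 1 ≤ K ^ 2 := one_le_pow₀ h1
    have K24 : K ^ 2 ≤ K ^ 4 := pow_le_pow_right₀ h1 (by norm_num)
    have t : (1 : ℝ) ≤ 2 ^ (m + 5 * g + 4) := one_le_pow₀ (by norm_num)
    have t2 : 70 * K ^ 4 * q2 C.μ ≤ 10 * 2 ^ (m + 5 * g + 4) * (70 * K ^ 4 * q2 C.μ) := by
      have : 0 ≤ 70 * K ^ 4 * q2 C.μ := by positivity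
      nlinarith
    have t3 : 20 * K ^ 2 * q2 C.μ ≤ 70 * K ^ 4 * q2 C.μ :=
      mul_le_mul_of_nonneg_right (by nlinarith) m0
    linarith
  set α := C.a j with hα
  set Dt : Ω → (τ × Pth.Dg) × θ := fun ω => (C.cell j b ω, Θ ω) with hDt
  set Xf : Ω → Fin 2 → ℤ := fun ω => celi 1 (pV C α b i' ω) with hXf
  set Xc : Ω → Fin 2 → ℤ := fun ω => celi (2 ^ m) (pV C α b i' ω) with hXc
  -- 1. the fine position, from the nominal position at the own time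
  have c1 : hc P Xf (fun ω => (vz C j b ω, Dt ω)) ≤ 4 := by
    refine hc_pair49 Xf _ fun ω ω' pω pω' e => ?_
    simp only [hDt, Prod.mk.injEq] at e
    obtain ⟨e1, e2, e3⟩ := e
    have es : C.s i' ω' = C.s i' ω := by rw [← hΘ, ← hΘ, e3]
    have ej : C.s j ω' = C.s j ω := Pth.s_eq (Pth.cell_iff.1 e2).1.symm
    have f0 : (C.VZ j b ω').1 = (C.VZ j b ω).1 := congrFun e1 0
    have f1 : (C.VZ j b ω').2 = (C.VZ j b ω).2 := congrFun e1 1
    have g0 := near_of_fl (x := (C.l ω).X (C.s j ω)) (y := (C.l ω').X (C.s j ω)) (n := C.a j + b) (by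
      have := f0.symm
      simp only [Pth.VZ] at this
      rwa [ej] at this)
    have g1 := near_of_fl (x := C.Zs b (C.s j ω) ω) (y := C.Zs b (C.s j ω) ω') (n := C.a j + 2 * b) (by
      have := f1.symm
      simp only [Pth.VZ] at this
      rwa [ej] at this)
    obtain ⟨k0, k1⟩ := two_times h1 (hK ω pω) hl hμ' e2.symm (α := α) (s := C.s j ω)
      (d := C.s i' ω - C.s j ω) (s_own hj rfl)
    rw [add_sub_cancel] at k0 k1
    have n0 := mul_le_mul_of_nonneg_left g0 (show (0 : ℝ) ≤ 2 ^ (α + b) by positivity)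
    have n1 := mul_le_mul_of_nonneg_left g1 (show (0 : ℝ) ≤ 2 ^ (α + 2 * b) by positivity)
    rw [q2_mul_pow] at n0 n1
    intro i
    fin_cases i
    · show |⌊2 ^ (α + b) * (C.l ω').X (C.s i' ω') / 1⌋ - ⌊2 ^ (α + b) * (C.l ω).X (C.s i' ω) / 1⌋| ≤ 3
      rw [div_one, div_one, es]
      refine fl_near3 ?_
      rw [← mul_sub, abs_mul, abs_of_pos (by positivity : (0 : ℝ) < 2 ^ (α + b))]
      have e4 : (C.l ω').X (C.s i' ω) - (C.l ω).X (C.s i' ω) =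
          ((C.l ω').X (C.s i' ω) - (C.l ω).X (C.s i' ω) -
            ((C.l ω').X (C.s j ω) - (C.l ω).X (C.s j ω))) +
          ((C.l ω').X (C.s j ω) - (C.l ω).X (C.s j ω)) := by ring
      rw [e4]
      refine (mul_le_mul_of_nonneg_left (abs_add_le _ _) (by positivity)).trans ?_
      rw [mul_add]
      linarith
    · show |⌊2 ^ (α + 2 * b) * C.Zs b (C.s i' ω') ω' / 1⌋ -
        ⌊2 ^ (α + 2 * b) * C.Zs b (C.s i' ω) ω / 1⌋| ≤ 3
      rw [div_one, div_one, es]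
      refine fl_near3 ?_
      rw [← mul_sub, abs_mul, abs_of_pos (by positivity : (0 : ℝ) < 2 ^ (α + 2 * b))]
      have e4 : C.Zs b (C.s i' ω) ω' - C.Zs b (C.s i' ω) ω =
          (C.Zs b (C.s i' ω) ω' - C.Zs b (C.s i' ω) ω -
            (C.Zs b (C.s j ω) ω' - C.Zs b (C.s j ω) ω)) +
          (C.Zs b (C.s j ω) ω' - C.Zs b (C.s j ω) ω) := by ring
      rw [e4]
      refine (mul_le_mul_of_nonneg_left (abs_add_le _ _) (by positivity)).trans ?_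
      rw [mul_add]
      linarith
  -- 2. the nominal position of the step `k`, from the coarse position
  have c2 : hc P (vzl C α₀ b) (fun ω => (Xc ω, Dt ω)) ≤ 4 := by
    refine hc_pair49 (vzl C α₀ b) _ fun ω ω' pω pω' e => ?_
    simp only [hDt, Prod.mk.injEq] at e
    obtain ⟨e1, e2, e3⟩ := e
    have es : C.s i' ω' = C.s i' ω := by rw [← hΘ, ← hΘ, e3]
    have hTj := (Pth.cell_iff.1 e2).1
    have etj : fl1 (C.a j) (C.t ω') = fl1 (C.a j) (C.t ω) := by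
      rw [← C.htm j ω, ← C.htm j ω', hTj]
    have ek : rd α₀ (C.t ω') = rd α₀ (C.t ω) := by
      unfold rd
      rw [fl1_coarse (show α₀ ≤ C.a j by omega) etj]
    have hm2 : (0 : ℝ) < 2 ^ m := by positivity
    have g0 : |(2 : ℝ) ^ (α + b) * (C.l ω').X (C.s i' ω) / 2 ^ m -
        2 ^ (α + b) * (C.l ω).X (C.s i' ω) / 2 ^ m| ≤ 1 := by
      have f0 : ⌊(2 : ℝ) ^ (α + b) * (C.l ω').X (C.s i' ω') / 2 ^ m⌋ =
          ⌊2 ^ (α + b) * (C.l ω).X (C.s i' ω) / 2 ^ m⌋ := congrFun e1 0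
      rw [es] at f0
      have a1 := Int.floor_le ((2 : ℝ) ^ (α + b) * (C.l ω').X (C.s i' ω) / 2 ^ m)
      have a2 := Int.lt_floor_add_one ((2 : ℝ) ^ (α + b) * (C.l ω').X (C.s i' ω) / 2 ^ m)
      have a3 := Int.floor_le ((2 : ℝ) ^ (α + b) * (C.l ω).X (C.s i' ω) / 2 ^ m)
      have a4 := Int.lt_floor_add_one ((2 : ℝ) ^ (α + b) * (C.l ω).X (C.s i' ω) / 2 ^ m)
      rw [f0] at a1 a2
      rw [abs_le]; constructor <;> linarith
    have g1 : |(2 : ℝ) ^ (α + 2 * b) * C.Zs b (C.s i' ω) ω' / 2 ^ m -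
        2 ^ (α + 2 * b) * C.Zs b (C.s i' ω) ω / 2 ^ m| ≤ 1 := by
      have f0 : ⌊(2 : ℝ) ^ (α + 2 * b) * C.Zs b (C.s i' ω') ω' / 2 ^ m⌋ =
          ⌊2 ^ (α + 2 * b) * C.Zs b (C.s i' ω) ω / 2 ^ m⌋ := congrFun e1 1
      rw [es] at f0
      have a1 := Int.floor_le ((2 : ℝ) ^ (α + 2 * b) * C.Zs b (C.s i' ω) ω' / 2 ^ m)
      have a2 := Int.lt_floor_add_one ((2 : ℝ) ^ (α + 2 * b) * C.Zs b (C.s i' ω) ω' / 2 ^ m)
      have a3 := Int.floor_le ((2 : ℝ) ^ (α + 2 * b) * C.Zs b (C.s i' ω) ω / 2 ^ m)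
      have a4 := Int.lt_floor_add_one ((2 : ℝ) ^ (α + 2 * b) * C.Zs b (C.s i' ω) ω / 2 ^ m)
      rw [f0] at a1 a2
      rw [abs_le]; constructor <;> linarith
    have p0 : (2 : ℝ) ^ (α + b) = 2 ^ (α₀ + b) * 2 ^ m := by
      rw [hkj, ← pow_add]; congr 1; ring
    have p1 : (2 : ℝ) ^ (α + 2 * b) = 2 ^ (α₀ + 2 * b) * 2 ^ m := by
      rw [hkj, ← pow_add]; congr 1; ring
    rw [p0] at g0
    rw [p1] at g1
    rw [← sub_div, ← mul_sub, mul_assoc, mul_comm ((2 : ℝ) ^ m), ← mul_assoc, mul_div_assoc,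
      div_self hm2.ne', mul_one, abs_mul, abs_of_pos (by positivity : (0 : ℝ) < 2 ^ (α₀ + b))] at g0
    rw [← sub_div, ← mul_sub, mul_assoc, mul_comm ((2 : ℝ) ^ m), ← mul_assoc, mul_div_assoc,
      div_self hm2.ne', mul_one, abs_mul, abs_of_pos (by positivity : (0 : ℝ) < 2 ^ (α₀ + 2 * b))] at g1
    have hsk : |rd α₀ (C.t ω) - C.s i' ω| ≤ q2 α₀ := by
      rw [abs_sub_comm]
      exact rd_sub (show α₀ ≤ C.a i' by have := C.ha hj; omega) _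
    obtain ⟨k0, k1⟩ := two_times h1 (hK ω pω) hl hμ' e2.symm (α := α₀) (s := C.s i' ω)
      (d := rd α₀ (C.t ω) - C.s i' ω) hsk
    rw [add_sub_cancel] at k0 k1
    intro i
    fin_cases i
    · show |⌊(2 : ℝ) ^ (α₀ + b) * (C.l ω').X (rd α₀ (C.t ω'))⌋ -
        ⌊(2 : ℝ) ^ (α₀ + b) * (C.l ω).X (rd α₀ (C.t ω))⌋| ≤ 3
      rw [ek]
      refine fl_near3 ?_
      rw [← mul_sub, abs_mul, abs_of_pos (by positivity : (0 : ℝ) < 2 ^ (α₀ + b))]
      have e4 : (C.l ω').X (rd α₀ (C.t ω)) - (C.l ω).X (rd α₀ (C.t ω)) =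
          ((C.l ω').X (rd α₀ (C.t ω)) - (C.l ω).X (rd α₀ (C.t ω)) -
            ((C.l ω').X (C.s i' ω) - (C.l ω).X (C.s i' ω))) +
          ((C.l ω').X (C.s i' ω) - (C.l ω).X (C.s i' ω)) := by ring
      rw [e4]
      refine (mul_le_mul_of_nonneg_left (abs_add_le _ _) (by positivity)).trans ?_
      rw [mul_add]
      linarith
    · show |⌊(2 : ℝ) ^ (α₀ + 2 * b) * C.Zs b (rd α₀ (C.t ω')) ω'⌋ -
        ⌊(2 : ℝ) ^ (α₀ + 2 * b) * C.Zs b (rd α₀ (C.t ω)) ω⌋| ≤ 3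
      rw [ek]
      refine fl_near3 ?_
      rw [← mul_sub, abs_mul, abs_of_pos (by positivity : (0 : ℝ) < 2 ^ (α₀ + 2 * b))]
      have e4 : C.Zs b (rd α₀ (C.t ω)) ω' - C.Zs b (rd α₀ (C.t ω)) ω =
          (C.Zs b (rd α₀ (C.t ω)) ω' - C.Zs b (rd α₀ (C.t ω)) ω -
            (C.Zs b (C.s i' ω) ω' - C.Zs b (C.s i' ω) ω)) +
          (C.Zs b (C.s i' ω) ω' - C.Zs b (C.s i' ω) ω) := by ring
      rw [e4]
      refine (mul_le_mul_of_nonneg_left (abs_add_le _ _) (by positivity)).trans ?_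
      rw [mul_add]
      linarith
  -- 3. Shannon
  have s1 := hc_le_add' P Xf (vz C j b) (fun ω => (Xc ω, Dt ω))
  have s2 : hc P Xf (fun ω => (vz C j b ω, (Xc ω, Dt ω))) ≤ hc P Xf (fun ω => (vz C j b ω, Dt ω)) :=
    hc_mono_right P _ fun ω ω' _ _ e => by
      simp only [Prod.mk.injEq] at e ⊢
      exact ⟨e.1, e.2.2⟩
  have s3 := hc_le_add' P (vz C j b) (vzl C α₀ b) (fun ω => (Xc ω, Dt ω))
  have s4 : hc P (vz C j b) (fun ω => (vzl C α₀ b ω, (Xc ω, Dt ω))) ≤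
      hc P (vz C j b) (fun ω => (vzl C α₀ b ω, Dt ω)) :=
    hc_mono_right P _ fun ω ω' _ _ e => by
      simp only [Prod.mk.injEq] at e ⊢
      exact ⟨e.1, e.2.2⟩
  have s5 : hc P (vz C j b) (fun ω => (vzl C α₀ b ω, Dt ω)) ≤
      hc P (C.VZ j b) (fun ω => (VZl C α₀ b ω, Dt ω)) := by
    refine (hc_mono_left P ?_).trans (hc_mono_right P _ ?_)
    · intro ω ω' _ _ e
      simp only [Prod.mk.injEq] at e
      unfold vz
      rw [e.1]
    · intro ω ω' _ _ e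
      simp only [Prod.mk.injEq] at e ⊢
      refine ⟨?_, e.2⟩
      exact Prod.ext (congrFun e.1 0) (congrFun e.1 1)
  linarith

/-- the same with a step `k` of the path -/
theorem satVZg (h1 : 1 ≤ K) (hK : ∀ ω, 0 < P.w ω → C.Ok K ω) (hl : C.Lev j b) (hW : WOk P C K j b W₀)
    (hE : EOk P C j b i' E) (hΘ : ∀ ω, tv (Θ ω) = C.s i' ω) (hp : C.μ ≤ p) (ha : C.a j + 4 * C.μ ≤ C.a i') (hj : j ≤ i')
    {k m g : ℕ} (_hk : k ≤ j) (hkj : C.a j = C.a k + m) (hm : 1 ≤ m) (hmg : m ≤ g) (hg : g ≤ C.μ)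
    (hμ : 10 * 2 ^ (m + 5 * g + 4) * (70 * K ^ 4 * q2 C.μ) ≤ 1) {ι₁ ι₂ : ℝ}
    (hi1 : mi P (fun ω => fl1 (b + p) (C.l ω).v) E (fun ω => (C.cell j b ω, Θ ω)) ≤ ι₁)
    (hi2 : mi P Θ (fun ω => (W₀ ω, fl1 (b + p) (C.l ω).v)) (C.cell j b) ≤ ι₂) :
    2 * m * Real.log 2 - (15 + 13 * m * (colp P (fun ω => fl1 (C.a j + g) (C.t ω)) (C.cell j b) +
        colp P (fun ω => fl1 (b + g) (C.l ω).v) (C.cell j b)) +
      2 ^ (22 * g) * (Real.sqrt ι₁ + Real.sqrt ι₂)) ≤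
    hc P (C.VZ j b) (fun ω => (C.VZ k b ω, (C.cell j b ω, Θ ω))) := by
  have main := satVZl h1 hK hl hW hE hΘ hp ha hj hkj hm hmg hg hμ hi1 hi2
  exact main

/-- **the (V, Z)-step between two levels** : any later letter `E`, any near-determined letter `Y`, any function `Λ` of `Θ` -/
theorem satVYl (h1 : 1 ≤ K) (hK : ∀ ω, 0 < P.w ω → C.Ok K ω) (hl : C.Lev j b) (hW : WOk P C K j b W₀)
    (hE : EOk P C j b i' E) (hΘ : ∀ ω, tv (Θ ω) = C.s i' ω) (hp : C.μ ≤ p) (ha : C.a j + 4 * C.μ ≤ C.a i') (hj : j ≤ i')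
    {α₀ m g : ℕ} (hkj : C.a j = α₀ + m) (hm : 1 ≤ m) (hmg : m ≤ g) (hg : g ≤ C.μ)
    (hμ : 10 * 2 ^ (m + 5 * g + 4) * (70 * K ^ 4 * q2 C.μ) ≤ 1) {ι₁ ι₂ : ℝ}
    (hi1 : mi P (fun ω => fl1 (b + p) (C.l ω).v) E (fun ω => (C.cell j b ω, Θ ω)) ≤ ι₁)
    (hi2 : mi P Θ (fun ω => (W₀ ω, fl1 (b + p) (C.l ω).v)) (C.cell j b) ≤ ι₂)
    {υ lam : Type} (Y : Ω → υ) (Λ : Ω → lam) (hΛ : Fn P Λ Θ) :
    2 * (m * Real.log 2) - ((15 + 13 * m * (colp P (fun ω => fl1 (C.a j + g) (C.t ω)) (C.cell j b) +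
        colp P (fun ω => fl1 (b + g) (C.l ω).v) (C.cell j b)) +
      2 ^ (22 * g) * (Real.sqrt ι₁ + Real.sqrt ι₂)) + hc P Y (C.cell j b)) ≤
    hc P (VZl C (C.a j) b) (fun ω => (Λ ω, (Y ω, VZl C α₀ b ω))) := by
  have main := satVZl h1 hK hl hW hE hΘ hp ha hj hkj hm hmg hg hμ hi1 hi2
  rw [← VZl_step C j b] at main
  have s1 := hc_le_add' P (VZl C (C.a j) b) Y (fun ω => (VZl C α₀ b ω, (C.cell j b ω, Θ ω)))
  have s2 : hc P (VZl C (C.a j) b) (fun ω => (Y ω, (VZl C α₀ b ω, (C.cell j b ω, Θ ω)))) ≤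
      hc P (VZl C (C.a j) b) (fun ω => (Λ ω, (Y ω, VZl C α₀ b ω))) :=
    hc_mono_right P _ fun ω ω' p p' e => by
      simp only [Prod.mk.injEq] at e ⊢
      exact ⟨hΛ ω ω' p p' e.2.2.2, e.1, e.2.1⟩
  have s3 : hc P Y (fun ω => (VZl C α₀ b ω, (C.cell j b ω, Θ ω))) ≤ hc P Y (C.cell j b) :=
    hc_mono_right P _ fun ω ω' _ _ e => by
      simp only [Prod.mk.injEq] at e
      exact e.2.1
  linarith

/-- **the (V, Z)-step** : any later letter `E`, any letter `Y` near-determined by the cell, any letter `Λ` which is a function of `Θ` -/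
theorem satVYe (h1 : 1 ≤ K) (hK : ∀ ω, 0 < P.w ω → C.Ok K ω) (hl : C.Lev j b) (hW : WOk P C K j b W₀)
    (hE : EOk P C j b i' E) (hΘ : ∀ ω, tv (Θ ω) = C.s i' ω) (hp : C.μ ≤ p) (ha : C.a j + 4 * C.μ ≤ C.a i') (hj : j ≤ i')
    {k k' m g : ℕ} (hk : k ≤ j) (hk' : C.a j = C.a k') (hkj : C.a j = C.a k + m) (hm : 1 ≤ m) (hmg : m ≤ g)
    (hg : g ≤ C.μ) (hμ : 10 * 2 ^ (m + 5 * g + 4) * (70 * K ^ 4 * q2 C.μ) ≤ 1) {ι₁ ι₂ : ℝ}
    (hi1 : mi P (fun ω => fl1 (b + p) (C.l ω).v) E (fun ω => (C.cell j b ω, Θ ω)) ≤ ι₁)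
    (hi2 : mi P Θ (fun ω => (W₀ ω, fl1 (b + p) (C.l ω).v)) (C.cell j b) ≤ ι₂)
    {υ lam : Type} (Y : Ω → υ) (Λ : Ω → lam) (hΛ : Fn P Λ Θ) :
    2 * (m * Real.log 2) - ((15 + 13 * m * (colp P (fun ω => fl1 (C.a j + g) (C.t ω)) (C.cell j b) +
        colp P (fun ω => fl1 (b + g) (C.l ω).v) (C.cell j b)) +
      2 ^ (22 * g) * (Real.sqrt ι₁ + Real.sqrt ι₂)) + hc P Y (C.cell j b)) ≤
    hc P (C.VZ k' b) (fun ω => (Λ ω, (Y ω, C.VZ k b ω))) := by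
  have main := satVZg h1 hK hl hW hE hΘ hp ha hj hk hkj hm hmg hg hμ hi1 hi2
  have es : ∀ ω, C.s k' ω = C.s j ω := by
    intro ω
    unfold Pth.s
    rw [hk']
  have e : C.VZ j b = C.VZ k' b := by
    funext ω
    unfold Pth.VZ
    rw [es, hk']
  rw [e] at main
  have s1 := hc_le_add' P (C.VZ k' b) Y (fun ω => (C.VZ k b ω, (C.cell j b ω, Θ ω)))
  have s2 : hc P (C.VZ k' b) (fun ω => (Y ω, (C.VZ k b ω, (C.cell j b ω, Θ ω)))) ≤
      hc P (C.VZ k' b) (fun ω => (Λ ω, (Y ω, C.VZ k b ω))) :=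
    hc_mono_right P _ fun ω ω' p p' e => by
      simp only [Prod.mk.injEq] at e ⊢
      exact ⟨hΛ ω ω' p p' e.2.2.2, e.1, e.2.1⟩
  have s3 : hc P Y (fun ω => (C.VZ k b ω, (C.cell j b ω, Θ ω))) ≤ hc P Y (C.cell j b) :=
    hc_mono_right P _ fun ω ω' _ _ e => by
      simp only [Prod.mk.injEq] at e
      exact e.2.1
  linarith

/-- **the (V, Z)-step** : any letter `Y` near-determined by the cell, any letter `Λ` which is a function of `Θ` -/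
theorem satVYg (h1 : 1 ≤ K) (hK : ∀ ω, 0 < P.w ω → C.Ok K ω) (hl : C.Lev j b) (hW : WOk P C K j b W₀)
    (hΘ : ∀ ω, tv (Θ ω) = C.s i' ω) (hp : C.μ ≤ p) (ha : C.a j + 4 * C.μ ≤ C.a i') (hj : j ≤ i')
    {k k' m g : ℕ} (hk : k ≤ j) (hk' : C.a j = C.a k') (hkj : C.a j = C.a k + m) (hm : 1 ≤ m) (hmg : m ≤ g)
    (hg : g ≤ C.μ) (hμ : 10 * 2 ^ (m + 5 * g + 4) * (70 * K ^ 4 * q2 C.μ) ≤ 1) {ι₁ ι₂ : ℝ}
    (hi1 : mi P (fun ω => fl1 (b + p) (C.l ω).v) (C.cell i' b) (fun ω => (C.cell j b ω, Θ ω)) ≤ ι₁)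
    (hi2 : mi P Θ (fun ω => (W₀ ω, fl1 (b + p) (C.l ω).v)) (C.cell j b) ≤ ι₂)
    {υ lam : Type} (Y : Ω → υ) (Λ : Ω → lam) (hΛ : Fn P Λ Θ) :
    2 * (m * Real.log 2) - ((15 + 13 * m * (colp P (fun ω => fl1 (C.a j + g) (C.t ω)) (C.cell j b) +
        colp P (fun ω => fl1 (b + g) (C.l ω).v) (C.cell j b)) +
      2 ^ (22 * g) * (Real.sqrt ι₁ + Real.sqrt ι₂)) + hc P Y (C.cell j b)) ≤
    hc P (C.VZ k' b) (fun ω => (Λ ω, (Y ω, C.VZ k b ω))) :=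
  satVYe h1 hK hl hW (EOk.cell hl ha) hΘ hp ha hj hk hk' hkj hm hmg hg hμ hi1 hi2 Y Λ hΛ

end main

section time

variable {Ω : Type} [Fintype Ω] {τ ω₀ υ : Type} {P : Law Ω} {C : Pth Ω τ} {j b p i' : ℕ} {K : ℝ} {W₀ : Ω → ω₀}

/-- **the (V, Z)-step, time digits only** : hypothesis `hV` of `rise_cell` of helper118 for any letter `Y` near-determined by the
cell `(j, b)` (`Y = cell k b`, `Mtr_b k`, ..) -/
theorem satVRt (h1 : 1 ≤ K) (hK : ∀ ω, 0 < P.w ω → C.Ok K ω) (hl : C.Lev j b) (hW : WOk P C K j b W₀) (hp : C.μ ≤ p)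
    (ha : C.a j + 4 * C.μ ≤ C.a i') (hj : j ≤ i')
    {k m g : ℕ} (hk : k + 1 ≤ j) (hk' : C.a j = C.a (k + 1)) (hkj : C.a (k + 1) = C.a k + m) (hm : 1 ≤ m) (hmg : m ≤ g)
    (hg : g ≤ C.μ) (hμ : 10 * 2 ^ (m + 5 * g + 4) * (70 * K ^ 4 * q2 C.μ) ≤ 1) {ι₁ ι₂ : ℝ}
    (hi1 : mi P (fun ω => fl1 (b + p) (C.l ω).v) (C.cell i' b) (fun ω => (C.cell j b ω, fl1 (C.a i') (C.t ω))) ≤ ι₁)
    (hi2 : mi P (fun ω => fl1 (C.a i') (C.t ω)) (fun ω => (W₀ ω, fl1 (b + p) (C.l ω).v)) (C.cell j b) ≤ ι₂)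
    (Y : Ω → υ) :
    2 * (m * Real.log 2) - ((15 + 13 * m * (colp P (fun ω => fl1 (C.a j + g) (C.t ω)) (C.cell j b) +
        colp P (fun ω => fl1 (b + g) (C.l ω).v) (C.cell j b)) +
      2 ^ (22 * g) * (Real.sqrt ι₁ + Real.sqrt ι₂)) + hc P Y (C.cell j b)) ≤
    hc P (C.VZ (k + 1) b) (fun ω => (fl1 (C.a (k + 1)) (C.t ω), (Y ω, C.VZ k b ω))) :=
  satVYg (tv := fun z : ℤ => (z : ℝ) / 2 ^ C.a i') (Θ := fun ω => fl1 (C.a i') (C.t ω)) h1 hK hl hW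
    (fun ω => rfl) hp ha hj (k := k) (k' := k + 1) (by omega) hk' (by omega) hm hmg hg hμ hi1 hi2 Y
    (fun ω => fl1 (C.a (k + 1)) (C.t ω)) (fun ω ω' _ _ e => fl1_coarse (by
      have := C.ha hj
      omega) e)

end time

end Vale.Agent.P106.U.H357
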