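import Vale.Agent.P106.U.H357.USg
import Vale.Agent.P106.U.H958.FzSum
import Vale.Agent.P106.U.H833.LigT

/-!
# P106 / U / H357 : sum of the errors of the time steps of the heavy intervals, over the record (helper357)

* `UsH` : the situation: record, field `f2` at one scale, exceptional levels `XL`, numbers.
* `gd`, `kO`, `kK`, `kP` : the time steps by kinds.
* `i2_O`, `i2_K`, `i2_P` : second informations; `i1_O`, `i1_K`, `i1_P` : first informations.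
* **`us1`** : the sum of `eH` over all a-steps.
-/

set_option autoImplicit false
set_option linter.unusedSectionVars false

namespace Vale.Agent.P106.U.H357

open Finset Vale.Agent.P127 Vale.Agent.P127.Stk Vale.Agent.P127.U.Mic
open Vale.Agent.P127.U.CellD (q2 q2_pos)
open Vale.Agent.P106.U.Cell
open Vale.Agent.P106.U.S3
open Vale.Agent.P106.U.MIC (bc ix az rz nz)
open Vale.Agent.P106.U.H833 (aN RN lev_a aN_mono cNst)
open Vale.Agent.P106.U.H118 (Sdat)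
open Vale.Agent.P106.U.H931 (nx lvi nx_le le_nx nx_spec nx_const a_lvi lvi_le_n)
open Vale.Agent.P106.U.H336 (SwL Rg KR kd)
open Vale.Agent.P106.U.H459 (rxI)
open Vale.Agent.P106.U.H101 (lc)
open Vale.Agent.P106.U.H513 (cNe cSl cNe_nonneg cSl_nonneg)
open Vale.Agent.P106.U.H958 (cF nF xF n1K n1P n2K n2P)
open Vale.Agent.P106.U.H785.Mtr (YI)

section

variable {Ω : Type} [Fintype Ω] {τ υ π : Type}

/-- **the situation** -/
structure UsH (R : Run Ω τ υ) (p : Run.Num) (K c' g' gU : ℝ) (B bS bV : ℕ) (F : Pf R π) (Vs Xs : Finset ℕ) (μ : ℕ) (K' : ℝ)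
    (o : Fin 7 → ℝ) (o' : ℕ → ℝ) (i0 L d q t : ℕ) (gd : ℕ → Prop) (XL : Finset ℕ) : Prop where
  ok : R.Ok p K c' g' gU
  f2 : F2 R p K B bS bV F Vs Xs
  f2o : F2o R p B bS bV F Vs Xs μ K' o o'
  K1 : 1 ≤ K
  hB : (100 * K) ^ 20 ≤ (B : ℝ)
  hr : 100 * (R.m * B) ≤ R.r0
  μB : μ ≤ B
  μC : μ ≤ R.C.μ
  hK' : (100 * K) ^ 20 ≤ K'
  b8 : 8 * μ ≤ R.m * R.b1
  D : Sdat (nz R i0) gd (az R i0) (rz R i0)
  X : XLv R B Vs Xs i0 L XL
  d1 : 1 ≤ d
  dq : d < q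
  qL : q + 1 ≤ L
  dB : d ≤ B
  dμ : 4 * μ ≤ d * R.m
  qt : d + p.J * t ≤ q
  tμ : 4 * μ ≤ R.m * t
  mB5 : 5 * μ ≤ R.m * B

variable {R : Run Ω τ υ} {p : Run.Num} {K c' g' gU : ℝ} {B bS bV : ℕ} {F : Pf R π} {Vs Xs : Finset ℕ} {μ : ℕ} {K' : ℝ}
  {o : Fin 7 → ℝ} {o' : ℕ → ℝ} {i0 L d q t : ℕ} {gd : ℕ → Prop} {XL : Finset ℕ}

/-- growth of the precision of kappa -/
theorem adv_k (hP : R.Path p) (t : ℕ) : ∀ {i j : ℕ}, i ≤ j → j ≤ R.n → aN R i + p.J * t ≤ aN R j →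
    R.C.rk i + R.m * t ≤ R.C.rk j := by
  have hJ := hP.J1
  induction t with
  | zero =>
    intro i j hij _ _
    have := R.C.hk hij
    omega
  | succ t ih =>
    intro i j hij hj ha
    have e1 : p.J * (t + 1) = p.J * t + p.J := by ring
    have key : ∀ y, i ≤ y → y ≤ j → aN R y = aN R i + p.J * t → R.C.rk i + R.m * (t + 1) ≤ R.C.rk j := by
      intro y h1 h2 h3
      have h4 := ih h1 (h2.trans hj) h3.ge
      have a1 := lev_a hP (i := y) (by omega)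
      have a2 := lev_a hP (i := j) (by omega)
      have h5 := hP.advK y j h2 hj (by
        rw [a1, a2, Nat.mul_comm p.J, ← Nat.mul_add]
        exact Nat.mul_le_mul_left _ (by omega))
      have k1 := H833.lev_k hP (i := y) (by omega)
      have k2 := H833.lev_k hP (i := j) (by omega)
      have h6 : H833.kN R y + 1 ≤ H833.kN R j := by
        have h7 : R.m * H833.kN R y < R.m * H833.kN R j := by omega
        exact Nat.lt_of_mul_lt_mul_left h7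
      have h8 := Nat.mul_le_mul_left R.m h6
      rw [Nat.mul_add] at h8 ⊢
      omega
    rcases Nat.eq_zero_or_pos t with ht | ht
    · subst ht
      exact key i le_rfl hij (by ring)
    · have hz : aN R i + p.J * t ≤ aN R R.n := (by omega : aN R i + p.J * t ≤ aN R j).trans (aN_mono hP hj (by omega))
      obtain ⟨y, y1, y2⟩ := H336.exists_lev hP hz
      have hpos : 0 < p.J * t := Nat.mul_pos hJ ht
      refine key y ?_ ?_ y2
      · by_contra hc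
        have := aN_mono hP (i := y) (j := i) (by omega) (by omega)
        omega
      · by_contra hc
        have := aN_mono hP (i := j) (j := y) (by omega) (by omega)
        omega

namespace UsH

variable (H : UsH R p K c' g' gU B bS bV F Vs Xs μ K' o o' i0 L d q t gd XL)

include H

theorem B1 : 1 ≤ B := by
  have h3 : (1 : ℝ) ≤ (100 * K) ^ 20 := one_le_pow₀ (by have := H.K1; linarith)
  exact_mod_cast h3.trans H.hB

theorem pP : R.Path p := H.ok.pth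

theorem mB1 : R.m * R.b1 ≤ p.B₁ := by
  have h1 := H.f2.loS
  have h2 : R.m * (R.b1 + B) = R.m * R.b1 + R.m * B := by ring
  have h4 := H.f2.loV
  have h5 := H.f2.hi
  omega

/-- everything about a time step -/
theorem gdj {j : ℕ} (hj : j < nz R i0) (ha : az R i0 (j + 1) = az R i0 j + 1) (hz : az R i0 j ∉ XL) :
    Gd R p F B bS bV Vs Xs i0 L d q j := gd_of H.pP H.D H.f2 H.B1 H.X H.d1 H.dq H.qL hj ha hz

theorem lt3 {j : ℕ} (hj : j < nz R i0) (ha : az R i0 (j + 1) = az R i0 j + 1) (hz : az R i0 j ∉ XL) :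
    az R i0 (j + 1) + q < az R i0 (nz R i0) := by
  have h1 := H.D.am (Nat.zero_le j) hj.le
  have h2 := H.D.am (show j + 1 ≤ nz R i0 by omega) le_rfl
  have h3 := (H.X (az R i0 j) h1 (by omega) hz).1
  have := H.qL
  omega

theorem Rj {j : ℕ} (hj : j < nz R i0) (ha : az R i0 (j + 1) = az R i0 j + 1) (hz : az R i0 j ∉ XL) :
    R.C.R (rxI R i0 d j) (R.m * R.b1) + 4 * μ ≤ R.C.R (ix3 R i0 q j) (R.m * R.b1) := by
  have h := gd_R H.pP H.D H.mB1 (t := t) H.qt hj (H.lt3 hj ha hz) H.d1 H.dq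
  have := H.tμ
  omega

/-- levels of the third index -/
theorem a3 {j : ℕ} (hG : Gd R p F B bS bV Vs Xs i0 L d q j) : R.C.a (rxI R i0 d j) + 4 * μ ≤ R.C.a (ix3 R i0 q j) := by
  rw [hG.a2, hG.a3]
  have h1 := H.qt
  have h2 := H.tμ
  have hJ := H.pP.J1
  have h3 : t ≤ p.J * t := Nat.le_mul_of_pos_left t hJ
  have h4 : (d + t) * R.m ≤ q * R.m := Nat.mul_le_mul_right _ (by omega)
  rw [Nat.add_mul, Nat.mul_comm t] at h4
  omega

/-- the four indices are in the window of the kind -/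
theorem lvs {j : ℕ} (_hj : j < nz R i0) (ha : az R i0 (j + 1) = az R i0 j + 1) (hG : Gd R p F B bS bV Vs Xs i0 L d q j) :
    (ix R i0 j ≤ R.n ∧ aN R (ix R i0 j) = az R i0 j) ∧
    (ix R i0 (j + 1) ≤ R.n ∧ aN R (ix R i0 (j + 1)) = az R i0 j + 1) ∧
    (rxI R i0 d j ≤ R.n ∧ aN R (rxI R i0 d j) = az R i0 j + 1 + d) ∧
    (ix3 R i0 q j ≤ R.n ∧ aN R (ix3 R i0 q j) = az R i0 j + 1 + q) := by
  have m1 := H.pP.m1
  have e0 : aN R (ix R i0 (j + 1)) = az R i0 (j + 1) := rfl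
  have e1 := H459.a_ix (i0 := i0) H.pP (j + 1)
  refine ⟨⟨H459.ix_n _ _, rfl⟩, ⟨H459.ix_n _ _, by rw [e0, ha]⟩, ⟨hG.h23.trans hG.h3n, ?_⟩, ⟨hG.h3n, ?_⟩⟩
  · unfold H833.aN
    rw [hG.a2, e1, ha, Nat.mul_comm d, ← Nat.mul_add, Nat.mul_div_cancel_left _ m1]
  · unfold H833.aN
    rw [hG.a3, e1, ha, Nat.mul_comm q, ← Nat.mul_add, Nat.mul_div_cancel_left _ m1]

/-- injectivity -/
theorem inj {j j' : ℕ} (hj : j < nz R i0) (ha : az R i0 (j + 1) = az R i0 j + 1) (hj' : j' < nz R i0)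
    (ha' : az R i0 (j' + 1) = az R i0 j' + 1) (h : az R i0 (j + 1) = az R i0 (j' + 1)) : j = j' :=
  H459.step_inj' H.D hj hj' ha ha' h

theorem inj1 {c : Finset (Fin 4)} : ∀ j ∈ AK R Vs i0 XL c, ∀ j' ∈ AK R Vs i0 XL c, ix R i0 (j + 1) = ix R i0 (j' + 1) → j = j' := by
  intro j hj j' hj' e
  rw [mem_AK] at hj hj'
  refine H.inj hj.1 hj.2.1 hj'.1 hj'.2.1 ?_
  have e1 := H459.a_ix (i0 := i0) H.pP (j + 1)
  have e2 := H459.a_ix (i0 := i0) H.pP (j' + 1)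
  rw [e, e2] at e1
  exact (Nat.eq_of_mul_eq_mul_left H.pP.m1 e1).symm

theorem inj2 {c : Finset (Fin 4)} : ∀ j ∈ AK R Vs i0 XL c, ∀ j' ∈ AK R Vs i0 XL c, rxI R i0 d j = rxI R i0 d j' → j = j' := by
  intro j hj j' hj' e
  rw [mem_AK] at hj hj'
  have g1 := H.gdj hj.1 hj.2.1 hj.2.2.1
  have g2 := H.gdj hj'.1 hj'.2.1 hj'.2.2.1
  have a1 := g1.a2
  have a2 := g2.a2
  rw [e, a2, Nat.add_right_cancel_iff, H459.a_ix H.pP, H459.a_ix H.pP] at a1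
  exact H.inj hj.1 hj.2.1 hj'.1 hj'.2.1 (Nat.eq_of_mul_eq_mul_left H.pP.m1 a1).symm

theorem μmB : μ ≤ R.m * B := H.μB.trans (Nat.le_mul_of_pos_left B H.pP.m1)

/-- old -/
theorem kO {j : ℕ} (hj : j ∈ AK R Vs i0 XL {0, 3}) : ix R i0 (j + 1) ∈ IdO R Vs Xs ∧
    Rd (lc R.C μ o) (R.m * R.b1) (ix R i0 (j + 1)) (rxI R i0 d j) (ix3 R i0 q j) := by
  classical
  rw [mem_AK] at hj
  obtain ⟨j1, j2, j3, j4⟩ := hj
  have G := H.gdj j1 j2 j3
  obtain ⟨⟨l1, l2⟩, ⟨m1, m2⟩, ⟨r1, r2⟩, ⟨s1, s2⟩⟩ := H.lvs j1 j2 G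
  have qL := H.qL
  have dq := H.dq
  have w1 := G.reg _ m1 (by omega) (by omega)
  have w2 := G.reg _ r1 (by omega) (by omega)
  have hS := H.f2.loS
  have e1 : R.m * (R.b1 + B) = R.m * R.b1 + R.m * B := by ring
  have hmB := H.μmB
  have hmB1 : 0 < R.m * B := Nat.mul_pos H.pP.m1 H.B1
  have hc : kd R Vs (az R i0 j) = 0 ∨ kd R Vs (az R i0 j) = 3 := by
    rw [Finset.mem_insert, Finset.mem_singleton] at j4
    exact j4
  refine ⟨?_, G.h12.le, G.h23, ?_, ?_, ?_⟩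
  · unfold IdO
    rw [Finset.mem_filter, Finset.mem_Icc]
    refine ⟨⟨w1.1, m1⟩, ?_, w1.2.1⟩
    rcases hc with h | h
    · exact (w1.2.2.2.1 h).1
    · exact (w1.2.2.2.2.2.2 h).1
  · show R.C.a (rxI R i0 d j) + 2 * μ ≤ R.C.a (ix3 R i0 q j)
    have := H.a3 G
    omega
  · rw [H101.lc_R]
    exact H.Rj j1 j2 j3
  · show (R.C.rf (ix R i0 (j + 1)) + 2 * μ ≤ R.m * R.b1 + R.C.rk (ix R i0 (j + 1)) ∧
      R.C.rf (rxI R i0 d j) + 2 * μ ≤ R.m * R.b1 + R.C.rk (rxI R i0 d j)) ∨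
      (R.m * R.b1 + R.C.rk (ix R i0 (j + 1)) < R.C.rf (ix R i0 (j + 1)) ∧
      R.m * R.b1 + R.C.rk (rxI R i0 d j) < R.C.rf (rxI R i0 d j))
    rcases hc with h | h
    · right
      have a1 := (w1.2.2.2.1 h).2.2
      have a2 := (w2.2.2.2.1 h).2.2
      omega
    · left
      have a1 := (w1.2.2.2.2.2.2 h).2.2
      have a2 := (w2.2.2.2.2.2.2 h).2.2
      omega

/-- young, kappa -/
theorem kK {j : ℕ} (hj : j ∈ AK R Vs i0 XL {1}) : ix R i0 (j + 1) ∉ IdO R Vs Xs ∧ ix R i0 (j + 1) ∈ IdK R Vs Xs ∧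
    ix3 R i0 q j ∈ YI R p Vs ∧ R.m * R.b1 + R.C.rk (ix3 R i0 q j) < R.C.rf (ix3 R i0 q j) ∧
    R.C.rk (ix R i0 (j + 1)) + 4 * μ ≤ R.C.rk (ix3 R i0 q j) := by
  classical
  rw [mem_AK, Finset.mem_singleton] at hj
  obtain ⟨j1, j2, j3, j4⟩ := hj
  have G := H.gdj j1 j2 j3
  obtain ⟨⟨l1, l2⟩, ⟨m1, m2⟩, ⟨r1, r2⟩, ⟨s1, s2⟩⟩ := H.lvs j1 j2 G
  have qL := H.qL
  have dq := H.dq
  have w1 := G.reg _ m1 (by omega) (by omega)
  have w3 := G.reg _ s1 (by omega) (by omega)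
  have b1 := w1.2.2.2.2.1 j4
  have b3 := w3.2.2.2.2.1 j4
  refine ⟨?_, ?_, ⟨s1.trans (Nat.le_add_right _ _), b3.1⟩, b3.2.1, ?_⟩
  · unfold IdO
    rw [Finset.mem_filter]
    exact fun h => h.2.1 b1.1
  · unfold IdK
    rw [Finset.mem_filter, Finset.mem_Icc]
    exact ⟨⟨w1.1, m1⟩, b1.1, w1.2.1, b1.2.1⟩
  · have h1 := adv_k H.pP t (i := ix R i0 (j + 1)) (j := ix3 R i0 q j) (G.h12.le.trans G.h23) s1 (by
      have := H.qt
      omega)
    have := H.tμ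
    omega

/-- young, deep phi -/
theorem kP {j : ℕ} (hj : j ∈ AK R Vs i0 XL {2}) : ix R i0 (j + 1) ∉ IdO R Vs Xs ∧ ix R i0 (j + 1) ∉ IdK R Vs Xs ∧
    ix R i0 (j + 1) ∈ IdP R F B Vs Xs ∧
    ix3 R i0 q j ∈ YI R p Vs ∧ R.C.rf (ix3 R i0 q j) + 2 * (R.m * B) ≤ R.m * R.b1 + F.rk0 (ix3 R i0 q j) ∧
    R.C.rf (rxI R i0 d j) + 4 * μ ≤ R.C.rf (ix3 R i0 q j) ∧
    R.C.rk (ix R i0 (j + 1)) + 4 * μ ≤ R.C.rk (ix3 R i0 q j) := by
  classical
  rw [mem_AK, Finset.mem_singleton] at hj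
  obtain ⟨j1, j2, j3, j4⟩ := hj
  have G := H.gdj j1 j2 j3
  obtain ⟨⟨l1, l2⟩, ⟨m1, m2⟩, ⟨r1, r2⟩, ⟨s1, s2⟩⟩ := H.lvs j1 j2 G
  have qL := H.qL
  have dq := H.dq
  have w1 := G.reg _ m1 (by omega) (by omega)
  have w2 := G.reg _ r1 (by omega) (by omega)
  have w3 := G.reg _ s1 (by omega) (by omega)
  have b1 := w1.2.2.2.2.2.1 j4
  have b2 := w2.2.2.2.2.2.1 j4
  have b3 := w3.2.2.2.2.2.1 j4
  have hl := F.l0 (rxI R i0 d j)
  refine ⟨?_, ?_, ?_, ⟨s1.trans (Nat.le_add_right _ _), b3.1⟩, b3.2.2, ?_, ?_⟩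
  · unfold IdO
    rw [Finset.mem_filter]
    exact fun h => h.2.1 b1.1
  · unfold IdK
    rw [Finset.mem_filter]
    exact fun h => b1.2.1 h.2.2.2
  · unfold IdP
    rw [Finset.mem_filter, Finset.mem_Icc]
    exact ⟨⟨w1.1, m1⟩, b1.1, w1.2.1, b1.2.2⟩
  · have h1 := H.Rj j1 j2 j3
    rw [Pth.R_eq, Pth.R_eq] at h1
    omega
  · have h1 := adv_k H.pP t (i := ix R i0 (j + 1)) (j := ix3 R i0 q j) (G.h12.le.trans G.h23) s1 (by
      have := H.qt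
      omega)
    have := H.tμ
    omega

/-! ### second informations -/

theorem i2_O : ∑ j ∈ AK R Vs i0 XL {0, 3}, I2L R.Q (lc R.C μ o) (R.m * R.b1) bS (ix R i0 (j + 1)) (rxI R i0 d j) ≤
    F2b R p B μ K' d :=
  (i2_sum (AK R Vs i0 XL {0, 3}) (IdO R Vs Xs) (fun k => At' R p B d k) (fun j => ix R i0 (j + 1)) (fun j => rxI R i0 d j)
    (fun k i => I2L R.Q (lc R.C μ o) (R.m * R.b1) bS k i) (fun _ _ => mi_nonneg _ _ _ _) (fun _ hj => (H.kO hj).1)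
    (fun j hj => by
      have h := mem_AK.1 hj
      exact (H.gdj h.1 h.2.1 h.2.2.1).at_) H.inj1).trans (H.f2o.S d H.dB)

theorem i2_K : ∑ j ∈ AK R Vs i0 XL {1}, I2L R.Q ((mt R F μ o o').fz (ix R i0 (j + 1)) (ix R i0 (j + 1))) (R.m * R.b1) bV
    (ix R i0 (j + 1)) (rxI R i0 d j) ≤ F2b R p B μ K' d :=
  (i2_sum (AK R Vs i0 XL {1}) (IdK R Vs Xs) (fun k => At' R p B d k) (fun j => ix R i0 (j + 1)) (fun j => rxI R i0 d j)
    (fun k i => I2L R.Q ((mt R F μ o o').fz k k) (R.m * R.b1) bV k i) (fun _ _ => mi_nonneg _ _ _ _)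
    (fun _ hj => (H.kK hj).2.1)
    (fun j hj => by
      have h := mem_AK.1 hj
      exact (H.gdj h.1 h.2.1 h.2.2.1).at_) H.inj1).trans (H.f2o.V1 d H.dB)

theorem i2_P : ∑ j ∈ AK R Vs i0 XL {2}, I2L R.Q ((mt0 R F μ o o').fz (ix R i0 (j + 1)) (ix R i0 (j + 1))) (R.m * R.b1) bV
    (ix R i0 (j + 1)) (rxI R i0 d j) ≤ F2b R p B μ K' d :=
  (i2_sum (AK R Vs i0 XL {2}) (IdP R F B Vs Xs) (fun k => At' R p B d k) (fun j => ix R i0 (j + 1)) (fun j => rxI R i0 d j)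
    (fun k i => I2L R.Q ((mt0 R F μ o o').fz k k) (R.m * R.b1) bV k i) (fun _ _ => mi_nonneg _ _ _ _)
    (fun _ hj => (H.kP hj).2.2.1)
    (fun j hj => by
      have h := mem_AK.1 hj
      exact (H.gdj h.1 h.2.1 h.2.2.1).at_) H.inj1).trans (H.f2o.P1 d H.dB)

/-! ### first informations -/

theorem Kp : 640 * K ^ 7 ≤ K' := by
  have h1 := H.K1
  have h2 : K ^ 7 ≤ K ^ 20 := pow_le_pow_right₀ h1 (by norm_num)
  have h0 : 0 ≤ K ^ 7 := by positivity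
  calc 640 * K ^ 7 ≤ 100 ^ 20 * K ^ 7 := mul_le_mul_of_nonneg_right (by norm_num) h0
    _ ≤ 100 ^ 20 * K ^ 20 := mul_le_mul_of_nonneg_left h2 (by norm_num)
    _ = (100 * K) ^ 20 := by ring
    _ ≤ K' := H.hK'

theorem levO (x : ℕ) : (lc R.C μ o).Lev x (R.m * R.b1) := by
  refine lev_of H.b8 ?_
  show 8 * μ ≤ R.C.rk x
  have h1 := R.C.hk (Nat.zero_le x)
  rw [H.pP.k0] at h1
  have := H.hr
  have := H.μmB
  omega

/-- few runs -/
theorem gapc (c : Finset (Fin 4)) :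
    (((gapS ((AK R Vs i0 XL c).image fun j => az R i0 (j + 1))).card : ℕ) : ℝ) ≤ XL.card + 1 := by
  have := card_gapS H.pP H.D H.f2 H.B1 H.X (by have := H.qL; omega) c
  exact_mod_cast this

theorem i1_O (pv : ℕ) : ∑ j ∈ AK R Vs i0 XL {0, 3}, I1L R.Q (lc R.C μ o) (R.m * R.b1) pv (ix R i0 (j + 1)) (rxI R i0 d j)
      ((lc R.C μ o).cell (rxI R i0 d j) (R.m * R.b1)) ≤
    q * (XL.card + 1) * (pv * Real.log 2) +
      4 * (cNe K + cSl K) * Real.sqrt (az R i0 (nz R i0) * xF R p μ K' 0) := by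
  have key := s1_O (P := R.Q) (C := lc R.C μ o) (K := K) (K' := K') H.K1 (fun ω hω => H101.lc_Ok o H.μC (H.ok.ok ω hω))
    (b := R.m * R.b1) (pv := pv) H.levO H.Kp H.D (AK R Vs i0 XL {0, 3}) (fun j hj => by
      have h := mem_AK.1 hj
      exact ⟨h.1, h.2.1⟩) (ix R i0) (fun j => rxI R i0 d j) q (fun j hj => (H.kO hj).2)
  have hg := H.gapc {0, 3}
  have c1 := cNe_nonneg K
  have c2 := cSl_nonneg K
  have hl : (0 : ℝ) ≤ pv * Real.log 2 := mul_nonneg (Nat.cast_nonneg _) (Real.log_nonneg (by norm_num))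
  have hx0 : ∑ k ∈ range (R.n + p.J + 1), exc R.Q (lc R.C μ o) K' k (R.m * R.b1) ≤ xF R p μ K' 0 := by
    have h1 := H.f2o.off
    have h2 : ∑ k ∈ range (R.n + p.J + 1), exc R.Q (lc R.C μ o) K' k (R.m * R.b1) ≤ ∑ k ∈ range (R.n + p.J + 1),
        (exc R.Q (lc R.C μ o) K' k (R.m * R.b1) + exc R.Q (lc R.C μ o) K' k bS) :=
      Finset.sum_le_sum fun k _ => by
        have := exc_nonneg R.Q (lc R.C μ o) K' k bS
        linarith
    have h3 : K' ^ 2 * (R.n + p.J + 1) * q2 (μ / 4) = xF R p μ K' 0 := by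
      unfold xF
      push_cast
      ring
    linarith
  have hX := H958.xF_nn R p μ K' 0
  have hnA : (((AK R Vs i0 XL {0, 3}).card : ℕ) : ℝ) ≤ az R i0 (nz R i0) := by exact_mod_cast card_AK H.D {0, 3}
  have hs : Real.sqrt (((AK R Vs i0 XL {0, 3}).card : ℕ) * xF R p μ K' 0) ≤
      Real.sqrt (az R i0 (nz R i0) * xF R p μ K' 0) := Real.sqrt_le_sqrt (mul_le_mul_of_nonneg_right hnA hX)
  have s1 := sum_sq (AK R Vs i0 XL {0, 3}) (fun j => ix R i0 (j + 1)) H.inj1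
    (fun k => exc R.Q (lc R.C μ o) K' k (R.m * R.b1)) (fun k => exc_nonneg _ _ _ _ _) (T := range (R.n + p.J + 1))
    (fun j _ => by
      rw [Finset.mem_range]
      have := H459.ix_n (R := R) i0 (j + 1)
      omega) hx0
  have s2 := sum_sq (AK R Vs i0 XL {0, 3}) (fun j => rxI R i0 d j) H.inj2
    (fun k => exc R.Q (lc R.C μ o) K' k (R.m * R.b1)) (fun k => exc_nonneg _ _ _ _ _) (T := range (R.n + p.J + 1))
    (fun j hj => by
      have h := mem_AK.1 hj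
      have G := H.gdj h.1 h.2.1 h.2.2.1
      rw [Finset.mem_range]
      have := G.h23.trans G.h3n
      omega) hx0
  refine key.trans (add_le_add ?_ ?_)
  · refine mul_le_mul_of_nonneg_right ?_ hl
    exact mul_le_mul_of_nonneg_left hg (Nat.cast_nonneg _)
  · rw [Finset.sum_add_distrib]
    have h5 : ∑ j ∈ AK R Vs i0 XL {0, 3}, Real.sqrt (exc R.Q (lc R.C μ o) K' (ix R i0 (j + 1)) (R.m * R.b1)) +
        ∑ j ∈ AK R Vs i0 XL {0, 3}, Real.sqrt (exc R.Q (lc R.C μ o) K' (rxI R i0 d j) (R.m * R.b1)) ≤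
        2 * Real.sqrt (az R i0 (nz R i0) * xF R p μ K' 0) := by linarith
    have h6 := mul_le_mul_of_nonneg_left h5 (show 0 ≤ 2 * (cNe K + cSl K) by positivity)
    linarith

theorem yiO {k : ℕ} (h : k ∈ IdK R Vs Xs ∨ k ∈ IdP R F B Vs Xs) : k ∈ YI R p Vs := by
  classical
  unfold IdK IdP at h
  rw [Finset.mem_filter, Finset.mem_filter, Finset.mem_Icc] at h
  rcases h with h | h
  · exact ⟨h.1.2.trans (Nat.le_add_right _ _), h.2.1⟩
  · exact ⟨h.1.2.trans (Nat.le_add_right _ _), h.2.1⟩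

theorem r0k (i : ℕ) : μ ≤ R.C.rk i := by
  have h1 := R.C.hk (Nat.zero_le i)
  rw [H.pP.k0] at h1
  have := H.hr
  have := H.μmB
  omega

/-- near bound, kappa -/
theorem nrK {j : ℕ} (hj : j ∈ AK R Vs i0 XL {1}) :
    hc R.Q (fun ω => (((mt R F μ o o').fz (ix R i0 (j + 1)) (ix R i0 (j + 1))).cell (rxI R i0 d j) (R.m * R.b1) ω,
      (LDk ((mt R F μ o o').fz (ix R i0 (j + 1)) (ix R i0 (j + 1))) (R.m * R.b1) (ix R i0 (j + 1)) ω,
      LTh ((mt R F μ o o').fz (ix R i0 (j + 1)) (ix R i0 (j + 1))) (R.m * R.b1) (rxI R i0 d j) ω)))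
      ((mt R F μ o o').mtr (ix3 R i0 q j) (R.m * R.b1)) ≤
    cF K * nF R (mt R F μ o o') μ o o' K' (ix R i0 (j + 1)) (rxI R i0 d j) (R.m * R.b1) := by
  classical
  obtain ⟨k1, k2, k3, k4, k5⟩ := H.kK hj
  have h := mem_AK.1 hj
  have G := H.gdj h.1 h.2.1 h.2.2.1
  have h3 := H.a3 G
  have hk : R.m * R.b1 + R.C.rk (ix R i0 (j + 1)) < R.C.rf (ix R i0 (j + 1)) := by
    unfold IdK at k2
    rw [Finset.mem_filter] at k2
    exact k2.2.2.2
  have r1 := H.r0k (ix R i0 (j + 1))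
  have r3 := H.r0k (ix3 R i0 q j)
  refine n1K H.ok H.f2 H.K1 H.hB H.hr H.μB H.μC H.hK' (H.yiO (Or.inl k2)) k3 G.h12.le G.h23 (by omega) H.b8 (by omega) hk ?_
  rw [Pth.R_eq, H958.fz_rk' le_rfl G.h12.le, H785.Mtr.Mtd.fz_rf _ G.h12.le]
  show min (R.C.rk (ix R i0 (j + 1)) - μ / 2 + R.m * R.b1) (R.C.rf (rxI R i0 d j)) + μ ≤
    min (R.C.rk (ix3 R i0 q j) - μ / 2 + R.m * R.b1) (R.C.rf (ix3 R i0 q j))
  omega

/-- near bound, deep phi -/
theorem nrP {j : ℕ} (hj : j ∈ AK R Vs i0 XL {2}) :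
    hc R.Q (fun ω => (((mt0 R F μ o o').fz (ix R i0 (j + 1)) (ix R i0 (j + 1))).cell (rxI R i0 d j) (R.m * R.b1) ω,
      (LDk ((mt0 R F μ o o').fz (ix R i0 (j + 1)) (ix R i0 (j + 1))) (R.m * R.b1) (ix R i0 (j + 1)) ω,
      LTh ((mt0 R F μ o o').fz (ix R i0 (j + 1)) (ix R i0 (j + 1))) (R.m * R.b1) (rxI R i0 d j) ω)))
      ((mt0 R F μ o o').mtr (ix3 R i0 q j) (R.m * R.b1)) ≤
    cF K * nF R (mt0 R F μ o o') μ o o' K' (ix R i0 (j + 1)) (rxI R i0 d j) (R.m * R.b1) := by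
  classical
  obtain ⟨k1, k1', k2, k3, k4, k5, k6⟩ := H.kP hj
  have h := mem_AK.1 hj
  have G := H.gdj h.1 h.2.1 h.2.2.1
  have h3 := H.a3 G
  have hk : R.C.rf (ix R i0 (j + 1)) + 2 * (R.m * B) ≤ R.m * R.b1 + F.rk0 (ix R i0 (j + 1)) := by
    unfold IdP at k2
    rw [Finset.mem_filter] at k2
    exact k2.2.2.2
  have hat := G.at_
  have hiB : rxI R i0 d j ≤ ix R i0 (j + 1) + B := by
    unfold At' at hat
    rw [Finset.mem_filter] at hat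
    exact hat.2.2.1
  have l1 := H.f2.lo0 (ix3 R i0 q j)
  have hr := H.hr
  have hmB := H.μmB
  refine n1P H.ok H.f2 H.K1 H.hB H.hr H.μB H.μC H.hK' (H.yiO (Or.inr k2)) k3 G.h12.le G.h23 (by omega) H.b8 (by omega) ?_
    (H958.lvP H.ok H.f2 H.hr H.μB H.mB5 hk G.h12.le hiB (by have := G.h23.trans G.h3n; omega))
  show R.C.rf (rxI R i0 d j) + 4 * μ ≤ min (F.rk0 (ix3 R i0 q j) - μ / 2 + R.m * R.b1) (R.C.rf (ix3 R i0 q j))
  omega

end UsH

/-- **first informations over the data `Dd`** (785's `Mtd`), abstract -/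
theorem i1_Y {π' : Type} (Dd : H785.Mtr.Mtd Ω π') (H : UsH R p K c' g' gU B bS bV F Vs Xs μ K' o o' i0 L d q t gd XL) (c : Finset (Fin 4)) (pv : ℕ)
    (hn : ∀ j ∈ AK R Vs i0 XL c,
      hc R.Q (fun ω => ((Dd.fz (ix R i0 (j + 1)) (ix R i0 (j + 1))).cell (rxI R i0 d j) (R.m * R.b1) ω,
      (LDk (Dd.fz (ix R i0 (j + 1)) (ix R i0 (j + 1))) (R.m * R.b1) (ix R i0 (j + 1)) ω,
      LTh (Dd.fz (ix R i0 (j + 1)) (ix R i0 (j + 1))) (R.m * R.b1) (rxI R i0 d j) ω)))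
      (Dd.mtr (ix3 R i0 q j) (R.m * R.b1)) ≤
      cF K * nF R Dd μ o o' K' (ix R i0 (j + 1)) (rxI R i0 d j) (R.m * R.b1))
    (hs : ∑ j ∈ AK R Vs i0 XL c, nF R Dd μ o o' K' (ix R i0 (j + 1)) (rxI R i0 d j) (R.m * R.b1) ≤
      4 * Real.sqrt ((AK R Vs i0 XL c).card * ((1 : ℕ) * ((d + 1) * xF R p μ K' d)))) :
    ∑ j ∈ AK R Vs i0 XL c, I1L R.Q (Dd.fz (ix R i0 (j + 1)) (ix R i0 (j + 1))) (R.m * R.b1) pv (ix R i0 (j + 1)) (rxI R i0 d j)
      ((Dd.fz (ix R i0 (j + 1)) (ix R i0 (j + 1))).cell (rxI R i0 d j) (R.m * R.b1)) ≤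
    q * (XL.card + 1) * (pv * Real.log 2) + 8 * cF K * Real.sqrt (az R i0 (nz R i0) * ((d + 1) * xF R p μ K' d)) := by
  have hl : (0 : ℝ) ≤ pv * Real.log 2 := mul_nonneg (Nat.cast_nonneg _) (Real.log_nonneg (by norm_num))
  have hcF : 0 ≤ cF K := by
    obtain ⟨z1, z2, z3⟩ := H958.z_nn (4 * K)
    unfold cF
    have := z3 ⌈641 * (4 * K) ^ 2⌉₊
    linarith
  have fc : ∀ J : ℕ, Fn R.Q (Dd.mtr J (R.m * R.b1)) ((Dd.fz J J).cell J (R.m * R.b1)) := fun J ω ω' _ _ e =>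
    (Dd.fz_cell_iff le_rfl _ ω ω').1 e
  have fc' : ∀ J : ℕ, Fn R.Q ((Dd.fz J J).cell J (R.m * R.b1)) (Dd.mtr J (R.m * R.b1)) := fun J ω ω' _ _ e =>
    (Dd.fz_cell_iff le_rfl _ ω ω').2 e
  have key := s1_gen R.Q H.D (AK R Vs i0 XL c) (fun j hj => by
      have h := mem_AK.1 hj
      exact ⟨h.1, h.2.1⟩) q (fun ω => fl1 (R.m * R.b1 + pv) (Dd.l ω).v)
    (fun v => Dd.mtr (ix R i0 (lvi (nz R i0) (az R i0) v)) (R.m * R.b1))
    (fun j => (Dd.fz (ix R i0 (j + 1)) (ix R i0 (j + 1))).cell (rxI R i0 d j) (R.m * R.b1))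
    (fun j => LDk (Dd.fz (ix R i0 (j + 1)) (ix R i0 (j + 1))) (R.m * R.b1) (ix R i0 (j + 1)))
    (fun j => LTh (Dd.fz (ix R i0 (j + 1)) (ix R i0 (j + 1))) (R.m * R.b1) (rxI R i0 d j))
    (by
      intro j hj
      have h := mem_AK.1 hj
      rw [lvi_a H.D h.1 h.2.1]
      intro ω ω' p1 p2 e
      exact fc _ ω ω' p1 p2 (cell_LDk R.Q (Dd.fz (ix R i0 (j + 1)) (ix R i0 (j + 1))) (R.m * R.b1) (ix R i0 (j + 1)) ω ω' p1 p2 e))
    hl
    (by
      intro j hj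
      have h := mem_AK.1 hj
      rw [lvi_a H.D h.1 h.2.1]
      exact (hc_mono_right R.Q _ (fc' _)).trans (H420.hc_v R.Q (Dd.fz (ix R i0 (j + 1)) (ix R i0 (j + 1))) (ix R i0 (j + 1)) _ pv))
    (fun j => cF K * nF R Dd μ o o' K' (ix R i0 (j + 1)) (rxI R i0 d j) (R.m * R.b1))
    (fun j => cF K * nF R Dd μ o o' K' (ix R i0 (j + 1)) (rxI R i0 d j) (R.m * R.b1))
    (by
      intro j hj
      have h := mem_AK.1 hj
      rw [lvi_a H.D h.1 h.2.1]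
      refine le_trans (hc_mono_left R.Q ?_) (hn j hj)
      intro ω ω' p1 p2 e
      simp only [Prod.mk.injEq] at e
      exact fc _ ω ω' p1 p2 (cell_LDk R.Q (Dd.fz (ix R i0 (j + 1)) (ix R i0 (j + 1))) (R.m * R.b1) (ix R i0 (j + 1)) ω ω' p1 p2 e.1.2.1))
    (fun j hj => hn j hj)
  have hg := H.gapc c
  have hX := H958.xF_nn R p μ K' d
  have hnA : (((AK R Vs i0 XL c).card : ℕ) : ℝ) ≤ az R i0 (nz R i0) := by exact_mod_cast card_AK H.D c
  have hs' : Real.sqrt (((AK R Vs i0 XL c).card : ℕ) * ((1 : ℕ) * ((d + 1) * xF R p μ K' d))) ≤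
      Real.sqrt (az R i0 (nz R i0) * ((d + 1) * xF R p μ K' d)) := by
    refine Real.sqrt_le_sqrt ?_
    rw [Nat.cast_one, one_mul]
    exact mul_le_mul_of_nonneg_right hnA (by positivity)
  refine key.trans (add_le_add ?_ ?_)
  · refine mul_le_mul_of_nonneg_right ?_ hl
    exact mul_le_mul_of_nonneg_left hg (Nat.cast_nonneg _)
  · rw [Finset.sum_add_distrib, ← Finset.mul_sum]
    have h6 := mul_le_mul_of_nonneg_left (hs.trans (mul_le_mul_of_nonneg_left hs' (by norm_num))) hcF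
    linarith

namespace UsH

variable (H : UsH R p K c' g' gU B bS bV F Vs Xs μ K' o o' i0 L d q t gd XL)

include H

theorem i1_K (pv : ℕ) : ∑ j ∈ AK R Vs i0 XL {1}, I1L R.Q ((mt R F μ o o').fz (ix R i0 (j + 1)) (ix R i0 (j + 1))) (R.m * R.b1) pv
      (ix R i0 (j + 1)) (rxI R i0 d j)
      (((mt R F μ o o').fz (ix R i0 (j + 1)) (ix R i0 (j + 1))).cell (rxI R i0 d j) (R.m * R.b1)) ≤
    q * (XL.card + 1) * (pv * Real.log 2) + 8 * cF K * Real.sqrt (az R i0 (nz R i0) * ((d + 1) * xF R p μ K' d)) := by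
  classical
  refine i1_Y (mt R F μ o o') H {1} pv (fun j hj => H.nrK hj) ?_
  refine n2K H.f2o (AK R Vs i0 XL {1}) (fun j => ix R i0 (j + 1)) (fun j => rxI R i0 d j) (fun _ => d) 1 d H.dB
    (fun j hj => ⟨(H.kK hj).2.1, ?_, le_rfl⟩) ?_
  · have h := mem_AK.1 hj
    exact (H.gdj h.1 h.2.1 h.2.2.1).at_
  · intro s
    rw [Finset.card_le_one]
    intro x hx y hy
    rw [Finset.mem_filter] at hx hy
    exact H.inj1 x hx.1 y hy.1 (hx.2.trans hy.2.symm)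

theorem i1_P (pv : ℕ) : ∑ j ∈ AK R Vs i0 XL {2}, I1L R.Q ((mt0 R F μ o o').fz (ix R i0 (j + 1)) (ix R i0 (j + 1))) (R.m * R.b1) pv
      (ix R i0 (j + 1)) (rxI R i0 d j)
      (((mt0 R F μ o o').fz (ix R i0 (j + 1)) (ix R i0 (j + 1))).cell (rxI R i0 d j) (R.m * R.b1)) ≤
    q * (XL.card + 1) * (pv * Real.log 2) + 8 * cF K * Real.sqrt (az R i0 (nz R i0) * ((d + 1) * xF R p μ K' d)) := by
  classical
  refine i1_Y (mt0 R F μ o o') H {2} pv (fun j hj => H.nrP hj) ?_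
  refine n2P H.f2o (AK R Vs i0 XL {2}) (fun j => ix R i0 (j + 1)) (fun j => rxI R i0 d j) (fun _ => d) 1 d H.dB
    (fun j hj => ⟨(H.kP hj).2.2.1, ?_, le_rfl⟩) ?_
  · have h := mem_AK.1 hj
    exact (H.gdj h.1 h.2.1 h.2.2.1).at_
  · intro s
    rw [Finset.card_le_one]
    intro x hx y hy
    rw [Finset.mem_filter] at hx hy
    exact H.inj1 x hx.1 y hy.1 (hx.2.trans hy.2.symm)

end UsH

end

end Vale.Agent.P106.U.H357
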