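import Vale.Agent.P106.U.H357.USb
import Vale.Agent.P106.U.H118.HSt
import Vale.Agent.P106.U.H459.XB

/-!
# P106 / U / H357 : the sum of `eH` at the situation `St` (helper357)

* `dS x` (`4 μ` in blocks), `qS`; `XLs` : the exceptional levels of reach `L`; `xlv_XLs`, `card_XLs`.
* `ush_st` : `UsH` for `St`; `hx_st` : hypothesis `hx` of helper118's `hLet_of`.
* **`us_st`** : `∑ eH ≤ Ub` with helper118's mixed letter `Yz`, from the three collision sums.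
-/

set_option autoImplicit false
set_option linter.unusedSectionVars false

namespace Vale.Agent.P106.U.H357

open Finset Vale.Agent.P127 Vale.Agent.P127.Stk Vale.Agent.P127.U.Mic Vale.Agent.P106.W Vale.Agent.P106.K
open Vale.Agent.P127.U.CellD (q2 q2_pos)
open Vale.Agent.P106.U
open Vale.Agent.P106.U.Cell
open Vale.Agent.P106.U.S3
open Vale.Agent.P106.U.S5
open Vale.Agent.P106.U.MIC (bc ix az rz nz St μS xS KS cμ)
open Vale.Agent.P106.U.H336 (kd SwL)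
open Vale.Agent.P106.U.H459 (rxI XB)
open Vale.Agent.P106.U.H101 (lc)
open Vale.Agent.P106.U.H118 (Yz cM nuK nuK_nonneg)

/-- `4 μ` in blocks -/
noncomputable def dS (x : ℕ) : ℕ := 4 * cμ * xS x

/-- reach of the telescope -/
noncomputable def qS (x : ℕ) (ρ : Thr) : ℕ := dS x + ρ.J * dS x

theorem dS_mul (x m : ℕ) : dS x * m = 4 * μS x m := by
  unfold dS μS
  ring

theorem dS_pos (x : ℕ) : 1 ≤ dS x := by
  have h1 : 0 < MIC.cN := lt_of_lt_of_le (by norm_num) (le_max_left 800 MIC.cφ)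
  have h2 : 0 < cμ := Nat.mul_pos (by norm_num) h1
  have h3 : 0 < xS x := by unfold xS; omega
  exact Nat.mul_pos (Nat.mul_pos (by norm_num) h2) h3

section run

variable {Ω : Type} [Fintype Ω] {τ υ : Type}

/-- **the exceptional levels** of reach `L` -/
noncomputable def XLs (R : Run Ω τ υ) (B : ℕ) (Vs Xs : Finset ℕ) (i0 L : ℕ) : Finset ℕ :=
  (SwL R B Vs Xs L ∪ (SwL R B Vs Xs L).image fun z => z - 1) ∪ Icc (az R i0 (nz R i0) - (L + 1)) (az R i0 (nz R i0))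

variable {R : Run Ω τ υ} {B : ℕ} {Vs Xs : Finset ℕ} {i0 L : ℕ}

theorem xlv_XLs : XLv R B Vs Xs i0 L (XLs R B Vs Xs i0 L) := by
  classical
  intro z _ hz hX
  unfold XLs at hX
  rw [Finset.mem_union, Finset.mem_union, Finset.mem_image, Finset.mem_Icc, not_or, not_or] at hX
  obtain ⟨⟨h1, h2⟩, h3⟩ := hX
  refine ⟨?_, h1, fun h => h2 ⟨z + 1, h, rfl⟩⟩
  by_contra hcon
  exact h3 ⟨by omega, hz.le⟩

theorem card_XLs : (XLs R B Vs Xs i0 L).card ≤ 2 * (SwL R B Vs Xs L).card + (L + 2) := by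
  classical
  unfold XLs
  have h1 := Finset.card_union_le (SwL R B Vs Xs L ∪ (SwL R B Vs Xs L).image fun z => z - 1)
    (Icc (az R i0 (nz R i0) - (L + 1)) (az R i0 (nz R i0)))
  have h2 := Finset.card_union_le (SwL R B Vs Xs L) ((SwL R B Vs Xs L).image fun z => z - 1)
  have h3 : ((SwL R B Vs Xs L).image fun z => z - 1).card ≤ (SwL R B Vs Xs L).card := Finset.card_image_le
  rw [Nat.card_Icc] at h1
  omega

end run

section st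

variable {η : ℝ} {x : ℕ} {σ : Cst} {ε : ℝ} {ρ : Thr} {g : Gv} {m B h : ℕ}

/-- `UsH` for `St` -/
theorem ush_st (hρ : ρ.Ok) (s : St η x σ ε ρ g m B h) (hB : KS ρ ≤ (B : ℝ)) (hμB : μS x m ≤ B) (hm5 : 5 ≤ m) {L : ℕ}
    (hL : qS x ρ + 1 ≤ L) : UsH s.R s.pn ρ.K ρ.c' s.g' s.gU B s.bS s.bV s.F s.Vs s.Xs (μS x m) (KS ρ) s.o s.o' s.i0 L
      (dS x) (qS x ρ) (dS x) (MIC.gdR s.R s.pn (MIC.eG ε ρ) s.i0) (XLs s.R B s.Vs s.Xs s.i0 L) := by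
  have hP := s.run.ok.pth
  have h1 : B ≤ s.R.m * B := Nat.le_mul_of_pos_left B hP.m1
  have hμC : μS x m ≤ s.R.C.μ := by
    have h2 : s.R.C.μ = s.R.m * B := by rw [s.run.hμ, s.run.hm]
    omega
  have hd := dS_pos x
  have hJ : 1 ≤ ρ.J := by rw [← s.run.hJ]; exact hP.J1
  have hJd : 0 < ρ.J * dS x := Nat.mul_pos hJ hd
  have hdm := dS_mul x m
  have e1 : dS x * m ≤ m * B := by
    have h3 : 4 * μS x m ≤ 5 * B := by omega
    have h4 : 5 * B ≤ m * B := Nat.mul_le_mul_right _ hm5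
    omega
  refine ⟨s.run.ok, s.f2, s.f2o, hρ.K1, hB, ?_, hμB, hμC, le_rfl, H812.b_mu s.run hμC, s.word.sd, xlv_XLs, hd, ?_, hL, ?_, ?_,
    ?_, ?_, ?_⟩
  · rw [s.run.hm, s.run.hr0]
    exact s.run.rm
  · unfold qS
    omega
  · rw [Nat.mul_comm] at e1
    exact Nat.le_of_mul_le_mul_left e1 (by omega)
  · rw [s.run.hm, hdm]
  · rw [s.run.hJ]
    exact le_rfl
  · rw [s.run.hm, Nat.mul_comm m, hdm]
  · rw [s.run.hm]
    exact Nat.mul_le_mul hm5 hμB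

/-- hypothesis `hx` of `hLet_of` -/
theorem hx_st (hρ : ρ.Ok) (s : St η x σ ε ρ g m B h) (hB : KS ρ ≤ (B : ℝ)) (hμB : μS x m ≤ B) (hm5 : 5 ≤ m) {L : ℕ}
    (hL : qS x ρ + 1 ≤ L) (XE : Finset ℕ) : ∀ j < s.N, s.a (j + 1) = s.a j + 1 →
      j ∉ XS s.R s.i0 (XLs s.R B s.Vs s.Xs s.i0 L) ∪ XE →
      s.f (j + 1) ≤ rxI s.R s.i0 (dS x) j ∧ s.R.C.a (s.f (j + 1)) + 4 * μS x m ≤ s.R.C.a (rxI s.R s.i0 (dS x) j) :=
  fun _ hj ha hX => (ush_st hρ s hB hμB hm5 hL).hxU XE hj ha hX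

/-- **the sum of `eH` at `St`**, mixed letter `Yz` -/
theorem us_st (hρ : ρ.Ok) (s : St η x σ ε ρ g m B h) (hB : KS ρ ≤ (B : ℝ)) (hμB : μS x m ≤ B) (hm5 : 5 ≤ m)
    (hq : 640 * (4 * ρ.K) ^ 2 * q2 (μS x m) ≤ 1) {L : ℕ} (hL : qS x ρ + 1 ≤ L) (XE : Finset ℕ) {gg pv : ℕ}
    {ccO ccK ccP : ℝ}
    (hcO : ∑ j ∈ AK s.R s.Vs s.i0 (XLs s.R B s.Vs s.Xs s.i0 L) {0, 3} \ XE,
      (cTL s.R.Q (lc s.R.C (μS x m) s.o) (s.R.m * s.R.b1) (ix s.R s.i0 (j + 1)) gg +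
      cYL s.R.Q (lc s.R.C (μS x m) s.o) (s.R.m * s.R.b1) (ix s.R s.i0 (j + 1)) gg) ≤ ccO)
    (hcK : ∑ j ∈ AK s.R s.Vs s.i0 (XLs s.R B s.Vs s.Xs s.i0 L) {1} \ XE,
      (cTL s.R.Q ((mt s.R s.F (μS x m) s.o s.o').fz (ix s.R s.i0 (j + 1)) (ix s.R s.i0 (j + 1))) (s.R.m * s.R.b1)
        (ix s.R s.i0 (j + 1)) gg +
      cYL s.R.Q ((mt s.R s.F (μS x m) s.o s.o').fz (ix s.R s.i0 (j + 1)) (ix s.R s.i0 (j + 1))) (s.R.m * s.R.b1)
        (ix s.R s.i0 (j + 1)) gg) ≤ ccK)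
    (hcP : ∑ j ∈ AK s.R s.Vs s.i0 (XLs s.R B s.Vs s.Xs s.i0 L) {2} \ XE,
      (cTL s.R.Q ((mt0 s.R s.F (μS x m) s.o s.o').fz (ix s.R s.i0 (j + 1)) (ix s.R s.i0 (j + 1))) (s.R.m * s.R.b1)
        (ix s.R s.i0 (j + 1)) gg +
      cYL s.R.Q ((mt0 s.R s.F (μS x m) s.o s.o').fz (ix s.R s.i0 (j + 1)) (ix s.R s.i0 (j + 1))) (s.R.m * s.R.b1)
        (ix s.R s.i0 (j + 1)) gg) ≤ ccP) :
    ∑ j ∈ (range s.N).filter (fun j => s.a (j + 1) = s.a j + 1),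
      eH s.R s.F B s.bS s.bV s.Vs s.Xs (μS x m) s.o s.o' gg pv s.f (rxI s.R s.i0 (dS x))
        (XS s.R s.i0 (XLs s.R B s.Vs s.Xs s.i0 L) ∪ XE) (Yz s.R s.i0 s.F s.Vs s.Xs (μS x m) s.o s.o') j ≤
    Ub s.R s.pn ρ.K (KS ρ) B (μS x m) s.i0 (dS x) (qS x ρ) gg pv (XLs s.R B s.Vs s.Xs s.i0 L) XE (nuK ρ.K + cM ρ.K)
      (ccO + ccK + ccP) := by
  have H := ush_st hρ s hB hμB hm5 hL
  have hR := H118.rec_st hρ s hB hμB hq
  have h100 := H812.r_mu s.run hR.μC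
  have hn := nuK_nonneg ρ.K
  have hM : 0 ≤ cM ρ.K := H118.cM_nonneg ρ.K
  have hL1 : 1 ≤ L := by omega
  have key : ∀ c : Finset (Fin 4), ∀ j ∈ AK s.R s.Vs s.i0 (XLs s.R B s.Vs s.Xs s.i0 L) c \ XE, j < nz s.R s.i0 ∧
      az s.R s.i0 (j + 1) = az s.R s.i0 j + 1 ∧ az s.R s.i0 j + 1 < az s.R s.i0 (nz s.R s.i0) ∧
      az s.R s.i0 j ∉ SwL s.R B s.Vs s.Xs L ∧ kd s.R s.Vs (az s.R s.i0 j) ∈ c := by
    intro c j hj
    obtain ⟨h1, h2, h3, h4⟩ := mem_AK.1 (Finset.mem_sdiff.1 hj).1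
    have h5 := H.D.am (Nat.zero_le j) h1.le
    have h6 := H.D.am (show j + 1 ≤ nz s.R s.i0 by omega) le_rfl
    obtain ⟨x1, x2, x3⟩ := H.X (az s.R s.i0 j) h5 (by omega) h3
    exact ⟨h1, h2, by omega, x2, h4⟩
  refine H.us1 XE (Yz s.R s.i0 s.F s.Vs s.Xs (μS x m) s.o s.o') (by linarith) (fun j hj => ?_) (fun j hj => ?_)
    (fun j hj => ?_) hcO hcK hcP
  · obtain ⟨k1, k2, k3, k4, k5⟩ := key _ j hj
    rw [Finset.mem_insert, Finset.mem_singleton] at k5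
    have := H118.yz_O (o := s.o) (o' := s.o') hR H.B1 h100 s.hi0 hL1 k2 k3 k4 k5
    linarith
  · obtain ⟨k1, k2, k3, k4, k5⟩ := key _ j hj
    rw [Finset.mem_singleton] at k5
    have := H118.yz_K (o := s.o) (o' := s.o') hR H.B1 s.hi0 hL1 k1 k2 k3 k4 k5
    linarith
  · obtain ⟨k1, k2, k3, k4, k5⟩ := key _ j hj
    rw [Finset.mem_singleton] at k5
    have := H118.yz_P (o := s.o) (o' := s.o') hR H.B1 s.hi0 hL1 k1 k2 k3 k4 k5
    linarith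

end st

end Vale.Agent.P106.U.H357
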